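import Vale.Agent.CK.Red

/-!
# P322: the base case `n = 1`, by a sign change argument for power series
-/

namespace Vale.Agent.CK

open Finset Real Set

theorem hasSum_of_eq {f g : ℕ → ℝ} {a b : ℝ} (h : HasSum f a) (hfg : ∀ k, g k = f k)
    (hab : b = a) : HasSum g b := by
  have : g = f := funext hfg
  rw [this, hab]
  exact h

theorem hasSum_rLL {r : ℝ} (h : |r| < 1) :
    HasSum (fun k : ℕ => 2 / (2 * (k : ℝ) + 1) * r ^ (2 * k + 2)) (r * LL r) := by
  refine hasSum_of_eq ((Real.hasSum_log_sub_log_of_abs_lt_one h).mul_left r) (fun k => ?_) rfl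
  rw [pow_succ r (2 * k + 1)]
  ring

theorem hasSum_ell {r : ℝ} (h : |r| < 1) :
    HasSum (fun k : ℕ => 1 / ((k : ℝ) + 1) * r ^ (2 * k + 2)) (-log (1 - r ^ 2)) := by
  have h2 : |r ^ 2| < 1 := by
    rw [abs_pow]
    exact pow_lt_one₀ (abs_nonneg r) h two_ne_zero
  refine hasSum_of_eq (Real.hasSum_pow_div_log_of_abs_lt_one h2) (fun k => ?_) rfl
  rw [← pow_mul, show 2 * (k + 1) = 2 * k + 2 by ring]
  ring

/-- the coefficients of `Phi` -/
noncomputable def Pc (k : ℕ) : ℝ := 1 / ((2 * (k : ℝ) + 1) * (2 * k + 2))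

theorem Pc_pos (k : ℕ) : 0 < Pc k := by
  unfold Pc
  positivity

theorem hasSum_Phi {r : ℝ} (h : |r| < 1) :
    HasSum (fun k : ℕ => Pc k * r ^ (2 * k + 2)) (Phi r) := by
  have h1 := ((hasSum_rLL h).sub (hasSum_ell h)).mul_left (1 / 2)
  obtain ⟨h2, h3⟩ := abs_lt.1 h
  refine hasSum_of_eq h1 (fun k => ?_) ?_
  · unfold Pc
    have : (k : ℝ) + 1 ≠ 0 := by positivity
    have : 2 * (k : ℝ) + 1 ≠ 0 := by positivity
    have : 2 * (k : ℝ) + 2 ≠ 0 := by positivity
    field_simp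
    ring
  · have := Tan.Phi_id h2 h3
    unfold Tan.ell at this
    linarith

theorem hasSum_wf {r : ℝ} (h : |r| < 1) :
    HasSum (fun k : ℕ => 8 * ((k : ℝ) + 1) * Pc k * r ^ (2 * k + 2)) (wf r) := by
  refine hasSum_of_eq ((hasSum_rLL h).mul_left 2) (fun k => ?_) ?_
  · unfold Pc
    have : 2 * (k : ℝ) + 1 ≠ 0 := by positivity
    have : 2 * (k : ℝ) + 2 ≠ 0 := by positivity
    field_simp
    ring
  · unfold wf
    ring

/-- one sign change -/
theorem sign_step {S : ℕ → ℝ} {m r d : ℝ} (hm : 0 < m) (hr : 0 < r) (hd : 0 < d)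
    (hS : ∀ j, 0 < S j) (hS1 : S 1 = d) (hS2 : m * S 2 = d ^ 2)
    (hlc : ∀ j, S (j + 1) ^ 2 ≤ S j * S (j + 2)) :
    ∀ j, m * r ^ (j + 1) ≤ S (j + 1) → r * S (j + 1) ≤ S (j + 2) := by
  intro j
  induction j with
  | zero =>
    intro h
    simp only [zero_add, pow_one] at h ⊢
    rw [hS1] at h ⊢
    have h1 : m * (r * d) ≤ m * S 2 := by
      rw [hS2]
      nlinarith
    exact le_of_mul_le_mul_left h1 hm
  | succ j ih =>
    intro h
    have h1 : r * S (j + 1) ≤ S (j + 2) := by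
      rcases le_or_gt (m * r ^ (j + 1)) (S (j + 1)) with h2 | h2
      · exact ih h2
      · refine le_trans ?_ h
        calc r * S (j + 1) ≤ r * (m * r ^ (j + 1)) := mul_le_mul_of_nonneg_left h2.le hr.le
          _ = m * r ^ (j + 1 + 1) := by ring
    have h3 := hlc (j + 1)
    have h4 : S (j + 1) * (r * S (j + 2)) ≤ S (j + 1) * S (j + 3) := by
      calc S (j + 1) * (r * S (j + 2)) = (r * S (j + 1)) * S (j + 2) := by ring
        _ ≤ S (j + 2) * S (j + 2) := mul_le_mul_of_nonneg_right h1 (hS _).le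
        _ = S (j + 2) ^ 2 := by ring
        _ ≤ S (j + 1) * S (j + 3) := h3
    exact le_of_mul_le_mul_left h4 (hS _)

/-- the weighted power sums -/
noncomputable def Sf (x d : ℝ) (j : ℕ) : ℝ :=
  (1 - x) / 2 * (d / (1 - x)) ^ j + (1 + x) / 2 * (d / (1 + x)) ^ j

theorem Sf_pos {x d : ℝ} (h0 : 0 ≤ x) (hd : 0 < d) (h1 : x < 1) (j : ℕ) : 0 < Sf x d j := by
  unfold Sf
  have h2 : 0 < 1 - x := by linarith
  have h3 : 0 < 1 + x := by linarith
  positivity

theorem Sf_one {x d : ℝ} (h0 : 0 ≤ x) (h1 : x < 1) : Sf x d 1 = d := by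
  unfold Sf
  have h2 : 0 < 1 - x := by linarith
  have h3 : 0 < 1 + x := by linarith
  field_simp
  ring

theorem Sf_two {x d : ℝ} (h0 : 0 ≤ x) (h1 : x < 1) : (1 - x ^ 2) * Sf x d 2 = d ^ 2 := by
  unfold Sf
  have h2 : 0 < 1 - x := by linarith
  have h3 : 0 < 1 + x := by linarith
  have h4 : 1 - x ^ 2 = (1 - x) * (1 + x) := by ring
  rw [h4]
  field_simp
  ring

theorem Sf_logconvex {x d : ℝ} (h0 : 0 ≤ x) (hd : 0 < d) (h1 : x < 1) (j : ℕ) :
    Sf x d (j + 1) ^ 2 ≤ Sf x d j * Sf x d (j + 2) := by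
  unfold Sf
  have h2 : 0 < 1 - x := by linarith
  have h3 : 0 < 1 + x := by linarith
  set X := d / (1 - x) with hX
  set Y := d / (1 + x) with hY
  have hX0 : 0 < X := by positivity
  have hY0 : 0 < Y := by positivity
  have e : ((1 - x) / 2 * X ^ j + (1 + x) / 2 * Y ^ j) *
      ((1 - x) / 2 * X ^ (j + 2) + (1 + x) / 2 * Y ^ (j + 2)) -
      ((1 - x) / 2 * X ^ (j + 1) + (1 + x) / 2 * Y ^ (j + 1)) ^ 2 =
      (1 - x) / 2 * ((1 + x) / 2) * (X ^ j * Y ^ j) * (X - Y) ^ 2 := by ring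
  have : 0 ≤ (1 - x) / 2 * ((1 + x) / 2) * (X ^ j * Y ^ j) * (X - Y) ^ 2 := by positivity
  linarith

theorem hasSum_mix {f : ℝ → ℝ} {c : ℕ → ℝ} {x d r : ℝ}
    (hf : ∀ r : ℝ, |r| < 1 → HasSum (fun k : ℕ => c k * r ^ (2 * k + 2)) (f r)) (h0 : 0 ≤ x)
    (hd : 0 < d) (h1 : x + d < 1) (hr0 : 0 < r) (hr1 : r < 1) :
    HasSum (fun k : ℕ => c k * (Sf x d (2 * k + 2) - (1 - x ^ 2) * r ^ (2 * k + 2)))
      ((1 - x) / 2 * f (d / (1 - x)) + (1 + x) / 2 * f (d / (1 + x)) - (1 - x ^ 2) * f r) := by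
  have h2 : 0 < 1 - x := by linarith
  have h3 : 0 < 1 + x := by linarith
  have hX : |d / (1 - x)| < 1 := by
    rw [abs_of_pos (by positivity), div_lt_one h2]
    linarith
  have hY : |d / (1 + x)| < 1 := by
    rw [abs_of_pos (by positivity), div_lt_one h3]
    linarith
  have hr : |r| < 1 := by rwa [abs_of_pos hr0]
  refine hasSum_of_eq ((((hf _ hX).mul_left ((1 - x) / 2)).add
    ((hf _ hY).mul_left ((1 + x) / 2))).sub ((hf _ hr).mul_left (1 - x ^ 2))) (fun k => ?_) rfl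
  unfold Sf
  ring

/-- the sign change argument -/
theorem series_ineq {x d r C : ℝ} (h0 : 0 ≤ x) (hd : 0 < d) (h1 : x + d < 1) (hr0 : 0 < r)
    (hr1 : r < 1) (hC : 0 ≤ C)
    (h : (1 - x) / 2 * Phi (d / (1 - x)) + (1 + x) / 2 * Phi (d / (1 + x)) -
      (1 - x ^ 2) * Phi r = C) :
    (1 - x ^ 2) * wf r ≤ (1 - x) / 2 * wf (d / (1 - x)) + (1 + x) / 2 * wf (d / (1 + x)) := by
  have hx1 : x < 1 := by linarith
  have hm : 0 < 1 - x ^ 2 := by nlinarith
  have s1 := hasSum_mix (c := Pc) (f := Phi) (fun r hr => hasSum_Phi hr) h0 hd h1 hr0 hr1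
  have s2 := hasSum_mix (c := fun k => 8 * ((k : ℝ) + 1) * Pc k) (f := wf)
    (fun r hr => hasSum_wf hr) h0 hd h1 hr0 hr1
  rw [h] at s1
  set e : ℕ → ℝ := fun k => Sf x d (2 * k + 2) - (1 - x ^ 2) * r ^ (2 * k + 2) with hedef
  have hstep := sign_step hm hr0 hd (fun j => Sf_pos h0 hd hx1 j) (Sf_one h0 hx1)
    (Sf_two h0 hx1) (fun j => Sf_logconvex h0 hd hx1 j)
  have hnext : ∀ k, 0 ≤ e k → 0 ≤ e (k + 1) := by
    intro k hk
    simp only [hedef] at hk ⊢
    have a1 : (1 - x ^ 2) * r ^ (2 * k + 1 + 1) ≤ Sf x d (2 * k + 1 + 1) := by linarith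
    have a2 := hstep (2 * k + 1) a1
    have a3 : (1 - x ^ 2) * r ^ (2 * k + 2 + 1) ≤ Sf x d (2 * k + 2 + 1) := by
      refine le_trans ?_ a2
      calc (1 - x ^ 2) * r ^ (2 * k + 2 + 1) = r * ((1 - x ^ 2) * r ^ (2 * k + 1 + 1)) := by ring
        _ ≤ r * Sf x d (2 * k + 1 + 1) := mul_le_mul_of_nonneg_left a1 hr0.le
    have a4 := hstep (2 * k + 2) a3
    have a5 : (1 - x ^ 2) * r ^ (2 * k + 4) ≤ Sf x d (2 * k + 4) := by
      refine le_trans ?_ a4
      calc (1 - x ^ 2) * r ^ (2 * k + 4) = r * ((1 - x ^ 2) * r ^ (2 * k + 2 + 1)) := by ring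
        _ ≤ r * Sf x d (2 * k + 2 + 1) := mul_le_mul_of_nonneg_left a3 hr0.le
    have e1 : 2 * (k + 1) + 2 = 2 * k + 4 := by ring
    rw [e1]
    linarith
  by_cases hex : ∃ k, 0 ≤ e k
  · classical
    set k0 := Nat.find hex with hk0
    have hge : ∀ k, k0 ≤ k → 0 ≤ e k := by
      intro k hk
      induction k, hk using Nat.le_induction with
      | base => exact Nat.find_spec hex
      | succ k _ ih => exact hnext k ih
    have hlt : ∀ k, k < k0 → e k < 0 := fun k hk => not_le.1 (Nat.find_min hex hk)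
    have s3 := s2.sub (s1.mul_left (8 * ((k0 : ℝ) + 1)))
    have hnn : ∀ k : ℕ, 0 ≤ 8 * ((k : ℝ) + 1) * Pc k * e k - 8 * ((k0 : ℝ) + 1) * (Pc k * e k) := by
      intro k
      have e2 : 8 * ((k : ℝ) + 1) * Pc k * e k - 8 * ((k0 : ℝ) + 1) * (Pc k * e k) =
          8 * Pc k * (((k : ℝ) - k0) * e k) := by ring
      rw [e2]
      refine mul_nonneg (by have := Pc_pos k; positivity) ?_
      rcases le_or_gt k0 k with hk | hk
      · have : (k0 : ℝ) ≤ k := by exact_mod_cast hk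
        exact mul_nonneg (by linarith) (hge k hk)
      · have : (k : ℝ) < k0 := by exact_mod_cast hk
        exact mul_nonneg_of_nonpos_of_nonpos (by linarith) (hlt k hk).le
    have h4 := HasSum.nonneg hnn s3
    have h5 : 0 ≤ 8 * ((k0 : ℝ) + 1) * C := by positivity
    linarith
  · exfalso
    push Not at hex
    have s3 := s1.neg
    have h4 := sum_le_hasSum {0} (fun k _ => by
      have := mul_neg_of_pos_of_neg (Pc_pos k) (hex k)
      have h5 : 0 ≤ -(Pc k * e k) := by linarith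
      exact h5) s3
    rw [Finset.sum_singleton] at h4
    have := mul_neg_of_pos_of_neg (Pc_pos 0) (hex 0)
    have h5 : -(Pc 0 * e 0) ≤ -C := h4
    linarith

/-- `Phi x ≤ x² log 2` -/
theorem Phi_le_sq {x : ℝ} (h0 : 0 ≤ x) (h1 : x < 1) : Phi x ≤ x ^ 2 * log 2 := by
  have hmono : ∀ y, x < y → y < 1 → Phi x * y ^ 2 ≤ x ^ 2 * Phi y := by
    intro y hxy hy1
    have hx : |x| < 1 := by rwa [abs_of_nonneg h0]
    have hy : |y| < 1 := by rwa [abs_of_pos (by linarith)]
    have s1 := (hasSum_Phi hx).mul_right (y ^ 2)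
    have s2 := (hasSum_Phi hy).mul_left (x ^ 2)
    refine hasSum_le (fun k => ?_) s1 s2
    have h2 : x ^ (2 * k) ≤ y ^ (2 * k) := pow_le_pow_left₀ h0 hxy.le _
    have h3 : 0 ≤ Pc k * (x ^ 2 * y ^ 2) := by
      have := Pc_pos k
      positivity
    calc Pc k * x ^ (2 * k + 2) * y ^ 2 = Pc k * (x ^ 2 * y ^ 2) * x ^ (2 * k) := by ring
      _ ≤ Pc k * (x ^ 2 * y ^ 2) * y ^ (2 * k) := mul_le_mul_of_nonneg_left h2 h3
      _ = x ^ 2 * (Pc k * y ^ (2 * k + 2)) := by ring
  have ht : Filter.Tendsto (fun y => x ^ 2 * Phi y - Phi x * y ^ 2) (nhdsWithin 1 (Iio 1))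
      (nhds (x ^ 2 * Phi 1 - Phi x * 1 ^ 2)) := by
    have hc : Continuous fun y : ℝ => x ^ 2 * Phi y - Phi x * y ^ 2 := by
      have := Phi_continuous
      fun_prop
    exact (hc.tendsto 1).mono_left nhdsWithin_le_nhds
  have h2 : 0 ≤ x ^ 2 * Phi 1 - Phi x * 1 ^ 2 := by
    refine ge_of_tendsto ht ?_
    have : Ioo x 1 ∈ nhdsWithin (1 : ℝ) (Iio 1) := Ioo_mem_nhdsLT h1
    filter_upwards [this] with y hy
    have := hmono y hy.1 hy.2
    linarith
  rw [Phi_one] at h2
  linarith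

/-- `W` in the coordinates -/
theorem W_coord {x d : ℝ} (h0 : 0 ≤ x) (hd : 0 < d) (h1 : x + d < 1) :
    d * (LL (x + d) - LL (x - d)) =
      (1 - x) / 2 * wf (d / (1 - x)) + (1 + x) / 2 * wf (d / (1 + x)) := by
  have h2 : 0 < 1 - x := by linarith
  have h3 : 0 < 1 + x := by linarith
  have l1 : LL (d / (1 - x)) = log (1 - x + d) - log (1 - x - d) := by
    unfold LL
    have a1 : 1 + d / (1 - x) = (1 - x + d) / (1 - x) := by field_simp
    have a2 : 1 - d / (1 - x) = (1 - x - d) / (1 - x) := by field_simp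
    rw [a1, a2, log_div (by linarith) h2.ne', log_div (by linarith) h2.ne']
    ring
  have l2 : LL (d / (1 + x)) = log (1 + x + d) - log (1 + x - d) := by
    unfold LL
    have a1 : 1 + d / (1 + x) = (1 + x + d) / (1 + x) := by field_simp
    have a2 : 1 - d / (1 + x) = (1 + x - d) / (1 + x) := by field_simp
    rw [a1, a2, log_div (by linarith) h3.ne', log_div (by linarith) h3.ne']
    ring
  have e1 : (1 - x) / 2 * wf (d / (1 - x)) = d * LL (d / (1 - x)) := by
    unfold wf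
    field_simp
  have e2 : (1 + x) / 2 * wf (d / (1 + x)) = d * LL (d / (1 + x)) := by
    unfold wf
    field_simp
  rw [e1, e2, l1, l2]
  unfold LL
  have b1 : 1 + (x + d) = 1 + x + d := by ring
  have b2 : 1 - (x + d) = 1 - x - d := by ring
  have b3 : 1 + (x - d) = 1 + x - d := by ring
  have b4 : 1 - (x - d) = 1 - x + d := by ring
  rw [b1, b2, b3, b4]
  ring

/-- the Jensen-Shannon divergence in the coordinates -/
theorem J_coord {x d : ℝ} (h0 : 0 ≤ x) (hd : 0 < d) (h1 : x + d < 1) :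
    (1 - x) / 2 * Phi (d / (1 - x)) + (1 + x) / 2 * Phi (d / (1 + x)) =
      log 2 - Phi x - hb x d := by
  have h2 : 0 < 1 - x := by linarith
  have h3 : 0 < 1 + x := by linarith
  have hX : d / (1 - x) < 1 := by rw [div_lt_one h2]; linarith
  have hY : d / (1 + x) < 1 := by rw [div_lt_one h3]; linarith
  have hX0 : 0 < d / (1 - x) := by positivity
  have hY0 : 0 < d / (1 + x) := by positivity
  unfold hb
  rw [Tan.Phi_eq (by linarith) hX, Tan.Phi_eq (by linarith) hY,
    Tan.Phi_eq (by linarith : -1 < x) (by linarith), Tan.Phi_eq (by linarith : -1 < x + d) h1,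
    Tan.Phi_eq (by linarith : -1 < x - d) (by linarith)]
  have a1 : 1 + d / (1 - x) = (1 - x + d) / (1 - x) := by field_simp
  have a2 : 1 - d / (1 - x) = (1 - x - d) / (1 - x) := by field_simp
  have a3 : 1 + d / (1 + x) = (1 + x + d) / (1 + x) := by field_simp
  have a4 : 1 - d / (1 + x) = (1 + x - d) / (1 + x) := by field_simp
  have b1 : 1 + (x + d) = 1 + x + d := by ring
  have b2 : 1 - (x + d) = 1 - x - d := by ring
  have b3 : 1 + (x - d) = 1 + x - d := by ring
  have b4 : 1 - (x - d) = 1 - x + d := by ring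
  rw [a1, a2, a3, a4, b1, b2, b3, b4, log_div (by linarith) h2.ne', log_div (by linarith) h2.ne',
    log_div (by linarith) h3.ne', log_div (by linarith) h3.ne']
  field_simp
  ring

theorem hb_pos {x d : ℝ} (h0 : 0 ≤ x) (hd : 0 < d) (h1 : x + d < 1) : 0 < hb x d := by
  have e1 : hb x d = (binEntropy ((1 + (x + d)) / 2) + binEntropy ((1 + (x - d)) / 2)) / 2 := by
    rw [binEntropy_half, binEntropy_half]
    unfold hb
    ring
  rw [e1]
  have := binEntropy_pos (p := (1 + (x + d)) / 2) (by linarith) (by linarith)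
  have := binEntropy_pos (p := (1 + (x - d)) / 2) (by linarith) (by linarith)
  linarith

/-- base case, in coordinates -/
theorem base_main {t x d : ℝ} (ht0 : 0 < t) (ht1 : t < 1) (h0 : 0 ≤ x) (hd : 0 < d)
    (h1 : x + d < 1) :
    max (PsiT t (log 2 - Phi x - hb x d)) ((1 - x ^ 2) * RT t (hb x d / (1 - x ^ 2))) ≤
      d * (LL (x + d) - LL (x - d)) := by
  have h2 : 0 < 1 - x := by linarith
  have h3 : 0 < 1 + x := by linarith
  have hX : d / (1 - x) < 1 := by rw [div_lt_one h2]; linarith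
  have hY : d / (1 + x) < 1 := by rw [div_lt_one h3]; linarith
  have hX0 : 0 < d / (1 - x) := by positivity
  have hY0 : 0 < d / (1 + x) := by positivity
  have hm : 0 < 1 - x ^ 2 := by nlinarith
  rw [W_coord h0 hd h1]
  have hJ := J_coord h0 hd h1
  apply max_le
  · rw [← hJ]
    have h4 := (PsiT_convexOn ht0 ht1).2 (Set.mem_univ (Phi (d / (1 - x))))
      (Set.mem_univ (Phi (d / (1 + x)))) (by linarith : 0 ≤ (1 - x) / 2)
      (by linarith : 0 ≤ (1 + x) / 2) (by ring)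
    simp only [smul_eq_mul] at h4
    refine h4.trans (add_le_add (mul_le_mul_of_nonneg_left ?_ (by linarith))
      (mul_le_mul_of_nonneg_left ?_ (by linarith)))
    · rw [← Psi_Phi hX0.le hX]
      exact PsiT_le_Psi ht0 ht1 (Phi_mem hX0 hX).2
    · rw [← Psi_Phi hY0.le hY]
      exact PsiT_le_Psi ht0 ht1 (Phi_mem hY0 hY).2
  · have hH := hb_pos h0 hd h1
    have hHm : 0 < hb x d / (1 - x ^ 2) := div_pos hH hm
    have h4 : (1 - x ^ 2) * RT t (hb x d / (1 - x ^ 2)) ≤
        (1 - x ^ 2) * RR (hb x d / (1 - x ^ 2)) :=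
      mul_le_mul_of_nonneg_left (RT_le_RR ht0 ht1 hHm) hm.le
    refine h4.trans ?_
    unfold RR
    rcases le_or_gt (log 2 - hb x d / (1 - x ^ 2)) 0 with h5 | h5
    · rw [Psi_of_nonpos h5, mul_zero]
      have a1 := wf_nonneg hX0.le hX
      have a2 := wf_nonneg hY0.le hY
      positivity
    · have h6 : log 2 - hb x d / (1 - x ^ 2) < log 2 := by linarith
      have hK := Kinv_mem h5 h6
      have hP := Phi_Kinv h5 h6
      rw [Psi, if_pos h5]
      refine series_ineq (C := x ^ 2 * log 2 - Phi x) h0 hd h1 hK.1 hK.2 ?_ ?_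
      · linarith [Phi_le_sq h0 (by linarith : x < 1)]
      · rw [hJ, hP]
        field_simp
        ring

/-- `G` vanishes on constants (is nonpositive) -/
theorem GG_diag {t a : ℝ} (ht0 : 0 < t) (ht1 : t < 1) (ha0 : 0 < a) (ha1 : a < 1) :
    GG t a (binEntropy a) ≤ 0 := by
  have key : ∀ x : ℝ, 0 ≤ x → x < 1 → GG t ((1 + x) / 2) (binEntropy ((1 + x) / 2)) ≤ 0 := by
    intro x h0 h1
    have hm : 0 < 1 - x ^ 2 := by nlinarith
    unfold GG
    have e1 : 4 * ((1 + x) / 2) * (1 - (1 + x) / 2) = 1 - x ^ 2 := by ring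
    rw [sub_self, e1]
    apply max_le
    · rw [PsiT_of_nonpos ht0 ht1 le_rfl]
    · have hH : 0 < binEntropy ((1 + x) / 2) := binEntropy_pos (by linarith) (by linarith)
      have hHm : 0 < binEntropy ((1 + x) / 2) / (1 - x ^ 2) := div_pos hH hm
      have h4 : (1 - x ^ 2) * RT t (binEntropy ((1 + x) / 2) / (1 - x ^ 2)) ≤
          (1 - x ^ 2) * RR (binEntropy ((1 + x) / 2) / (1 - x ^ 2)) :=
        mul_le_mul_of_nonneg_left (RT_le_RR ht0 ht1 hHm) hm.le
      refine h4.trans ?_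
      unfold RR
      rw [Psi_of_nonpos, mul_zero]
      have h5 := Phi_le_sq h0 h1
      rw [binEntropy_half, sub_nonpos, le_div_iff₀ hm]
      linarith
  rcases le_or_gt (1 / 2) a with h | h
  · have e : a = (1 + (2 * a - 1)) / 2 := by ring
    rw [e]
    exact key _ (by linarith) (by linarith)
  · have e : a = 1 - (1 + (1 - 2 * a)) / 2 := by ring
    rw [e, GG_one_sub, binEntropy_one_sub]
    exact key _ (by linarith) (by linarith)

theorem base_lt {t p q : ℝ} (ht0 : 0 < t) (ht1 : t < 1) (hq0 : 0 < q) (hqp : q < p)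
    (hpq : p + q ≤ 1) :
    GG t ((p + q) / 2) ((binEntropy p + binEntropy q) / 2) ≤ WW p q := by
  obtain ⟨x, hx⟩ : ∃ x, x = 1 - (p + q) := ⟨_, rfl⟩
  obtain ⟨d, hd⟩ : ∃ d, d = p - q := ⟨_, rfl⟩
  have hp : p = (1 + -(x - d)) / 2 := by rw [hx, hd]; ring
  have hq : q = (1 + -(x + d)) / 2 := by rw [hx, hd]; ring
  have hx0 : 0 ≤ x := by rw [hx]; linarith
  have hd0 : 0 < d := by rw [hd]; linarith
  have hxd : x + d < 1 := by rw [hx, hd]; linarith
  have h := base_main ht0 ht1 hx0 hd0 hxd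
  have e1 : (binEntropy p + binEntropy q) / 2 = hb x d := by
    rw [hp, hq, binEntropy_half, binEntropy_half, Phi_neg, Phi_neg]
    unfold hb
    ring
  have e2 : (p + q) / 2 = (1 + -x) / 2 := by rw [hx]; ring
  have e3 : WW p q = d * (LL (x + d) - LL (x - d)) := by
    unfold WW
    rw [← hd, hp, hq, lgt_half (by linarith) (by linarith), lgt_half (by linarith) (by linarith),
      LL_neg', LL_neg']
    ring
  rw [e1, e2, e3]
  unfold GG
  have e4 : 4 * ((1 + -x) / 2) * (1 - (1 + -x) / 2) = 1 - x ^ 2 := by ring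
  rw [e4, binEntropy_half, Phi_neg]
  exact h

/-- **Base case `n = 1`.** -/
theorem base1 {t p q : ℝ} (ht0 : 0 < t) (ht1 : t < 1) (hp0 : 0 < p) (hp1 : p < 1) (hq0 : 0 < q)
    (hq1 : q < 1) : GG t ((p + q) / 2) ((binEntropy p + binEntropy q) / 2) ≤ WW p q := by
  have main : ∀ p q : ℝ, 0 < p → p < 1 → 0 < q → q < 1 → p + q ≤ 1 →
      GG t ((p + q) / 2) ((binEntropy p + binEntropy q) / 2) ≤ WW p q := by
    intro p q hp0 hp1 hq0 hq1 hpq
    rcases lt_trichotomy p q with h | h | h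
    · have := base_lt ht0 ht1 hp0 h (by linarith)
      rw [add_comm q p, add_comm (binEntropy q), WW_symm] at this
      exact this
    · rw [h]
      have e1 : (q + q) / 2 = q := by ring
      have e2 : (binEntropy q + binEntropy q) / 2 = binEntropy q := by ring
      have e3 : WW q q = 0 := by unfold WW; ring
      rw [e1, e2, e3]
      exact GG_diag ht0 ht1 hq0 hq1
    · exact base_lt ht0 ht1 hq0 h hpq
  rcases le_or_gt (p + q) 1 with h | h
  · exact main p q hp0 hp1 hq0 hq1 h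
  · have h2 := main (1 - p) (1 - q) (by linarith) (by linarith) (by linarith) (by linarith)
      (by linarith)
    have e1 : (1 - p + (1 - q)) / 2 = 1 - (p + q) / 2 := by ring
    have e2 : WW (1 - p) (1 - q) = WW p q := by
      unfold WW lgt
      have a1 : 1 - (1 - p) = p := by ring
      have a2 : 1 - (1 - q) = q := by ring
      rw [a1, a2]
      ring
    rw [e1, GG_one_sub, binEntropy_one_sub, binEntropy_one_sub, e2] at h2
    exact h2

end Vale.Agent.CK
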