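import Mathlib

/-!
# P322: definitions for the statement of the Courtade-Kumar conjecture
-/

namespace Vale.Agent.CK

open Finset

/-- Transition probability of `n` independent binary symmetric channels with crossover probability
`ε`: the input is `x`, the output is `y` (points of `{-1,1}^n`, coded by `Fin n → Bool`). -/
noncomputable def bsc {n : ℕ} (ε : ℝ) (x y : Fin n → Bool) : ℝ :=
  ∏ i, (if x i = y i then 1 - ε else ε)

/-- Joint law of `(f(X), Y)`, where `X` is uniform on the cube and `Y` is the output of the
channels with input `X`. -/
noncomputable def jointLaw {n : ℕ} (ε : ℝ) (f : (Fin n → Bool) → Bool) (b : Bool)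
    (y : Fin n → Bool) : ℝ :=
  ∑ x, if f x = b then (1 / 2 ^ n) * bsc ε x y else 0

/-- Mutual information, in bits, of two random variables with joint probability mass function
`p` (with `0 log 0 = 0`). -/
noncomputable def mutualInfo {α β : Type*} [Fintype α] [Fintype β] (p : α → β → ℝ) : ℝ :=
  ∑ a, ∑ b, p a b * Real.logb 2 (p a b / ((∑ b', p a b') * ∑ a', p a' b))

/-- Binary entropy function in bits. -/
noncomputable def h2 (p : ℝ) : ℝ := -(p * Real.logb 2 p) - (1 - p) * Real.logb 2 (1 - p)

end Vale.Agent.CK
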