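import Vale.Agent.CK.Reduce
import Vale.Agent.CK.Statement

/-!
# P322: (D) implies the Courtade-Kumar inequality, in bits
-/

namespace Vale.Agent.CK

open Finset Real

variable {n : ℕ}

theorem bsc_eq_ker (ε : ℝ) (x y : Cube n) : bsc ε x y = ker (1 - 2 * ε) x y := by
  unfold bsc ker
  refine Finset.prod_congr rfl fun i _ => ?_
  split_ifs <;> ring

/-- indicator of `f = true` -/
noncomputable def ind (f : Cube n → Bool) (x : Cube n) : ℝ := if f x = true then 1 else 0

theorem joint_true (ε : ℝ) (f : Cube n → Bool) (y : Cube n) :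
    jointLaw ε f true y = TT (1 - 2 * ε) (ind f) y / 2 ^ n := by
  unfold jointLaw TT ind
  rw [Finset.sum_div]
  refine Finset.sum_congr rfl fun x _ => ?_
  rw [bsc_eq_ker]
  split_ifs <;> ring

theorem joint_false (ε : ℝ) (f : Cube n → Bool) (y : Cube n) :
    jointLaw ε f false y = (1 - TT (1 - 2 * ε) (ind f) y) / 2 ^ n := by
  rw [← TT_one_sub]
  unfold jointLaw TT ind
  rw [Finset.sum_div]
  refine Finset.sum_congr rfl fun x _ => ?_
  rw [bsc_eq_ker]
  by_cases hx : f x = true
  · simp [hx]
  · simp only [Bool.not_eq_true] at hx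
    simp [hx]
    ring

theorem h2_eq (p : ℝ) : h2 p = binEntropy p / log 2 := by
  unfold h2 logb
  rw [binEntropy_eq_negMulLog_add_negMulLog_one_sub, negMulLog, negMulLog]
  ring

/-- one term of the mutual information -/
theorem term_eq {u a c : ℝ} (hc : 0 < c) (ha : a = 0 → u = 0) :
    u / c * logb 2 (u / c / (a * (1 / c))) = (u * log u - u * log a) / c / log 2 := by
  by_cases hu : u = 0
  · rw [hu]; simp
  · have ha' : a ≠ 0 := fun h => hu (ha h)
    have e : u / c / (a * (1 / c)) = u / a := by
      field_simp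
    rw [e, logb, log_div hu ha']
    ring

theorem mutualInfo_eq (ε : ℝ) (h0 : 0 ≤ ε) (h1 : ε ≤ 1) (f : Cube n → Bool) :
    mutualInfo (jointLaw ε f) = II (TT (1 - 2 * ε) (ind f)) / log 2 := by
  set u := TT (1 - 2 * ε) (ind f) with hu
  set a := av (ind f) with ha
  have hav : av u = a := av_TT _ _
  have hp : (0 : ℝ) < 2 ^ n := by positivity
  have hind0 : ∀ x, 0 ≤ ind f x := fun x => by unfold ind; split_ifs <;> norm_num
  have hind1 : ∀ x, 0 ≤ 1 - ind f x := fun x => by unfold ind; split_ifs <;> norm_num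
  have hu0 : ∀ y, 0 ≤ u y := TT_nonneg hind0 (by linarith) (by linarith)
  have hu1 : ∀ y, 0 ≤ 1 - u y := fun y => by
    have := TT_nonneg hind1 (by linarith : -1 ≤ 1 - 2 * ε) (by linarith) y
    rwa [TT_one_sub] at this
  have hcol : ∀ y, ∑ b, jointLaw ε f b y = 1 / 2 ^ n := by
    intro y
    rw [Fintype.sum_bool, joint_true, joint_false]
    ring
  have hrow1 : ∑ y, jointLaw ε f true y = a := by
    simp only [joint_true]
    rw [← Finset.sum_div]
    exact hav
  have hrow0 : ∑ y, jointLaw ε f false y = 1 - a := by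
    simp only [joint_false]
    rw [← Finset.sum_div]
    have := av_sub (fun _ => 1) u
    rw [av_const, hav] at this
    exact this
  have hz1 : a = 0 → ∀ y, u y = 0 := by
    intro h y
    rw [← hav] at h
    unfold av at h
    rw [div_eq_zero_iff] at h
    rcases h with h | h
    · exact (Finset.sum_eq_zero_iff_of_nonneg fun x _ => hu0 x).1 h y (Finset.mem_univ y)
    · exact absurd h hp.ne'
  have hz0 : 1 - a = 0 → ∀ y, 1 - u y = 0 := by
    intro h y
    have h2 := av_sub (fun _ => 1) u
    rw [av_const, hav, h] at h2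
    unfold av at h2
    rw [div_eq_zero_iff] at h2
    rcases h2 with h2 | h2
    · exact (Finset.sum_eq_zero_iff_of_nonneg fun x _ => hu1 x).1 h2 y (Finset.mem_univ y)
    · exact absurd h2 hp.ne'
  unfold mutualInfo
  rw [Fintype.sum_bool, hrow1, hrow0]
  simp only [hcol]
  have e1 : ∀ y, jointLaw ε f true y * logb 2 (jointLaw ε f true y / (a * (1 / 2 ^ n))) =
      (u y * log (u y) - u y * log a) / 2 ^ n / log 2 := by
    intro y
    rw [joint_true]
    exact term_eq hp fun h => hz1 h y
  have e0 : ∀ y, jointLaw ε f false y *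
      logb 2 (jointLaw ε f false y / ((1 - a) * (1 / 2 ^ n))) =
      ((1 - u y) * log (1 - u y) - (1 - u y) * log (1 - a)) / 2 ^ n / log 2 := by
    intro y
    rw [joint_false]
    exact term_eq hp fun h => hz0 h y
  simp only [e1, e0]
  simp only [← Finset.sum_div]
  rw [← add_div]
  congr 1
  have e2 : ∀ g : Cube n → ℝ, (∑ y, g y) / 2 ^ n = av g := fun g => rfl
  rw [e2, e2]
  have e3 : av (fun y => u y * log (u y) - u y * log a) =
      av (fun y => u y * log (u y)) - a * log a := by
    rw [av_sub]
    congr 1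
    have : (fun y => u y * log a) = fun y => log a * u y := by funext y; ring
    rw [this, av_mul_left, hav]
    ring
  have e4 : av (fun y => (1 - u y) * log (1 - u y) - (1 - u y) * log (1 - a)) =
      av (fun y => (1 - u y) * log (1 - u y)) - (1 - a) * log (1 - a) := by
    rw [av_sub]
    congr 1
    have : (fun y => (1 - u y) * log (1 - a)) = fun y => log (1 - a) * (1 - u y) := by
      funext y; ring
    rw [this, av_mul_left, av_sub, av_const, hav]
    ring
  rw [e3, e4]
  unfold II
  rw [hav]
  have e5 : (fun x => binEntropy (u x)) =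
      fun x => -(u x * log (u x)) - ((1 - u x) * log (1 - u x)) := by
    funext x
    rw [binEntropy_eq_negMulLog_add_negMulLog_one_sub, negMulLog, negMulLog]
    ring
  rw [e5, av_sub, av_neg, binEntropy_eq_negMulLog_add_negMulLog_one_sub, negMulLog, negMulLog]
  ring

/-- (D) implies the Courtade-Kumar inequality. -/
theorem ck_of_DD (hD : DD) (n : ℕ) (f : (Fin n → Bool) → Bool) (ε : ℝ) (h0 : 0 ≤ ε)
    (h1 : ε ≤ 1 / 2) : mutualInfo (jointLaw ε f) ≤ 1 - h2 ε := by
  have hl : 0 < log 2 := log_pos one_lt_two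
  rw [mutualInfo_eq ε h0 (by linarith) f, h2_eq]
  have h := II_le_of_DD hD (ind f) (fun x => by unfold ind; split_ifs <;> simp) (1 - 2 * ε)
    (by linarith) (by linarith)
  have e : Phi (1 - 2 * ε) = log 2 - binEntropy ε := by
    unfold Phi
    rw [← binEntropy_one_sub ε]
    congr 2
    ring
  rw [e] at h
  rw [div_le_iff₀ hl, sub_mul, div_mul_cancel₀ _ hl.ne']
  linarith

end Vale.Agent.CK
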