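import Vale.Agent.CK.Defs

/-!
# P322: comparison with the dictator
-/

namespace Vale.Agent.CK

open Finset Real

theorem Phi_zero : Phi 0 = 0 := by
  unfold Phi
  have : ((1 : ℝ) + 0) / 2 = 2⁻¹ := by norm_num
  rw [this, binEntropy_two_inv, sub_self]

theorem Phi_one : Phi 1 = log 2 := by
  unfold Phi
  have : ((1 : ℝ) + 1) / 2 = 1 := by norm_num
  rw [this, binEntropy_one, sub_zero]

theorem Phi_continuous : Continuous Phi := by
  unfold Phi
  fun_prop

theorem Phi_strictMonoOn : StrictMonoOn Phi (Set.Icc 0 1) := by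
  intro a ha b hb hab
  unfold Phi
  have h1 : (1 + a) / 2 ∈ Set.Icc (2⁻¹ : ℝ) 1 := ⟨by linarith [ha.1], by linarith [ha.2]⟩
  have h2 : (1 + b) / 2 ∈ Set.Icc (2⁻¹ : ℝ) 1 := ⟨by linarith [hb.1], by linarith [hb.2]⟩
  have := binEntropy_strictAntiOn h1 h2 (by linarith)
  linarith

theorem Phi_hasDerivAt {s : ℝ} (h0 : -1 < s) (h1 : s < 1) : HasDerivAt Phi (LL s / 2) s := by
  unfold Phi
  have e1 : (1 + s) / 2 ≠ 0 := by linarith
  have e2 : (1 + s) / 2 ≠ 1 := by linarith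
  have h2 := hasDerivAt_binEntropy e1 e2
  have h3 : HasDerivAt (fun s : ℝ => (1 + s) / 2) (1 / 2) s :=
    ((hasDerivAt_id s).const_add 1).div_const 2
  have h4 := (h2.comp s h3).const_sub (log 2)
  convert! h4 using 1
  unfold LL
  have e3 : 1 - (1 + s) / 2 = (1 - s) / 2 := by ring
  rw [e3, log_div (by linarith) (by norm_num), log_div (by linarith) (by norm_num)]
  ring

theorem LL_pos {s : ℝ} (h0 : 0 < s) (h1 : s < 1) : 0 < LL s := by
  unfold LL
  have := log_lt_log (by linarith : (0 : ℝ) < 1 - s) (by linarith : 1 - s < 1 + s)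
  linarith

theorem exists_Phi {y : ℝ} (h0 : 0 < y) (h1 : y < log 2) : ∃ s, s ∈ Set.Ioo (0 : ℝ) 1 ∧ Phi s = y := by
  have h2 := intermediate_value_Icc (zero_le_one' ℝ) (Phi_continuous.continuousOn)
  rw [Phi_zero, Phi_one] at h2
  obtain ⟨s, hs, hs2⟩ := h2 ⟨h0.le, h1.le⟩
  refine ⟨s, ⟨lt_of_le_of_ne hs.1 ?_, lt_of_le_of_ne hs.2 ?_⟩, hs2⟩
  · rintro rfl
    rw [Phi_zero] at hs2
    linarith
  · rintro rfl
    rw [Phi_one] at hs2
    linarith

/-- inverse of `Phi` on `(0, log 2)` -/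
noncomputable def Kinv : ℝ → ℝ := Function.invFunOn Phi (Set.Ioo 0 1)

theorem Kinv_mem {y : ℝ} (h0 : 0 < y) (h1 : y < log 2) : Kinv y ∈ Set.Ioo (0 : ℝ) 1 :=
  Function.invFunOn_mem (exists_Phi h0 h1)

theorem Phi_Kinv {y : ℝ} (h0 : 0 < y) (h1 : y < log 2) : Phi (Kinv y) = y :=
  Function.invFunOn_eq (exists_Phi h0 h1)

theorem Kinv_continuousAt {y : ℝ} (h0 : 0 < y) (h1 : y < log 2) : ContinuousAt Kinv y := by
  have hev : ∀ᶠ z in nhds y, 0 < z ∧ z < log 2 := (lt_mem_nhds h0).and (gt_mem_nhds h1)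
  have hm := Kinv_mem h0 h1
  have hIcc : ∀ {t : ℝ}, t ∈ Set.Ioo (0 : ℝ) 1 → t ∈ Set.Icc (0 : ℝ) 1 := fun h => ⟨h.1.le, h.2.le⟩
  rw [ContinuousAt, tendsto_order]
  constructor
  · intro a ha
    rcases le_or_gt a 0 with h | h
    · filter_upwards [hev] with z hz
      exact lt_of_le_of_lt h (Kinv_mem hz.1 hz.2).1
    · have ha' : a ∈ Set.Icc (0 : ℝ) 1 := ⟨h.le, (ha.trans hm.2).le⟩
      have h2 : Phi a < y := by
        rw [← Phi_Kinv h0 h1]
        exact Phi_strictMonoOn ha' (hIcc hm) ha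
      filter_upwards [hev, lt_mem_nhds h2] with z hz hz2
      rw [← Phi_Kinv hz.1 hz.2] at hz2
      exact (Phi_strictMonoOn.lt_iff_lt ha' (hIcc (Kinv_mem hz.1 hz.2))).1 hz2
  · intro a ha
    rcases le_or_gt 1 a with h | h
    · filter_upwards [hev] with z hz
      exact lt_of_lt_of_le (Kinv_mem hz.1 hz.2).2 h
    · have ha' : a ∈ Set.Icc (0 : ℝ) 1 := ⟨(hm.1.trans ha).le, h.le⟩
      have h2 : y < Phi a := by
        rw [← Phi_Kinv h0 h1]
        exact Phi_strictMonoOn (hIcc hm) ha' ha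
      filter_upwards [hev, gt_mem_nhds h2] with z hz hz2
      rw [← Phi_Kinv hz.1 hz.2] at hz2
      exact (Phi_strictMonoOn.lt_iff_lt (hIcc (Kinv_mem hz.1 hz.2)) ha').1 hz2

theorem Kinv_hasDerivAt {y : ℝ} (h0 : 0 < y) (h1 : y < log 2) :
    HasDerivAt Kinv (LL (Kinv y) / 2)⁻¹ y := by
  have hm := Kinv_mem h0 h1
  refine HasDerivAt.of_local_left_inverse (Kinv_continuousAt h0 h1)
    (Phi_hasDerivAt (by linarith [hm.1]) hm.2) ?_ ?_
  · exact (half_pos (LL_pos hm.1 hm.2)).ne'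
  · filter_upwards [lt_mem_nhds h0, gt_mem_nhds h1] with z hz1 hz2
    exact Phi_Kinv hz1 hz2

/-- Comparison of a function with `Phi` by means of a differential inequality. -/
theorem compare (J J' : ℝ → ℝ) (hJ : ∀ r, 0 < r → r < 1 → HasDerivAt J (J' r) r)
    (hJ' : ∀ r, 0 < r → r < 1 → 0 ≤ J' r) (h1 : ∀ r, 0 < r → r < 1 → J r < log 2)
    (hD : ∀ r s, 0 < r → r < 1 → 0 < s → s < 1 → J r = Phi s → s * (LL s / 2) ≤ r * J' r)
    (r : ℝ) (hr0 : 0 < r) (hr1 : r < 1) : J r ≤ Phi r := by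
  by_contra hc
  push Not at hc
  have hKr : 0 < Phi r := by
    rw [← Phi_zero]
    exact Phi_strictMonoOn ⟨le_rfl, zero_le_one⟩ ⟨hr0.le, hr1.le⟩ hr0
  -- `J` is positive on `[r, 1)`
  have hmono : MonotoneOn J (Set.Ico r 1) := by
    refine monotoneOn_of_deriv_nonneg (convex_Ico r 1) ?_ ?_ ?_
    · intro x hx
      exact (hJ x (hr0.trans_le hx.1) hx.2).continuousAt.continuousWithinAt
    · intro x hx
      rw [interior_Ico] at hx
      exact (hJ x (hr0.trans hx.1) hx.2).differentiableAt.differentiableWithinAt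
    · intro x hx
      rw [interior_Ico] at hx
      rw [(hJ x (hr0.trans hx.1) hx.2).deriv]
      exact hJ' x (hr0.trans hx.1) hx.2
  have hpos : ∀ x, r ≤ x → x < 1 → 0 < J x := fun x hx1 hx2 =>
    lt_of_lt_of_le (hKr.trans hc) (hmono ⟨le_rfl, hr1⟩ ⟨hx1, hx2⟩ hx1)
  -- the function `Kinv (J x) / x`
  have hder : ∀ x, r ≤ x → x < 1 → HasDerivAt (fun x => Kinv (J x) / x)
      (((LL (Kinv (J x)) / 2)⁻¹ * J' x * x - Kinv (J x)) / x ^ 2) x := by
    intro x hx1 hx2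
    have hx0 : 0 < x := hr0.trans_le hx1
    have e1 := (Kinv_hasDerivAt (hpos x hx1 hx2) (h1 x hx0 hx2)).comp x (hJ x hx0 hx2)
    have e2 := e1.div (hasDerivAt_id x) hx0.ne'
    convert! e2 using 1
    simp
  have hder0 : ∀ x, r ≤ x → x < 1 →
      0 ≤ ((LL (Kinv (J x)) / 2)⁻¹ * J' x * x - Kinv (J x)) / x ^ 2 := by
    intro x hx1 hx2
    have hx0 : 0 < x := hr0.trans_le hx1
    have hm := Kinv_mem (hpos x hx1 hx2) (h1 x hx0 hx2)
    have hL : 0 < LL (Kinv (J x)) / 2 := half_pos (LL_pos hm.1 hm.2)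
    have h2 := hD x (Kinv (J x)) hx0 hx2 hm.1 hm.2 (Phi_Kinv (hpos x hx1 hx2) (h1 x hx0 hx2)).symm
    apply div_nonneg _ (by positivity)
    rw [sub_nonneg]
    calc Kinv (J x) = (LL (Kinv (J x)) / 2)⁻¹ * (Kinv (J x) * (LL (Kinv (J x)) / 2)) := by
          rw [mul_comm, mul_assoc, mul_inv_cancel₀ hL.ne', mul_one]
      _ ≤ (LL (Kinv (J x)) / 2)⁻¹ * (x * J' x) :=
          mul_le_mul_of_nonneg_left h2 (inv_nonneg.2 hL.le)
      _ = _ := by ring
  have hmono2 : MonotoneOn (fun x => Kinv (J x) / x) (Set.Ico r 1) := by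
    refine monotoneOn_of_deriv_nonneg (convex_Ico r 1) ?_ ?_ ?_
    · intro x hx
      exact (hder x hx.1 hx.2).continuousAt.continuousWithinAt
    · intro x hx
      rw [interior_Ico] at hx
      exact (hder x hx.1.le hx.2).differentiableAt.differentiableWithinAt
    · intro x hx
      rw [interior_Ico] at hx
      rw [(hder x hx.1.le hx.2).deriv]
      exact hder0 x hx.1.le hx.2
  have hm := Kinv_mem (hpos r le_rfl hr1) (h1 r hr0 hr1)
  have hgt : r < Kinv (J r) := by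
    rw [← Phi_strictMonoOn.lt_iff_lt ⟨hr0.le, hr1.le⟩ ⟨hm.1.le, hm.2.le⟩,
      Phi_Kinv (hpos r le_rfl hr1) (h1 r hr0 hr1)]
    exact hc
  set c := Kinv (J r) / r with hcdef
  have hc1 : 1 < c := by rw [hcdef, lt_div_iff₀ hr0]; linarith
  have hc2 : c * r < 1 := by rw [hcdef, div_mul_cancel₀ _ hr0.ne']; exact hm.2
  have hc0 : 0 < c := by linarith
  set x := (1 / c + 1) / 2 with hx
  have h3 : 1 / c < 1 := by rw [div_lt_one hc0]; exact hc1
  have h4 : r < 1 / c := by rw [lt_div_iff₀ hc0]; linarith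
  have hx1 : r ≤ x := by rw [hx]; linarith
  have hx2 : x < 1 := by rw [hx]; linarith
  have hx3 : 1 / c < x := by rw [hx]; linarith
  have hx0 : 0 < x := by linarith
  have h5 : c ≤ Kinv (J x) / x := hmono2 ⟨le_rfl, hr1⟩ ⟨hx1, hx2⟩ hx1
  have h6 := (Kinv_mem (hpos x hx1 hx2) (h1 x hx0 hx2)).2
  rw [le_div_iff₀ hx0] at h5
  rw [div_lt_iff₀ hc0] at hx3
  linarith

end Vale.Agent.CK
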