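import Mathlib

/-!
# P322 (Courtade-Kumar): internal definitions
-/

namespace Vale.Agent.CK

open Finset Real

/-- the cube -/
abbrev Cube (n : ℕ) : Type := Fin n → Bool

/-- flip of the `i`-th coordinate -/
def flip {n : ℕ} (i : Fin n) (x : Cube n) : Cube n := Function.update x i (!(x i))

/-- average over the cube -/
noncomputable def av {n : ℕ} (f : Cube n → ℝ) : ℝ := (∑ x, f x) / 2 ^ n

/-- logit -/
noncomputable def lgt (p : ℝ) : ℝ := log p - log (1 - p)

/-- `W(a,b) = (a - b) (logit a - logit b)` -/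
noncomputable def WW (a b : ℝ) : ℝ := (a - b) * (lgt a - lgt b)

/-- the entropy production `P(u) = ∑_i E (u - u^i) (z - z^i)`, `z = logit u` -/
noncomputable def PP {n : ℕ} (u : Cube n → ℝ) : ℝ :=
  ∑ i, av (fun x => WW (u x) (u (flip i x)))

/-- `I(u) = h(E u) - E h(u)` (in nats) -/
noncomputable def II {n : ℕ} (u : Cube n → ℝ) : ℝ :=
  binEntropy (av u) - av (fun x => binEntropy (u x))

/-- `Phi(r) = log 2 - h((1 + r)/2)`, the value of `I` for a dictator with noise `r` -/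
noncomputable def Phi (r : ℝ) : ℝ := log 2 - binEntropy ((1 + r) / 2)

/-- `L(r) = log ((1 + r)/(1 - r))` -/
noncomputable def LL (r : ℝ) : ℝ := log (1 + r) - log (1 - r)

/-- statement (D): `P(u) ≥ Psi(I(u))`, `Psi(Phi(r)) = 2 r L(r)`, in sup form -/
def DD : Prop := ∀ (n : ℕ) (u : Cube n → ℝ), (∀ x, 0 < u x ∧ u x < 1) →
  ∀ r : ℝ, 0 < r → r < 1 → Phi r ≤ II u → 2 * r * LL r ≤ PP u

/-- noise kernel -/
noncomputable def ker {n : ℕ} (r : ℝ) (x y : Cube n) : ℝ :=
  ∏ i, (if x i = y i then (1 + r) / 2 else (1 - r) / 2)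

/-- noise operator -/
noncomputable def TT {n : ℕ} (r : ℝ) (f : Cube n → ℝ) (y : Cube n) : ℝ := ∑ x, ker r x y * f x

end Vale.Agent.CK
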