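import Vale.Agent.CK.Tensor

/-!
# P322: tensorisation along a coordinate of small influence

For two coordinates the quarter averages `q` satisfy `d_0 + d_1 = q_ff - q_tt` and
`d_0 - d_1 = q_ft - q_tf`, so one of them has `|d| ≤ 1/2`.
-/

namespace Vale.Agent.CK

open Finset Real

variable {n : ℕ}

/-- permutation of the coordinates, as a permutation of the cube -/
def permCube (σ : Equiv.Perm (Fin n)) : Cube n ≃ Cube n :=
  ⟨fun x => x ∘ σ, fun x => x ∘ σ.symm, fun x => by funext i; simp, fun x => by funext i; simp⟩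

theorem av_perm (σ : Equiv.Perm (Fin n)) (f : Cube n → ℝ) : av (fun x => f (x ∘ σ)) = av f := by
  unfold av
  congr 1
  exact (permCube σ).sum_comp f

theorem flip_comp (σ : Equiv.Perm (Fin n)) (i : Fin n) (x : Cube n) :
    (flip i x) ∘ σ = flip (σ.symm i) (x ∘ σ) := by
  funext j
  unfold flip
  simp only [Function.comp_apply, Function.update_apply, Equiv.apply_symm_apply]
  by_cases h : σ j = i
  · have h2 : j = σ.symm i := by rw [← h, Equiv.symm_apply_apply]
    rw [if_pos h, if_pos h2]
  · have h2 : ¬ j = σ.symm i := fun hj => h (by rw [hj, Equiv.apply_symm_apply])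
    rw [if_neg h, if_neg h2]

theorem PP_perm (σ : Equiv.Perm (Fin n)) (u : Cube n → ℝ) : PP (fun x => u (x ∘ σ)) = PP u := by
  unfold PP
  have h1 : ∀ i, av (fun x => WW (u (x ∘ σ)) (u ((flip i x) ∘ σ))) =
      av (fun x => WW (u x) (u (flip (σ.symm i) x))) := by
    intro i
    rw [← av_perm σ (fun x => WW (u x) (u (flip (σ.symm i) x)))]
    simp only [flip_comp]
  simp only [h1]
  exact (σ.symm).sum_comp (fun i => av (fun x => WW (u x) (u (flip i x))))

theorem cons_cons_swap (a b : Bool) (x : Cube n) :
    ((Fin.cons a (Fin.cons b x : Cube (n + 1)) : Cube (n + 2)) ∘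
      (Equiv.swap (0 : Fin (n + 2)) 1)) = (Fin.cons b (Fin.cons a x : Cube (n + 1)) : Cube (n + 2)) := by
  funext j
  refine Fin.cases ?_ (fun j => ?_) j
  · simp only [Function.comp_apply, Equiv.swap_apply_left]
    rfl
  · refine Fin.cases ?_ (fun j => ?_) j
    · have h : (Fin.succ (0 : Fin (n + 1)) : Fin (n + 2)) = 1 := rfl
      rw [h]
      simp only [Function.comp_apply, Equiv.swap_apply_right]
      rfl
    · have h : Equiv.swap (0 : Fin (n + 2)) 1 j.succ.succ = j.succ.succ := by
        apply Equiv.swap_apply_of_ne_of_ne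
        · exact Fin.succ_ne_zero _
        · intro h
          have h2 : (j.succ.succ : Fin (n + 2)).val = (1 : Fin (n + 2)).val := by rw [h]
          simp [Fin.val_succ] at h2
      simp only [Function.comp_apply, h, Fin.cons_succ]

theorem av_lt_one_of {f : Cube n → ℝ} (h : ∀ x, f x < 1) : av f < 1 := by
  have h1 := av_pos (f := fun x => 1 - f x) fun x => by linarith [h x]
  rw [av_sub, av_const] at h1
  linarith

/-- one of the first two coordinates has influence at most `1/2` on the mean -/
theorem exists_small (u : Cube (n + 2) → ℝ) (hu : ∀ x, 0 < u x ∧ u x < 1) :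
    |av (fun x : Cube (n + 1) => u (Fin.cons false x)) -
      av (fun x : Cube (n + 1) => u (Fin.cons true x))| ≤ 1 / 2 ∨
    |av (fun x : Cube (n + 1) => u ((Fin.cons false x : Cube (n + 2)) ∘
        (Equiv.swap (0 : Fin (n + 2)) 1))) -
      av (fun x : Cube (n + 1) => u ((Fin.cons true x : Cube (n + 2)) ∘
        (Equiv.swap (0 : Fin (n + 2)) 1)))| ≤ 1 / 2 := by
  rw [av_succ (fun x : Cube (n + 1) => u (Fin.cons false x)),
    av_succ (fun x : Cube (n + 1) => u (Fin.cons true x)),
    av_succ (fun x : Cube (n + 1) => u ((Fin.cons false x : Cube (n + 2)) ∘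
        (Equiv.swap (0 : Fin (n + 2)) 1))),
    av_succ (fun x : Cube (n + 1) => u ((Fin.cons true x : Cube (n + 2)) ∘
        (Equiv.swap (0 : Fin (n + 2)) 1)))]
  simp only [cons_cons_swap]
  set q1 := av (fun x : Cube n => u (Fin.cons false (Fin.cons false x : Cube (n + 1))))
  set q2 := av (fun x : Cube n => u (Fin.cons false (Fin.cons true x : Cube (n + 1))))
  set q3 := av (fun x : Cube n => u (Fin.cons true (Fin.cons false x : Cube (n + 1))))
  set q4 := av (fun x : Cube n => u (Fin.cons true (Fin.cons true x : Cube (n + 1))))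
  have p1 : 0 < q1 := av_pos fun x => (hu _).1
  have p2 : 0 < q2 := av_pos fun x => (hu _).1
  have p3 : 0 < q3 := av_pos fun x => (hu _).1
  have p4 : 0 < q4 := av_pos fun x => (hu _).1
  have l1 : q1 < 1 := av_lt_one_of fun x => (hu _).2
  have l2 : q2 < 1 := av_lt_one_of fun x => (hu _).2
  have l3 : q3 < 1 := av_lt_one_of fun x => (hu _).2
  have l4 : q4 < 1 := av_lt_one_of fun x => (hu _).2
  by_contra hcon
  push Not at hcon
  obtain ⟨h1, h2⟩ := hcon
  rcases lt_abs.1 h1 with h1 | h1 <;> rcases lt_abs.1 h2 with h2 | h2 <;> linarith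

theorem PP_one (u : Cube 1 → ℝ) :
    PP u = WW (u (Fin.cons false default)) (u (Fin.cons true default)) := by
  rw [PP_succ]
  have h0 : ∀ v : Cube 0 → ℝ, PP v = 0 := fun v => by unfold PP; simp
  rw [h0, h0, av_zero _ default]
  ring

/-- Tensorisation along a coordinate of small influence. -/
theorem tensorH (G : ℝ → ℝ → ℝ) (h0 : ∀ a, 0 < a → a < 1 → G a (binEntropy a) ≤ 0)
    (h1 : ∀ p q, 0 < p → p < 1 → 0 < q → q < 1 →
      G ((p + q) / 2) ((binEntropy p + binEntropy q) / 2) ≤ WW p q)
    (hTP : ∀ (n : ℕ) (U V : Cube n → ℝ), (∀ x, 0 < U x ∧ U x < 1) → (∀ x, 0 < V x ∧ V x < 1) →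
      |av U - av V| ≤ 1 / 2 →
      G ((av U + av V) / 2) ((av (fun x => binEntropy (U x)) + av (fun x => binEntropy (V x))) / 2) ≤
        (G (av U) (av (fun x => binEntropy (U x))) + G (av V) (av (fun x => binEntropy (V x)))) / 2 +
          av (fun x => WW (U x) (V x))) :
    ∀ (n : ℕ) (u : Cube n → ℝ), (∀ x, 0 < u x ∧ u x < 1) →
      G (av u) (av (fun x => binEntropy (u x))) ≤ PP u := by
  intro n
  induction n with
  | zero =>
    intro u hu
    rw [av_zero u default, av_zero (fun x => binEntropy (u x)) default]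
    have : PP u = 0 := by unfold PP; simp
    rw [this]
    exact h0 _ (hu _).1 (hu _).2
  | succ n ih =>
    rcases n with _ | n
    · intro u hu
      rw [PP_one, av_succ, av_succ (fun x => binEntropy (u x)), av_zero _ default,
        av_zero _ default, av_zero _ default, av_zero _ default]
      exact h1 _ _ (hu _).1 (hu _).2 (hu _).1 (hu _).2
    · -- a coordinate of small influence may be taken to be the first
      have key : ∀ u : Cube (n + 1 + 1) → ℝ, (∀ x, 0 < u x ∧ u x < 1) →
          |av (fun x : Cube (n + 1) => u (Fin.cons false x)) -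
            av (fun x : Cube (n + 1) => u (Fin.cons true x))| ≤ 1 / 2 →
          G (av u) (av (fun x => binEntropy (u x))) ≤ PP u := by
        intro u hu hd
        have e1 := ih (fun x => u (Fin.cons false x)) fun x => hu _
        have e2 := ih (fun x => u (Fin.cons true x)) fun x => hu _
        have e3 := hTP (n + 1) (fun x => u (Fin.cons false x)) (fun x => u (Fin.cons true x))
          (fun x => hu _) (fun x => hu _) hd
        rw [av_succ, av_succ (fun x => binEntropy (u x)), PP_succ]
        linarith
      intro u hu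
      rcases exists_small u hu with h | h
      · exact key u hu h
      · have e := key (fun x => u (x ∘ (Equiv.swap (0 : Fin (n + 2)) 1))) (fun x => hu _) h
        rw [av_perm (Equiv.swap (0 : Fin (n + 2)) 1) u,
          av_perm (Equiv.swap (0 : Fin (n + 2)) 1) (fun x => binEntropy (u x)),
          PP_perm (Equiv.swap (0 : Fin (n + 2)) 1) u] at e
        exact e

end Vale.Agent.CK
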