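import Vale.Agent.CK.Psi

/-!
# P322: truncated `Psi` and `R`, derivative of `Psi`, `Psi'` is convex
-/

namespace Vale.Agent.CK

open Finset Real Set

/-- `Psi` up to `Phi a`, then its tangent line -/
noncomputable def PsiT (a y : ℝ) : ℝ :=
  if y ≤ Phi a then Psi y else wf a + lam a * (y - Phi a)

/-- `R` up to `log 2 - Phi a`, then its tangent line (which may be negative) -/
noncomputable def RT (a H : ℝ) : ℝ :=
  if H ≤ log 2 - Phi a then RR H else wf a + lam a * (log 2 - H - Phi a)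

theorem Phi_lt_log_two {a : ℝ} (ha0 : 0 < a) (ha1 : a < 1) : Phi a < log 2 := (Phi_mem ha0 ha1).2

theorem PsiT_of_le {a y : ℝ} (h : y ≤ Phi a) : PsiT a y = Psi y := by rw [PsiT, if_pos h]

theorem PsiT_of_ge {a y : ℝ} (ha0 : 0 < a) (ha1 : a < 1) (h : Phi a ≤ y) :
    PsiT a y = wf a + lam a * (y - Phi a) := by
  rcases eq_or_lt_of_le h with h | h
  · rw [← h, PsiT_of_le le_rfl, Psi_Phi ha0.le ha1]
    ring
  · rw [PsiT, if_neg (not_le.2 h)]

/-- supporting lines of the truncated function -/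
theorem PsiT_ge_tangent {a q : ℝ} (hq0 : 0 < q) (hqa : q ≤ a) (ha1 : a < 1) (y : ℝ) :
    wf q + lam q * (y - Phi q) ≤ PsiT a y := by
  have ha0 : 0 < a := hq0.trans_le hqa
  have hq1 : q < 1 := hqa.trans_lt ha1
  rcases le_or_gt y (Phi a) with h | h
  · rw [PsiT_of_le h]
    exact Psi_ge_tangent' hq0 hq1 (h.trans_lt (Phi_lt_log_two ha0 ha1))
  · rw [PsiT_of_ge ha0 ha1 h.le]
    have h1 := wf_ge_tangent hq0 hq1 ha0.le ha1
    have h2 := lam_monotoneOn ⟨hq0, hq1⟩ ⟨ha0, ha1⟩ hqa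
    nlinarith

theorem PsiT_le_Psi {a y : ℝ} (ha0 : 0 < a) (ha1 : a < 1) (hy : y < log 2) : PsiT a y ≤ Psi y := by
  rcases le_or_gt y (Phi a) with h | h
  · rw [PsiT_of_le h]
  · rw [PsiT_of_ge ha0 ha1 h.le]
    exact Psi_ge_tangent' ha0 ha1 hy

theorem PsiT_of_nonpos {a y : ℝ} (ha0 : 0 < a) (ha1 : a < 1) (h : y ≤ 0) : PsiT a y = 0 := by
  rw [PsiT_of_le (h.trans (Phi_mem ha0 ha1).1.le), Psi_of_nonpos h]

theorem PsiT_nonneg {a : ℝ} (ha0 : 0 < a) (ha1 : a < 1) (y : ℝ) : 0 ≤ PsiT a y := by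
  rcases le_or_gt y (Phi a) with h | h
  · rw [PsiT_of_le h]
    exact Psi_nonneg (h.trans_lt (Phi_lt_log_two ha0 ha1))
  · rw [PsiT_of_ge ha0 ha1 h.le]
    have h1 := wf_nonneg ha0.le ha1
    have h2 := lam_pos ha0 ha1
    nlinarith

/-- at every point there is a supporting line with slope in `[0, lam a]` -/
theorem PsiT_exists_support {a : ℝ} (ha0 : 0 < a) (ha1 : a < 1) (z : ℝ) :
    ∃ α β : ℝ, 0 ≤ α ∧ α ≤ lam a ∧ PsiT a z = α * z + β ∧ ∀ y, α * y + β ≤ PsiT a y := by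
  rcases le_or_gt z 0 with h | h
  · refine ⟨0, 0, le_rfl, by linarith [lam_pos ha0 ha1], ?_, ?_⟩
    · rw [PsiT_of_nonpos ha0 ha1 h]; ring
    · intro y
      simpa using PsiT_nonneg ha0 ha1 y
  · rcases le_or_gt z (Phi a) with h2 | h2
    · have hz : z < log 2 := h2.trans_lt (Phi_lt_log_two ha0 ha1)
      have hK := Kinv_mem h hz
      have hKa : Kinv z ≤ a := by
        rw [← Phi_Kinv h hz] at h2
        exact (Phi_strictMonoOn.le_iff_le ⟨hK.1.le, hK.2.le⟩ ⟨ha0.le, ha1.le⟩).1 h2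
      refine ⟨lam (Kinv z), wf (Kinv z) - lam (Kinv z) * z, by linarith [lam_pos hK.1 hK.2],
        lam_monotoneOn hK ⟨ha0, ha1⟩ hKa, ?_, ?_⟩
      · rw [PsiT_of_le h2, Psi, if_pos h]; ring
      · intro y
        have := PsiT_ge_tangent hK.1 hKa ha1 y
        rw [Phi_Kinv h hz] at this
        linarith
    · refine ⟨lam a, wf a - lam a * Phi a, by linarith [lam_pos ha0 ha1], le_rfl, ?_, ?_⟩
      · rw [PsiT_of_ge ha0 ha1 h2.le]; ring
      · intro y
        have := PsiT_ge_tangent ha0 le_rfl ha1 y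
        linarith

theorem PsiT_convexOn {a : ℝ} (ha0 : 0 < a) (ha1 : a < 1) : ConvexOn ℝ univ (PsiT a) := by
  refine ⟨convex_univ, fun x _ y _ s t hs ht hst => ?_⟩
  simp only [smul_eq_mul]
  obtain ⟨α, β, -, -, h1, h2⟩ := PsiT_exists_support ha0 ha1 (s * x + t * y)
  rw [h1]
  have hx := mul_le_mul_of_nonneg_left (h2 x) hs
  have hy := mul_le_mul_of_nonneg_left (h2 y) ht
  have : α * (s * x + t * y) + β = s * (α * x + β) + t * (α * y + β) + (1 - (s + t)) * β := by ring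
  rw [this, hst]
  linarith

theorem PsiT_mono {a : ℝ} (ha0 : 0 < a) (ha1 : a < 1) : Monotone (PsiT a) := by
  intro x y hxy
  obtain ⟨α, β, h0, -, h1, h2⟩ := PsiT_exists_support ha0 ha1 x
  rw [h1]
  have := h2 y
  nlinarith

/-- the truncated function is `lam a`-Lipschitz from the left -/
theorem PsiT_sub_le {a : ℝ} (ha0 : 0 < a) (ha1 : a < 1) {x y : ℝ} (hxy : x ≤ y) :
    PsiT a y - PsiT a x ≤ lam a * (y - x) := by
  obtain ⟨α, β, h0, h3, h1, h2⟩ := PsiT_exists_support ha0 ha1 y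
  rw [h1]
  have := h2 x
  nlinarith

/-! ### the truncated `R` -/

theorem RT_of_le {a H : ℝ} (h : H ≤ log 2 - Phi a) : RT a H = RR H := by rw [RT, if_pos h]

theorem RT_of_ge {a H : ℝ} (ha0 : 0 < a) (ha1 : a < 1) (h : log 2 - Phi a ≤ H) :
    RT a H = wf a + lam a * (log 2 - H - Phi a) := by
  rcases eq_or_lt_of_le h with h | h
  · rw [← h, RT_of_le le_rfl, RR]
    have : log 2 - (log 2 - Phi a) = Phi a := by ring
    rw [this, Psi_Phi ha0.le ha1]
    ring
  · rw [RT, if_neg (not_le.2 h)]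

/-- supporting lines of the truncated `R`: slopes `-lam q`, `q ≥ a` -/
theorem RT_ge_tangent {a q : ℝ} (ha0 : 0 < a) (haq : a ≤ q) (hq1 : q < 1) {H : ℝ} (hH : 0 < H) :
    wf q + lam q * (log 2 - H - Phi q) ≤ RT a H := by
  have hq0 : 0 < q := ha0.trans_le haq
  have ha1 : a < 1 := haq.trans_lt hq1
  rcases le_or_gt H (log 2 - Phi a) with h | h
  · rw [RT_of_le h, RR]
    exact Psi_ge_tangent' hq0 hq1 (by linarith)
  · rw [RT_of_ge ha0 ha1 h.le]
    have h1 := wf_ge_tangent hq0 hq1 ha0.le ha1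
    have h2 := lam_monotoneOn ⟨ha0, ha1⟩ ⟨hq0, hq1⟩ haq
    nlinarith

theorem RT_le_RR {a H : ℝ} (ha0 : 0 < a) (ha1 : a < 1) (hH : 0 < H) : RT a H ≤ RR H := by
  rcases le_or_gt H (log 2 - Phi a) with h | h
  · rw [RT_of_le h]
  · rw [RT_of_ge ha0 ha1 h.le, RR]
    exact Psi_ge_tangent' ha0 ha1 (by linarith)

/-- at every point there is an index `q ≥ a` with `RT = T_q` -/
theorem RT_exists_support {a : ℝ} (ha0 : 0 < a) (ha1 : a < 1) {H : ℝ} (hH : 0 < H) :
    ∃ q, a ≤ q ∧ q < 1 ∧ RT a H = wf q + lam q * (log 2 - H - Phi q) := by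
  rcases le_or_gt H (log 2 - Phi a) with h | h
  · have h1 : 0 < log 2 - H := by
      have := (Phi_mem ha0 ha1).1
      linarith
    have h2 : log 2 - H < log 2 := by linarith
    have hK := Kinv_mem h1 h2
    refine ⟨Kinv (log 2 - H), ?_, hK.2, ?_⟩
    · refine (Phi_strictMonoOn.le_iff_le ⟨ha0.le, ha1.le⟩ ⟨hK.1.le, hK.2.le⟩).1 ?_
      rw [Phi_Kinv h1 h2]
      linarith
    · rw [RT_of_le h, RR, Psi, if_pos h1, Phi_Kinv h1 h2]
      ring
  · exact ⟨a, le_rfl, ha1, RT_of_ge ha0 ha1 h.le⟩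

/-- the perspective `m R(H/m)` is a supremum of linear functions `κ_q m - λ_q H` -/
theorem persp_RT_ge {a q : ℝ} (ha0 : 0 < a) (haq : a ≤ q) (hq1 : q < 1) {m H : ℝ} (hm : 0 < m)
    (hH : 0 < H) :
    (wf q + lam q * (log 2 - Phi q)) * m - lam q * H ≤ m * RT a (H / m) := by
  have h1 := RT_ge_tangent ha0 haq hq1 (div_pos hH hm)
  have h2 := mul_le_mul_of_nonneg_left h1 hm.le
  have e : m * (wf q + lam q * (log 2 - H / m - Phi q)) =
      (wf q + lam q * (log 2 - Phi q)) * m - lam q * H := by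
    field_simp
    ring
  rw [e] at h2
  exact h2

theorem persp_RT_convex {a : ℝ} (ha0 : 0 < a) (ha1 : a < 1) {m m' H H' : ℝ} (hm : 0 < m)
    (hm' : 0 < m') (hH : 0 < H) (hH' : 0 < H') :
    ((m + m') / 2) * RT a (((H + H') / 2) / ((m + m') / 2)) ≤
      (m * RT a (H / m) + m' * RT a (H' / m')) / 2 := by
  have hM : 0 < (m + m') / 2 := by linarith
  have hHH : 0 < (H + H') / 2 := by linarith
  obtain ⟨q, hq, hq1, e⟩ := RT_exists_support ha0 ha1 (div_pos hHH hM)
  have h1 := persp_RT_ge ha0 hq hq1 hm hH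
  have h2 := persp_RT_ge ha0 hq hq1 hm' hH'
  rw [e]
  have e2 : (m + m') / 2 * (wf q + lam q * (log 2 - (H + H') / 2 / ((m + m') / 2) - Phi q)) =
      ((wf q + lam q * (log 2 - Phi q)) * m - lam q * H +
        ((wf q + lam q * (log 2 - Phi q)) * m' - lam q * H')) / 2 := by
    have : m + m' ≠ 0 := by linarith
    field_simp
    ring
  rw [e2]
  linarith

/-! ### derivative of `Psi` -/

theorem Psi_hasDerivAt {y : ℝ} (h0 : 0 < y) (h1 : y < log 2) : HasDerivAt Psi (lam (Kinv y)) y := by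
  have hK := Kinv_mem h0 h1
  have h2 := (wf_hasDerivAt (by linarith [hK.1]) hK.2).comp y (Kinv_hasDerivAt h0 h1)
  have h3 : (2 * LL (Kinv y) + 2 * Kinv y * (2 / (1 - Kinv y ^ 2))) * (LL (Kinv y) / 2)⁻¹ =
      lam (Kinv y) := by
    rw [wf_deriv_eq hK.1 hK.2, mul_assoc, mul_inv_cancel₀ (half_pos (LL_pos hK.1 hK.2)).ne', mul_one]
  rw [h3] at h2
  refine h2.congr_of_eventuallyEq ?_
  filter_upwards [lt_mem_nhds h0] with z hz
  simp only [Psi, if_pos hz, Function.comp]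

theorem Psi_continuousOn : ContinuousOn Psi (Iio (log 2)) :=
  Psi_convexOn.continuousOn isOpen_Iio

/-- `2 r L² - 3 (1 + r²) L + 6 r ≥ 0` -/
theorem k_nonneg {r : ℝ} (h0 : 0 ≤ r) (h1 : r < 1) :
    0 ≤ 2 * r * LL r ^ 2 - 3 * (1 + r ^ 2) * LL r + 6 * r := by
  have hder : ∀ x ∈ Ico (0 : ℝ) 1, HasDerivAt
      (fun r => 2 * r * LL r ^ 2 - 3 * (1 + r ^ 2) * LL r + 6 * r)
      (2 * LL x ^ 2 + (2 * x * LL x + 6 * x ^ 3 * LL x - 12 * x ^ 2) / (1 - x ^ 2)) x := by
    intro x hx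
    have hL := LL_hasDerivAt (by linarith [hx.1] : -1 < x) hx.2
    have h3 := one_sub_sq_pos (by linarith [hx.1] : -1 < x) hx.2
    have a1 : HasDerivAt (fun r : ℝ => 2 * r) 2 x := by
      simpa using (hasDerivAt_id x).const_mul 2
    have a2 : HasDerivAt (fun r : ℝ => 3 * (1 + r ^ 2)) (3 * (2 * x)) x := by
      have := ((hasDerivAt_pow 2 x).const_add 1).const_mul 3
      simpa using this
    have a3 : HasDerivAt (fun r : ℝ => 6 * r) 6 x := by
      simpa using (hasDerivAt_id x).const_mul 6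
    have h4 := ((a1.mul (hL.pow 2)).sub (a2.mul hL)).add a3
    convert! h4 using 1
    simp only [Pi.pow_apply]
    field_simp
    ring
  have hmono : MonotoneOn (fun r => 2 * r * LL r ^ 2 - 3 * (1 + r ^ 2) * LL r + 6 * r) (Ico 0 1) := by
    refine monotoneOn_of_deriv_nonneg (convex_Ico 0 1) ?_ ?_ ?_
    · intro x hx
      exact (hder x hx).continuousAt.continuousWithinAt
    · intro x hx
      rw [interior_Ico] at hx
      exact (hder x ⟨hx.1.le, hx.2⟩).differentiableAt.differentiableWithinAt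
    · intro x hx
      rw [interior_Ico] at hx
      rw [(hder x ⟨hx.1.le, hx.2⟩).deriv]
      have h2 := two_mul_le_LL hx.1.le hx.2
      have h3 := one_sub_sq_pos (by linarith [hx.1] : -1 < x) hx.2
      have e : 2 * LL x ^ 2 + (2 * x * LL x + 6 * x ^ 3 * LL x - 12 * x ^ 2) / (1 - x ^ 2) =
          (2 * LL x ^ 2 * (1 - x ^ 2) + (2 * x * LL x + 6 * x ^ 3 * LL x - 12 * x ^ 2)) /
            (1 - x ^ 2) := by
        field_simp
      rw [e]
      apply div_nonneg _ h3.le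
      have b1 : (2 * x) ^ 2 ≤ LL x ^ 2 := by
        apply pow_le_pow_left₀ (by linarith [hx.1]) h2
      have b2 : (2 * x) ^ 2 * (1 - x ^ 2) ≤ LL x ^ 2 * (1 - x ^ 2) :=
        mul_le_mul_of_nonneg_right b1 h3.le
      have b3 : x * (2 * x) ≤ x * LL x := mul_le_mul_of_nonneg_left h2 hx.1.le
      have b4 : x ^ 3 * (2 * x) ≤ x ^ 3 * LL x := mul_le_mul_of_nonneg_left h2 (pow_nonneg hx.1.le 3)
      nlinarith [pow_nonneg hx.1.le 4]
  have := hmono ⟨le_rfl, zero_lt_one⟩ ⟨h0, h1⟩ h0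
  simpa [LL_zero] using this

/-- `Psi''` at `Phi r` -/
noncomputable def qq (r : ℝ) : ℝ :=
  (2 / (1 - r ^ 2)) * (8 * (((1 + r ^ 2) * LL r - 2 * r) / ((1 - r ^ 2) * LL r ^ 3)))

theorem N_nonneg {r : ℝ} (h0 : 0 ≤ r) (h1 : r < 1) : 0 ≤ (1 + r ^ 2) * LL r - 2 * r := by
  have h2 := two_mul_le_LL h0 h1
  have h3 := LL_nonneg h0 h1
  nlinarith [mul_nonneg (sq_nonneg r) h3]

theorem qq_monotoneOn : MonotoneOn qq (Ioo 0 1) := by
  have hder : ∀ r ∈ Ioo (0 : ℝ) 1, HasDerivAt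
      (fun r => ((1 + r ^ 2) * LL r - 2 * r) / ((1 - r ^ 2) * LL r ^ 3))
      (2 * (2 * r * LL r ^ 2 - 3 * (1 + r ^ 2) * LL r + 6 * r) / ((1 - r ^ 2) ^ 2 * LL r ^ 4)) r := by
    intro r hr
    have hL := LL_hasDerivAt (by linarith [hr.1] : -1 < r) hr.2
    have h2 := LL_pos hr.1 hr.2
    have h3 := one_sub_sq_pos (by linarith [hr.1] : -1 < r) hr.2
    have a1 : HasDerivAt (fun r : ℝ => 2 * r) 2 r := by
      simpa using (hasDerivAt_id r).const_mul 2
    have a2 : HasDerivAt (fun r : ℝ => 1 + r ^ 2) (2 * r) r := by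
      simpa using (hasDerivAt_pow 2 r).const_add 1
    have a3 : HasDerivAt (fun r : ℝ => 1 - r ^ 2) (-(2 * r)) r := by
      simpa using (hasDerivAt_pow 2 r).const_sub 1
    have h5 := ((a2.mul hL).sub a1).div (a3.mul (hL.pow 3)) (mul_pos h3 (pow_pos h2 3)).ne'
    convert! h5 using 1
    simp only [Pi.mul_apply, Pi.pow_apply, Pi.sub_apply]
    field_simp
    ring
  have hmono : MonotoneOn (fun r => ((1 + r ^ 2) * LL r - 2 * r) / ((1 - r ^ 2) * LL r ^ 3))
      (Ioo 0 1) := by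
    refine monotoneOn_of_deriv_nonneg (convex_Ioo 0 1) ?_ ?_ ?_
    · intro x hx
      exact (hder x hx).continuousAt.continuousWithinAt
    · intro x hx
      rw [interior_Ioo] at hx
      exact (hder x hx).differentiableAt.differentiableWithinAt
    · intro x hx
      rw [interior_Ioo] at hx
      rw [(hder x hx).deriv]
      have h2 := LL_pos hx.1 hx.2
      have h3 := one_sub_sq_pos (by linarith [hx.1] : -1 < x) hx.2
      have h4 := k_nonneg hx.1.le hx.2
      positivity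
  intro r hr s hs hrs
  unfold qq
  have h3 := one_sub_sq_pos (by linarith [hr.1] : -1 < r) hr.2
  have h3' := one_sub_sq_pos (by linarith [hs.1] : -1 < s) hs.2
  have h4 := LL_pos hs.1 hs.2
  have h5 := N_nonneg hs.1.le hs.2
  have h6 : 2 / (1 - r ^ 2) ≤ 2 / (1 - s ^ 2) := by
    apply div_le_div_of_nonneg_left (by norm_num) h3'
    nlinarith [hr.1, hs.1]
  have h7 := hmono hr hs hrs
  simp only at h7
  have h8 : 0 ≤ 8 * (((1 + r ^ 2) * LL r - 2 * r) / ((1 - r ^ 2) * LL r ^ 3)) := by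
    have h9 := N_nonneg hr.1.le hr.2
    have h10 := LL_pos hr.1 hr.2
    positivity
  exact mul_le_mul h6 (by linarith) h8 (by positivity)

theorem lam_hasDerivAt {r : ℝ} (h0 : 0 < r) (h1 : r < 1) :
    HasDerivAt lam (qq r * (LL r / 2)) r := by
  have h2 := LL_pos h0 h1
  have h3 := one_sub_sq_pos (by linarith : -1 < r) h1
  have h4 : HasDerivAt (fun r : ℝ => 1 - r ^ 2) (-(2 * r)) r := by
    simpa using (hasDerivAt_pow 2 r).const_sub 1
  have h5 := ((hasDerivAt_id r).div (h4.mul (LL_hasDerivAt (by linarith) h1))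
    (mul_pos h3 h2).ne').const_mul 8 |>.const_add 4
  convert! h5 using 1
  unfold qq
  simp only [id, Pi.mul_apply]
  field_simp
  ring

/-- `Psi'` is differentiable with derivative `qq` -/
theorem lamK_hasDerivAt {y : ℝ} (h0 : 0 < y) (h1 : y < log 2) :
    HasDerivAt (fun y => lam (Kinv y)) (qq (Kinv y)) y := by
  have hK := Kinv_mem h0 h1
  have h2 := (lam_hasDerivAt hK.1 hK.2).comp y (Kinv_hasDerivAt h0 h1)
  have h3 : qq (Kinv y) * (LL (Kinv y) / 2) * (LL (Kinv y) / 2)⁻¹ = qq (Kinv y) := by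
    rw [mul_assoc, mul_inv_cancel₀ (half_pos (LL_pos hK.1 hK.2)).ne', mul_one]
  rw [h3] at h2
  exact h2

theorem Kinv_le {x y : ℝ} (h0 : 0 < x) (hxy : x ≤ y) (h1 : y < log 2) : Kinv x ≤ Kinv y := by
  have hx := Kinv_mem h0 (hxy.trans_lt h1)
  have hy := Kinv_mem (h0.trans_le hxy) h1
  refine (Phi_strictMonoOn.le_iff_le ⟨hx.1.le, hx.2.le⟩ ⟨hy.1.le, hy.2.le⟩).1 ?_
  rw [Phi_Kinv h0 (hxy.trans_lt h1), Phi_Kinv (h0.trans_le hxy) h1]
  exact hxy

/-- For `J ≥ 0` the function `y ↦ Psi (y + J) - Psi y` is convex on `[0, log 2 - J)`. -/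
theorem Psi_diff_convexOn {J : ℝ} (hJ : 0 ≤ J) :
    ConvexOn ℝ (Ico 0 (log 2 - J)) (fun y => Psi (y + J) - Psi y) := by
  have hder : ∀ y ∈ Ioo (0 : ℝ) (log 2 - J), HasDerivAt (fun y => Psi (y + J) - Psi y)
      (lam (Kinv (y + J)) - lam (Kinv y)) y := by
    intro y hy
    have h1 := Psi_hasDerivAt (by linarith [hy.1] : 0 < y + J) (by linarith [hy.2] : y + J < log 2)
    have h2 := Psi_hasDerivAt hy.1 (by linarith [hy.2] : y < log 2)
    exact (h1.comp_add_const y J).sub h2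
  refine MonotoneOn.convexOn_of_deriv (convex_Ico _ _) ?_ ?_ ?_
  · apply ContinuousOn.sub
    · refine Psi_continuousOn.comp (by fun_prop) ?_
      intro y hy
      have : y < log 2 - J := hy.2
      exact (by linarith : y + J < log 2)
    · refine Psi_continuousOn.mono ?_
      intro y hy
      have : y < log 2 - J := hy.2
      exact (by linarith : y < log 2)
  · intro y hy
    rw [interior_Ico] at hy
    exact (hder y hy).differentiableAt.differentiableWithinAt
  · rw [interior_Ico]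
    have hmono : MonotoneOn (fun y => lam (Kinv (y + J)) - lam (Kinv y)) (Ioo 0 (log 2 - J)) := by
      have hder2 : ∀ y ∈ Ioo (0 : ℝ) (log 2 - J),
          HasDerivAt (fun y => lam (Kinv (y + J)) - lam (Kinv y))
            (qq (Kinv (y + J)) - qq (Kinv y)) y := by
        intro y hy
        have h1 := lamK_hasDerivAt (by linarith [hy.1] : 0 < y + J)
          (by linarith [hy.2] : y + J < log 2)
        have h2 := lamK_hasDerivAt hy.1 (by linarith [hy.2] : y < log 2)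
        exact (h1.comp_add_const y J).sub h2
      refine monotoneOn_of_deriv_nonneg (convex_Ioo _ _) ?_ ?_ ?_
      · intro x hx
        exact (hder2 x hx).continuousAt.continuousWithinAt
      · intro x hx
        rw [interior_Ioo] at hx
        exact (hder2 x hx).differentiableAt.differentiableWithinAt
      · intro x hx
        rw [interior_Ioo] at hx
        rw [(hder2 x hx).deriv]
        have h1 := Kinv_mem (by linarith [hx.1] : 0 < x + J) (by linarith [hx.2] : x + J < log 2)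
        have h2 := Kinv_mem hx.1 (by linarith [hx.2] : x < log 2)
        have h3 := qq_monotoneOn h2 h1
          (Kinv_le hx.1 (by linarith) (by linarith [hx.2] : x + J < log 2))
        linarith
    intro x hx y hy hxy
    rw [(hder x hx).deriv, (hder y hy).deriv]
    exact hmono hx hy hxy

end Vale.Agent.CK
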