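import Vale.Agent.CK.Bits
import Vale.Agent.CK.Trunc

/-!
# P322: two-stage comparison with the dictator

Two inequalities for the entropy production, `PsiT t (I(u)) ≤ P(u)` and
`m RT t (H/m) ≤ P(u)`, `m = 4 a (1 - a)`, imply the Courtade-Kumar inequality.
-/

namespace Vale.Agent.CK

open Finset Real

variable {n : ℕ}

/-- the ratio `Kinv (J r) / r` is nondecreasing -/
theorem ratio_mono (J J' : ℝ → ℝ) {r0 r1 : ℝ} (hr0 : 0 < r0) (h01 : r0 ≤ r1)
    (hJ : ∀ r, r0 ≤ r → r ≤ r1 → HasDerivAt J (J' r) r)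
    (hpos : ∀ r, r0 ≤ r → r ≤ r1 → 0 < J r) (hlt : ∀ r, r0 ≤ r → r ≤ r1 → J r < log 2)
    (hD : ∀ r, r0 ≤ r → r ≤ r1 → Kinv (J r) * (LL (Kinv (J r)) / 2) ≤ r * J' r) :
    Kinv (J r0) / r0 ≤ Kinv (J r1) / r1 := by
  have hder : ∀ x, r0 ≤ x → x ≤ r1 → HasDerivAt (fun x => Kinv (J x) / x)
      (((LL (Kinv (J x)) / 2)⁻¹ * J' x * x - Kinv (J x)) / x ^ 2) x := by
    intro x hx1 hx2
    have hx0 : 0 < x := hr0.trans_le hx1
    have e1 := (Kinv_hasDerivAt (hpos x hx1 hx2) (hlt x hx1 hx2)).comp x (hJ x hx1 hx2)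
    have e2 := e1.div (hasDerivAt_id x) hx0.ne'
    convert! e2 using 1
    simp
  have hder0 : ∀ x, r0 ≤ x → x ≤ r1 →
      0 ≤ ((LL (Kinv (J x)) / 2)⁻¹ * J' x * x - Kinv (J x)) / x ^ 2 := by
    intro x hx1 hx2
    have hx0 : 0 < x := hr0.trans_le hx1
    have hm := Kinv_mem (hpos x hx1 hx2) (hlt x hx1 hx2)
    have hL : 0 < LL (Kinv (J x)) / 2 := half_pos (LL_pos hm.1 hm.2)
    have h2 := hD x hx1 hx2
    apply div_nonneg _ (by positivity)
    rw [sub_nonneg]
    calc Kinv (J x) = (LL (Kinv (J x)) / 2)⁻¹ * (Kinv (J x) * (LL (Kinv (J x)) / 2)) := by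
          rw [mul_comm, mul_assoc, mul_inv_cancel₀ hL.ne', mul_one]
      _ ≤ (LL (Kinv (J x)) / 2)⁻¹ * (x * J' x) :=
          mul_le_mul_of_nonneg_left h2 (inv_nonneg.2 hL.le)
      _ = _ := by ring
  have hmono2 : MonotoneOn (fun x => Kinv (J x) / x) (Set.Icc r0 r1) := by
    refine monotoneOn_of_deriv_nonneg (convex_Icc r0 r1) ?_ ?_ ?_
    · intro x hx
      exact (hder x hx.1 hx.2).continuousAt.continuousWithinAt
    · intro x hx
      rw [interior_Icc] at hx
      exact (hder x hx.1.le hx.2.le).differentiableAt.differentiableWithinAt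
    · intro x hx
      rw [interior_Icc] at hx
      rw [(hder x hx.1.le hx.2.le).deriv]
      exact hder0 x hx.1.le hx.2.le
  exact hmono2 ⟨le_rfl, h01⟩ ⟨h01, le_rfl⟩ h01

/-- Comparison from the right end point `1`. -/
theorem compare_from (J J' : ℝ → ℝ) {r0 : ℝ} (hr0 : 0 < r0) (hr1 : r0 < 1)
    (hJ : ∀ r, r0 ≤ r → r < 1 → HasDerivAt J (J' r) r)
    (hJ' : ∀ r, r0 ≤ r → r < 1 → 0 ≤ J' r) (hlt : ∀ r, r0 ≤ r → r < 1 → J r < log 2)
    (hD : ∀ r s, r0 ≤ r → r < 1 → r0 < s → s < 1 → J r = Phi s → s * (LL s / 2) ≤ r * J' r) :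
    J r0 ≤ Phi r0 := by
  by_contra hc
  push Not at hc
  have hKr : 0 < Phi r0 := (Phi_mem hr0 hr1).1
  have hmono : MonotoneOn J (Set.Ico r0 1) := by
    refine monotoneOn_of_deriv_nonneg (convex_Ico r0 1) ?_ ?_ ?_
    · intro x hx
      exact (hJ x hx.1 hx.2).continuousAt.continuousWithinAt
    · intro x hx
      rw [interior_Ico] at hx
      exact (hJ x hx.1.le hx.2).differentiableAt.differentiableWithinAt
    · intro x hx
      rw [interior_Ico] at hx
      rw [(hJ x hx.1.le hx.2).deriv]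
      exact hJ' x hx.1.le hx.2
  have hge : ∀ x, r0 ≤ x → x < 1 → Phi r0 < J x := fun x hx1 hx2 =>
    lt_of_lt_of_le hc (hmono ⟨le_rfl, hr1⟩ ⟨hx1, hx2⟩ hx1)
  have hpos : ∀ x, r0 ≤ x → x < 1 → 0 < J x := fun x hx1 hx2 => hKr.trans (hge x hx1 hx2)
  have hgt : ∀ x, r0 ≤ x → x < 1 → r0 < Kinv (J x) := by
    intro x hx1 hx2
    have hm := Kinv_mem (hpos x hx1 hx2) (hlt x hx1 hx2)
    rw [← Phi_strictMonoOn.lt_iff_lt ⟨hr0.le, hr1.le⟩ ⟨hm.1.le, hm.2.le⟩,
      Phi_Kinv (hpos x hx1 hx2) (hlt x hx1 hx2)]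
    exact hge x hx1 hx2
  have hm := Kinv_mem (hpos r0 le_rfl hr1) (hlt r0 le_rfl hr1)
  set c := Kinv (J r0) / r0 with hcdef
  have hc1 : 1 < c := by rw [hcdef, lt_div_iff₀ hr0]; linarith [hgt r0 le_rfl hr1]
  have hc2 : c * r0 < 1 := by rw [hcdef, div_mul_cancel₀ _ hr0.ne']; exact hm.2
  have hc0 : 0 < c := by linarith
  set x := (1 / c + 1) / 2 with hx
  have h3 : 1 / c < 1 := by rw [div_lt_one hc0]; exact hc1
  have h4 : r0 < 1 / c := by rw [lt_div_iff₀ hc0]; linarith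
  have hx1 : r0 ≤ x := by rw [hx]; linarith
  have hx2 : x < 1 := by rw [hx]; linarith
  have hx3 : 1 / c < x := by rw [hx]; linarith
  have hx0 : 0 < x := by linarith
  have h5 : c ≤ Kinv (J x) / x := by
    refine ratio_mono J J' hr0 hx1 (fun r h h' => hJ r h (h'.trans_lt hx2))
      (fun r h h' => hpos r h (h'.trans_lt hx2)) (fun r h h' => hlt r h (h'.trans_lt hx2)) ?_
    intro r h h'
    have h'' := h'.trans_lt hx2
    exact hD r (Kinv (J r)) h h'' (hgt r h h'') (Kinv_mem (hpos r h h'') (hlt r h h'')).2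
      (Phi_Kinv (hpos r h h'') (hlt r h h'')).symm
  have h6 := (Kinv_mem (hpos x hx1 hx2) (hlt x hx1 hx2)).2
  rw [le_div_iff₀ hx0] at h5
  rw [div_lt_iff₀ hc0] at hx3
  linarith

theorem Phi_neg_two (x : ℝ) : Phi (-x) = Phi x := by
  unfold Phi
  rw [← binEntropy_one_sub ((1 + x) / 2)]
  congr 2
  ring

/-- Pinsker: `Phi x ≥ x²/2`. -/
theorem sq_le_Phi {x : ℝ} (h0 : 0 ≤ x) (h1 : x < 1) : x ^ 2 / 2 ≤ Phi x := by
  have hmono : MonotoneOn (fun x => Phi x - x ^ 2 / 2) (Set.Ico (0 : ℝ) 1) := by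
    have hd : ∀ y, 0 ≤ y → y < 1 → HasDerivAt (fun x => Phi x - x ^ 2 / 2) (LL y / 2 - y) y := by
      intro y hy0 hy1
      have e := (Phi_hasDerivAt (by linarith : -1 < y) hy1).sub
        (((hasDerivAt_id y).pow 2).div_const 2)
      convert! e using 1
      simp
    refine monotoneOn_of_deriv_nonneg (convex_Ico 0 1) ?_ ?_ ?_
    · intro y hy
      exact (hd y hy.1 hy.2).continuousAt.continuousWithinAt
    · intro y hy
      rw [interior_Ico] at hy
      exact (hd y hy.1.le hy.2).differentiableAt.differentiableWithinAt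
    · intro y hy
      rw [interior_Ico] at hy
      rw [(hd y hy.1.le hy.2).deriv]
      linarith [two_mul_le_LL hy.1.le hy.2]
  have h := hmono ⟨le_rfl, zero_lt_one⟩ ⟨h0, h1⟩ h0
  simp only [Phi_zero] at h
  linarith

theorem sq_le_Phi' {x : ℝ} (h0 : -1 < x) (h1 : x < 1) : x ^ 2 / 2 ≤ Phi x := by
  rcases le_total 0 x with h | h
  · exact sq_le_Phi h h1
  · have := sq_le_Phi (x := -x) (by linarith) (by linarith)
    rw [Phi_neg_two] at this
    linarith [neg_sq x]

/-- the key arithmetic fact between the two stages -/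
theorem entropy_bound {a r : ℝ} (ha0 : 0 < a) (ha1 : a < 1) (hr : log 2 - Phi r ≤ 1 / 2) :
    binEntropy a - 4 * a * (1 - a) * (log 2 - Phi r) ≤ Phi r := by
  have h1 : binEntropy a = log 2 - Phi (1 - 2 * a) := by
    unfold Phi
    rw [sub_sub_cancel, ← binEntropy_one_sub a]
    congr 1
    ring
  have h2 := sq_le_Phi' (x := 1 - 2 * a) (by linarith) (by linarith)
  rw [h1]
  have h3 : 0 ≤ (1 - 2 * a) ^ 2 := sq_nonneg _
  have h4 : (1 - 2 * a) ^ 2 * (log 2 - Phi r) ≤ (1 - 2 * a) ^ 2 * (1 / 2) :=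
    mul_le_mul_of_nonneg_left hr h3
  nlinarith

/-- the two inequalities for the entropy production give the inequality in nats -/
theorem II_le_of_two (t : ℝ) (ht0 : 0 < t) (ht1 : t < 1) (hη : log 2 - Phi t ≤ 1 / 2)
    (hG1 : ∀ (n : ℕ) (u : Cube n → ℝ), (∀ x, 0 < u x ∧ u x < 1) → PsiT t (II u) ≤ PP u)
    (hG2 : ∀ (n : ℕ) (u : Cube n → ℝ), (∀ x, 0 < u x ∧ u x < 1) →
      4 * av u * (1 - av u) * RT t (av (fun x => binEntropy (u x)) / (4 * av u * (1 - av u))) ≤ PP u)
    (f : Cube n → ℝ) (hf : ∀ x, f x = 0 ∨ f x = 1) (r : ℝ)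
    (h0 : 0 ≤ r) (h1 : r ≤ 1) : II (TT r f) ≤ Phi r := by
  have hf0 : ∀ x, 0 ≤ f x := fun x => by rcases hf x with h | h <;> rw [h]; norm_num
  have hf1 : ∀ x, 0 ≤ 1 - f x := fun x => by rcases hf x with h | h <;> rw [h] <;> norm_num
  have hPhi : ∀ r : ℝ, 0 ≤ r → r ≤ 1 → 0 ≤ Phi r := by
    intro r h0 h1
    rw [← Phi_zero]
    exact Phi_strictMonoOn.monotoneOn ⟨le_rfl, zero_le_one⟩ ⟨h0, h1⟩ h0
  rcases eq_or_lt_of_le h0 with h | h0'
  · rw [← h, TT_zero, II_const, Phi_zero]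
  rcases eq_or_lt_of_le h1 with h | h1'
  · rw [h, Phi_one]
    unfold II
    have h2 : 0 ≤ av (fun x => binEntropy (TT 1 f x)) := av_nonneg fun x => by
      refine binEntropy_nonneg (TT_nonneg hf0 (by norm_num) le_rfl x) ?_
      have := TT_nonneg hf1 (by norm_num : (-1 : ℝ) ≤ 1) le_rfl x
      rw [TT_one_sub] at this
      linarith
    have h3 : binEntropy (av (TT 1 f)) ≤ log 2 := binEntropy_le_log_two
    linarith
  by_cases hc0 : ∃ x, 0 < f x
  swap
  · have : f = fun _ => 0 := by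
      funext x
      push Not at hc0
      exact le_antisymm (hc0 x) (hf0 x)
    rw [this]
    have h2 : TT r (fun _ : Cube n => (0 : ℝ)) = fun _ => 0 := funext fun y => TT_const 0 r y
    rw [h2, II_const]
    exact hPhi r h0 h1
  by_cases hc1 : ∃ x, 0 < 1 - f x
  swap
  · have : f = fun _ => 1 := by
      funext x
      push Not at hc1
      linarith [hc1 x, hf1 x]
    rw [this]
    have h2 : TT r (fun _ : Cube n => (1 : ℝ)) = fun _ => 1 := funext fun y => TT_const 1 r y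
    rw [h2, II_const]
    exact hPhi r h0 h1
  have hu : ∀ s, 0 < s → s < 1 → ∀ y, 0 < TT s f y ∧ TT s f y < 1 := by
    intro s hs0 hs1 y
    refine ⟨TT_pos hf0 (by linarith) hs1 hc0 y, ?_⟩
    have := TT_pos hf1 (by linarith : -1 < s) hs1 hc1 y
    rw [TT_one_sub] at this
    linarith
  set J : ℝ → ℝ := fun r => II (TT r f) with hJdef
  have hJ : ∀ s, 0 < s → s < 1 → HasDerivAt J (dJ f s) s := fun s hs0 hs1 =>
    hasDerivAt_J f (hu s hs0 hs1)
  have hJP : ∀ s, s * dJ f s = PP (TT s f) / 4 := fun s => mul_dJ f s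
  have hJ' : ∀ s, 0 < s → s < 1 → 0 ≤ dJ f s := by
    intro s hs0 hs1
    have h2 := hJP s
    have h3 := PP_nonneg (hu s hs0 hs1)
    by_contra hneg
    push Not at hneg
    nlinarith
  have hH : ∀ s, 0 < s → s < 1 → 0 < av (fun x => binEntropy (TT s f x)) := fun s hs0 hs1 =>
    av_pos fun x => binEntropy_pos (hu s hs0 hs1 x).1 (hu s hs0 hs1 x).2
  have hJlt : ∀ s, 0 < s → s < 1 → J s < log 2 := by
    intro s hs0 hs1
    have h2 := hH s hs0 hs1
    have h3 : binEntropy (av (TT s f)) ≤ log 2 := binEntropy_le_log_two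
    simp only [hJdef, II]
    linarith
  set a := av f with ha
  have ha0 : 0 < a := by
    have h2 := av_pos (f := TT (1 / 2) f) fun y => (hu (1 / 2) (by norm_num) (by norm_num) y).1
    rwa [av_TT] at h2
  have ha1 : a < 1 := by
    have h2 := av_pos (f := fun y => 1 - TT (1 / 2) f y)
      fun y => by linarith [(hu (1 / 2) (by norm_num) (by norm_num) y).2]
    rw [av_sub, av_const, av_TT] at h2
    linarith
  set m := 4 * a * (1 - a) with hm
  have hm0 : 0 < m := by
    rw [hm]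
    exact mul_pos (by linarith) (by linarith)
  have hHJ : ∀ s, av (fun x => binEntropy (TT s f x)) = binEntropy a - J s := by
    intro s
    simp only [hJdef, II, av_TT]
    ring
  -- second stage
  have stage2 : ∀ s, t ≤ s → s < 1 → J s ≤ Phi s := by
    intro s hts hs1
    have hs0 : 0 < s := ht0.trans_le hts
    have hPt : Phi t ≤ Phi s :=
      Phi_strictMonoOn.monotoneOn ⟨ht0.le, ht1.le⟩ ⟨hs0.le, hs1.le⟩ hts
    have key : (fun r => log 2 - (binEntropy a - J r) / m) s ≤ Phi s := by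
      refine compare_from (fun r => log 2 - (binEntropy a - J r) / m) (fun r => dJ f r / m)
        hs0 hs1 ?_ ?_ ?_ ?_
      · intro x hx0 hx1
        have e := (((hJ x (hs0.trans_le hx0) hx1).const_sub (binEntropy a)).div_const m).const_sub
          (log 2)
        convert! e using 1
        ring
      · intro x hx0 hx1
        exact div_nonneg (hJ' x (hs0.trans_le hx0) hx1) hm0.le
      · intro x hx0 hx1
        have h2 := hH x (hs0.trans_le hx0) hx1
        rw [hHJ] at h2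
        have h3 : 0 < (binEntropy a - J x) / m := div_pos h2 hm0
        show log 2 - (binEntropy a - J x) / m < log 2
        linarith
      · intro x q hx0 hx1 hq0 hq1 heq
        have hxx := hs0.trans_le hx0
        have heq' : (binEntropy a - J x) / m = log 2 - Phi q := by
          have : log 2 - (binEntropy a - J x) / m = Phi q := heq
          linarith
        have hqs : Phi s < Phi q := Phi_strictMonoOn ⟨hs0.le, hs1.le⟩
          ⟨(hs0.trans hq0).le, hq1.le⟩ hq0
        have h2 := hG2 n (TT x f) (hu x hxx hx1)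
        rw [av_TT, ← ha, ← hm, hHJ, heq', RT_of_le (by linarith), RR, sub_sub_cancel,
          Psi_Phi (hs0.trans hq0).le hq1] at h2
        have h3 := hJP x
        have h4 : x * (dJ f x / m) = PP (TT x f) / (4 * m) := by
          rw [mul_div_assoc', h3]
          field_simp
        show q * (LL q / 2) ≤ x * (dJ f x / m)
        rw [h4, le_div_iff₀ (by positivity)]
        unfold wf at h2
        nlinarith
    have key' : log 2 - (binEntropy a - J s) / m ≤ Phi s := key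
    have h2 := entropy_bound ha0 ha1 (r := s) (by linarith)
    rw [← hm] at h2
    have h3 : m * (log 2 - Phi s) ≤ binEntropy a - J s := by
      have : log 2 - Phi s ≤ (binEntropy a - J s) / m := by linarith
      rw [le_div_iff₀ hm0] at this
      linarith
    linarith
  rcases le_or_gt t r with htr | htr
  · exact stage2 r htr h1'
  -- first stage
  have hJt := stage2 t le_rfl ht1
  by_contra hc
  push Not at hc
  change Phi r < J r at hc
  have hmono : MonotoneOn J (Set.Icc r t) := by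
    refine monotoneOn_of_deriv_nonneg (convex_Icc r t) ?_ ?_ ?_
    · intro x hx
      exact (hJ x (h0'.trans_le hx.1) (hx.2.trans_lt ht1)).continuousAt.continuousWithinAt
    · intro x hx
      rw [interior_Icc] at hx
      exact (hJ x (h0'.trans hx.1) (hx.2.trans ht1)).differentiableAt.differentiableWithinAt
    · intro x hx
      rw [interior_Icc] at hx
      rw [(hJ x (h0'.trans hx.1) (hx.2.trans ht1)).deriv]
      exact hJ' x (h0'.trans hx.1) (hx.2.trans ht1)
  have hr0 : 0 < Phi r := (Phi_mem h0' h1').1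
  have hpos : ∀ x, r ≤ x → x ≤ t → 0 < J x := fun x hx1 hx2 =>
    (hr0.trans hc).trans_le (hmono ⟨le_rfl, htr.le⟩ ⟨hx1, hx2⟩ hx1)
  have hle : ∀ x, r ≤ x → x ≤ t → J x ≤ Phi t := fun x hx1 hx2 =>
    (hmono ⟨hx1, hx2⟩ ⟨htr.le, le_rfl⟩ hx2).trans hJt
  have hlt : ∀ x, r ≤ x → x ≤ t → J x < log 2 := fun x hx1 hx2 =>
    hJlt x (h0'.trans_le hx1) (hx2.trans_lt ht1)
  have hratio := ratio_mono J (dJ f) h0' htr.le
    (fun x hx1 hx2 => hJ x (h0'.trans_le hx1) (hx2.trans_lt ht1)) hpos hlt (by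
      intro x hx1 hx2
      have hx0 := h0'.trans_le hx1
      have hx1' := hx2.trans_lt ht1
      have h2 := hG1 n (TT x f) (hu x hx0 hx1')
      have h3 := hJP x
      have hKm := Kinv_mem (hpos x hx1 hx2) (hlt x hx1 hx2)
      have h4 : PsiT t (II (TT x f)) = wf (Kinv (J x)) := by
        rw [PsiT_of_le (hle x hx1 hx2), Psi, if_pos (hpos x hx1 hx2)]
      rw [h4] at h2
      unfold wf at h2
      nlinarith)
  have hKr := Kinv_mem (hpos r le_rfl htr.le) (hlt r le_rfl htr.le)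
  have hKt := Kinv_mem (hpos t htr.le le_rfl) (hlt t htr.le le_rfl)
  have h2 : r < Kinv (J r) := by
    rw [← Phi_strictMonoOn.lt_iff_lt ⟨h0'.le, h1'.le⟩ ⟨hKr.1.le, hKr.2.le⟩,
      Phi_Kinv (hpos r le_rfl htr.le) (hlt r le_rfl htr.le)]
    exact hc
  have h3 : Kinv (J t) ≤ t := by
    rw [← Phi_strictMonoOn.le_iff_le ⟨hKt.1.le, hKt.2.le⟩ ⟨ht0.le, ht1.le⟩,
      Phi_Kinv (hpos t htr.le le_rfl) (hlt t htr.le le_rfl)]
    exact hJt
  have h4 : 1 < Kinv (J r) / r := by rw [lt_div_iff₀ h0']; linarith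
  have h5 : Kinv (J t) / t ≤ 1 := by rw [div_le_iff₀ ht0]; linarith
  linarith

/-- the two inequalities imply the Courtade-Kumar inequality in bits -/
theorem ck_of_two (t : ℝ) (ht0 : 0 < t) (ht1 : t < 1) (hη : log 2 - Phi t ≤ 1 / 2)
    (hG1 : ∀ (n : ℕ) (u : Cube n → ℝ), (∀ x, 0 < u x ∧ u x < 1) → PsiT t (II u) ≤ PP u)
    (hG2 : ∀ (n : ℕ) (u : Cube n → ℝ), (∀ x, 0 < u x ∧ u x < 1) →
      4 * av u * (1 - av u) * RT t (av (fun x => binEntropy (u x)) / (4 * av u * (1 - av u))) ≤ PP u)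
    (n : ℕ) (f : (Fin n → Bool) → Bool) (ε : ℝ) (h0 : 0 ≤ ε)
    (h1 : ε ≤ 1 / 2) : mutualInfo (jointLaw ε f) ≤ 1 - h2 ε := by
  have hl : 0 < log 2 := log_pos one_lt_two
  rw [mutualInfo_eq ε h0 (by linarith) f, h2_eq]
  have h := II_le_of_two t ht0 ht1 hη hG1 hG2 (ind f) (fun x => by unfold ind; split_ifs <;> simp)
    (1 - 2 * ε) (by linarith) (by linarith)
  have e : Phi (1 - 2 * ε) = log 2 - binEntropy ε := by
    unfold Phi
    rw [← binEntropy_one_sub ε]
    congr 2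
    ring
  rw [e] at h
  rw [div_le_iff₀ hl, sub_mul, div_mul_cancel₀ _ hl.ne']
  linarith

theorem eta_three_quarters : log 2 - Phi (3 / 4) ≤ 1 / 2 := by
  have h := sq_le_Phi (x := 3 / 4) (by norm_num) (by norm_num)
  have h2 := Real.log_two_lt_d9
  norm_num at h
  linarith

end Vale.Agent.CK
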