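import Vale.Agent.CK.Red
import Vale.Agent.CK.TensorH
import Vale.Agent.CK.Two

/-!
# P322: assembly

`TPstar (3/4)` from its parts, and the Courtade-Kumar inequality from `TPstar (3/4)`, the base case
`n = 1` and the diagonal inequality.
-/

namespace Vale.Agent.CK

open Finset Real

/-- the `G1` part: left-hand side `PsiT` -/
def PartG1 : Prop := ∀ x d H M : ℝ, 0 ≤ x → 0 < d → d ≤ 1 / 2 → x + d < 1 → 0 < H →
  H ≤ hb x d →
  d * (LL (x + d) - LL (x - d)) + muu x d * (hb x d - H) ≤ M →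
  (∀ r, 0 < r → r < 1 → r * H ≤ d * (log 2 - Phi r) → 2 * d * LL r ≤ M) →
  (∀ s, 0 < s → s < 1 → 2 * d * LL s + nuu s * (d * (log 2 - Phi s) / s - H) ≤ M) →
  PsiT (3 / 4) (log 2 - Phi x - H) ≤ PsiT (3 / 4) (hb x d - H) + M

/-- the `G2` part on the parameters `r ∈ [lo, hi]`: left-hand side `(1 - x²) RT` -/
def PartG2 (I : Set ℝ) : Prop := ∀ x d r M : ℝ, 0 ≤ x → 0 < d → d ≤ 1 / 2 → x + d < 1 → r ∈ I →
  (1 - x ^ 2) * (log 2 - Phi r) ≤ hb x d →
  (∀ q, 0 < q → q < 1 → q * ((1 - x ^ 2) * (log 2 - Phi r)) ≤ d * (log 2 - Phi q) →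
    2 * d * LL q ≤ M) →
  (∀ q, 0 < q → q < 1 →
    (2 * LL q + 4 * q / (1 - q ^ 2) - Tan.mu ((1 + q) / 2) ((1 - q) / 2) / 2 * LL q) * d -
      Tan.mu ((1 + q) / 2) ((1 - q) / 2) * ((1 - x ^ 2) * (log 2 - Phi r)) ≤ M) →
  (1 - x ^ 2) * wf r ≤
    max (PsiT (3 / 4) (hb x d - (1 - x ^ 2) * (log 2 - Phi r)))
      ((1 - x ^ 2 - d ^ 2) * RT (3 / 4) ((1 - x ^ 2) * (log 2 - Phi r) / (1 - x ^ 2 - d ^ 2))) + M

/-- the junction of the two branches -/
def PartJ1 : Prop := ∀ x H : ℝ, 0 ≤ x → x < 1 → (1 - x ^ 2) * (log 2 - Phi (3 / 4)) ≤ H →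
  (1 - x ^ 2) * RT (3 / 4) (H / (1 - x ^ 2)) ≤ PsiT (3 / 4) (log 2 - Phi x - H)

theorem TPstar_of (h1 : PartG1) (h2 : PartG2 (Set.Icc (3 / 4) (9 / 10)))
    (h3 : PartG2 (Set.Ico (9 / 10) 1)) (h4 : PartJ1) : TPstar (3 / 4) := by
  intro x d H M hx0 hd0 hd1 hxd hH0 hH hM2 hMb hMl hC1
  have g1 := h1 x d H M hx0 hd0 hd1 hxd hH0 hH hM2 hMb hMl
  have hx1 : x < 1 := by linarith
  have hm : 0 < 1 - x ^ 2 := by nlinarith
  refine max_le (g1.trans (add_le_add_left (le_max_left _ _) M)) ?_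
  rcases le_or_gt ((1 - x ^ 2) * (log 2 - Phi (3 / 4))) H with hJ | hJ
  · exact (h4 x H hx0 hx1 hJ).trans (g1.trans (add_le_add_left (le_max_left _ _) M))
  · have hHm : H / (1 - x ^ 2) < log 2 - Phi (3 / 4) := by
      rw [div_lt_iff₀ hm]
      linarith
    have hHm0 : 0 < H / (1 - x ^ 2) := div_pos hH0 hm
    have hP : 0 < Phi (3 / 4) := (Phi_mem (by norm_num) (by norm_num)).1
    have hy0 : 0 < log 2 - H / (1 - x ^ 2) := by linarith
    have hy1 : log 2 - H / (1 - x ^ 2) < log 2 := by linarith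
    have hK := Kinv_mem hy0 hy1
    have hKP := Phi_Kinv hy0 hy1
    set r := Kinv (log 2 - H / (1 - x ^ 2)) with hr
    have hr34 : 3 / 4 < r := by
      rw [← Phi_strictMonoOn.lt_iff_lt ⟨by norm_num, by norm_num⟩ ⟨hK.1.le, hK.2.le⟩, hKP]
      linarith
    have hHr : H / (1 - x ^ 2) = log 2 - Phi r := by rw [hKP]; ring
    have hHr' : (1 - x ^ 2) * (log 2 - Phi r) = H := by
      rw [← hHr]
      field_simp
    have hRT : RT (3 / 4) (H / (1 - x ^ 2)) = wf r := by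
      rw [RT_of_le hHm.le, RR, hHr, sub_sub_cancel, Psi_Phi hK.1.le hK.2]
    rw [hRT]
    rcases le_or_gt r (9 / 10) with h9 | h9
    · have := h2 x d r M hx0 hd0 hd1 hxd ⟨hr34.le, h9⟩ (by rw [hHr']; exact hH)
        (by rw [hHr']; exact hMb) (by rw [hHr']; exact hC1)
      rwa [hHr'] at this
    · have := h3 x d r M hx0 hd0 hd1 hxd ⟨h9.le, hK.2⟩ (by rw [hHr']; exact hH)
        (by rw [hHr']; exact hMb) (by rw [hHr']; exact hC1)
      rwa [hHr'] at this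

/-- The Courtade-Kumar inequality from the real inequality `TPstar (3/4)` and the base case. -/
theorem ck_of_TPstar (hT : TPstar (3 / 4))
    (hbase : ∀ p q : ℝ, 0 < p → p < 1 → 0 < q → q < 1 →
      GG (3 / 4) ((p + q) / 2) ((binEntropy p + binEntropy q) / 2) ≤ WW p q)
    (hdiag : ∀ a : ℝ, 0 < a → a < 1 → GG (3 / 4) a (binEntropy a) ≤ 0)
    (n : ℕ) (f : (Fin n → Bool) → Bool) (ε : ℝ) (h0 : 0 ≤ ε) (h1 : ε ≤ 1 / 2) :
    mutualInfo (jointLaw ε f) ≤ 1 - h2 ε := by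
  have key := tensorH (GG (3 / 4)) hdiag hbase
    (TPH_of_TPstar (by norm_num) (by norm_num) hT)
  refine ck_of_two (3 / 4) (by norm_num) (by norm_num) eta_three_quarters ?_ ?_ n f ε h0 h1
  · intro n u hu
    exact (le_max_left _ _).trans (key n u hu)
  · intro n u hu
    exact (le_max_right _ _).trans (key n u hu)

end Vale.Agent.CK
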