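import Vale.Agent.CK.Compare

/-!
# P322: the noise semigroup, and the reduction of the Courtade-Kumar conjecture to (D)
-/

namespace Vale.Agent.CK

open Finset Real

variable {n : ℕ}

theorem flip_flip (i : Fin n) (x : Cube n) : flip i (flip i x) = x := by
  unfold flip
  simp

/-- the flip as a permutation of the cube -/
def flipEquiv (i : Fin n) : Cube n ≃ Cube n :=
  ⟨flip i, flip i, flip_flip i, flip_flip i⟩

theorem flip_apply_self (i : Fin n) (x : Cube n) : flip i x i = !(x i) := by
  simp [flip]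

theorem flip_apply_ne {i j : Fin n} (h : j ≠ i) (x : Cube n) : flip i x j = x j := by
  simp [flip, h]

theorem av_flip (i : Fin n) (f : Cube n → ℝ) : av (fun x => f (flip i x)) = av f := by
  unfold av
  congr 1
  exact (flipEquiv i).sum_comp f

theorem av_add (f g : Cube n → ℝ) : av (fun x => f x + g x) = av f + av g := by
  unfold av
  rw [Finset.sum_add_distrib, add_div]

theorem av_sub (f g : Cube n → ℝ) : av (fun x => f x - g x) = av f - av g := by
  unfold av
  rw [Finset.sum_sub_distrib, sub_div]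

theorem av_mul_left (c : ℝ) (f : Cube n → ℝ) : av (fun x => c * f x) = c * av f := by
  unfold av
  rw [← Finset.mul_sum, mul_div_assoc]

theorem av_neg (f : Cube n → ℝ) : av (fun x => - f x) = - av f := by
  unfold av
  rw [Finset.sum_neg_distrib, neg_div]

theorem av_sum {ι : Type*} (s : Finset ι) (f : ι → Cube n → ℝ) :
    av (fun x => ∑ i ∈ s, f i x) = ∑ i ∈ s, av (f i) := by
  unfold av
  rw [Finset.sum_comm, Finset.sum_div]

theorem av_const (c : ℝ) : av (fun _ : Cube n => c) = c := by
  unfold av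
  simp

theorem av_mono {f g : Cube n → ℝ} (h : ∀ x, f x ≤ g x) : av f ≤ av g := by
  unfold av
  exact div_le_div_of_nonneg_right (Finset.sum_le_sum fun x _ => h x) (by positivity)

theorem av_nonneg {f : Cube n → ℝ} (h : ∀ x, 0 ≤ f x) : 0 ≤ av f := by
  unfold av
  exact div_nonneg (Finset.sum_nonneg fun x _ => h x) (by positivity)

theorem av_pos {f : Cube n → ℝ} (h : ∀ x, 0 < f x) : 0 < av f := by
  unfold av
  exact div_pos (Finset.sum_pos (fun x _ => h x) ⟨fun _ => true, Finset.mem_univ _⟩)
    (by positivity)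

/-! ### The kernel -/

/-- one factor of the kernel -/
noncomputable def kf (r : ℝ) (a b : Bool) : ℝ := if a = b then (1 + r) / 2 else (1 - r) / 2

theorem ker_eq (r : ℝ) (x y : Cube n) : ker r x y = ∏ i, kf r (x i) (y i) := rfl

theorem kf_pos {r : ℝ} (h0 : -1 < r) (h1 : r < 1) (a b : Bool) : 0 < kf r a b := by
  unfold kf
  split_ifs <;> linarith

theorem kf_nonneg {r : ℝ} (h0 : -1 ≤ r) (h1 : r ≤ 1) (a b : Bool) : 0 ≤ kf r a b := by
  unfold kf
  split_ifs <;> linarith

theorem ker_comm (r : ℝ) (x y : Cube n) : ker r x y = ker r y x := by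
  rw [ker_eq, ker_eq]
  refine Finset.prod_congr rfl fun i _ => ?_
  unfold kf
  simp only [eq_comm]

theorem sum_ker (r : ℝ) (y : Cube n) : ∑ x, ker r x y = 1 := by
  simp only [ker_eq]
  rw [← Fintype.prod_sum (fun i a => kf r a (y i))]
  refine Finset.prod_eq_one fun i _ => ?_
  rw [Fintype.sum_bool]
  unfold kf
  cases y i <;> simp <;> ring

theorem sum_ker' (r : ℝ) (x : Cube n) : ∑ y, ker r x y = 1 := by
  simp only [ker_comm r x]
  exact sum_ker r x

theorem av_TT (r : ℝ) (f : Cube n → ℝ) : av (TT r f) = av f := by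
  unfold av TT
  rw [Finset.sum_comm]
  congr 1
  refine Finset.sum_congr rfl fun x _ => ?_
  rw [← Finset.sum_mul, sum_ker', one_mul]

/-- derivative of the kernel -/
noncomputable def dker (r : ℝ) (x y : Cube n) : ℝ :=
  ∑ i, (∏ j ∈ univ.erase i, kf r (x j) (y j)) * (if x i = y i then 1 / 2 else -(1 / 2))

theorem hasDerivAt_kf (r : ℝ) (a b : Bool) :
    HasDerivAt (fun r => kf r a b) (if a = b then 1 / 2 else -(1 / 2)) r := by
  unfold kf
  split_ifs
  · exact ((hasDerivAt_id r).const_add 1).div_const 2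
  · have := ((hasDerivAt_id r).const_sub 1).div_const 2
    convert! this using 1
    ring

theorem hasDerivAt_ker (r : ℝ) (x y : Cube n) :
    HasDerivAt (fun r => ker r x y) (dker r x y) r := by
  have h := HasDerivAt.fun_finsetProd (u := (univ : Finset (Fin n)))
    (f := fun i r => kf r (x i) (y i)) (f' := fun i => if x i = y i then (1 : ℝ) / 2 else -(1 / 2))
    (x := r) (fun i _ => hasDerivAt_kf r (x i) (y i))
  simp only [smul_eq_mul] at h
  exact h

theorem mul_dker (r : ℝ) (x y : Cube n) :
    r * dker r x y = ∑ i, (ker r x y - ker r x (flip i y)) / 2 := by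
  unfold dker
  rw [Finset.mul_sum]
  refine Finset.sum_congr rfl fun i _ => ?_
  have h1 : ker r x y = (∏ j ∈ univ.erase i, kf r (x j) (y j)) * kf r (x i) (y i) := by
    rw [ker_eq, Finset.prod_erase_mul _ _ (Finset.mem_univ i)]
  have h2 : ker r x (flip i y) = (∏ j ∈ univ.erase i, kf r (x j) (y j)) * kf r (x i) (!(y i)) := by
    rw [ker_eq, ← Finset.prod_erase_mul _ _ (Finset.mem_univ i), flip_apply_self]
    congr 1
    refine Finset.prod_congr rfl fun j hj => ?_
    rw [flip_apply_ne (Finset.ne_of_mem_erase hj)]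
  rw [h1, h2, ← mul_sub]
  have h3 : kf r (x i) (y i) - kf r (x i) (!(y i)) = r * (if x i = y i then 1 else -1) := by
    unfold kf
    cases x i <;> cases y i <;> simp <;> ring
  rw [h3]
  split_ifs <;> ring

theorem hasDerivAt_TT (r : ℝ) (f : Cube n → ℝ) (y : Cube n) :
    HasDerivAt (fun r => TT r f y) (∑ x, dker r x y * f x) r := by
  unfold TT
  exact HasDerivAt.fun_sum fun x _ => (hasDerivAt_ker r x y).mul_const (f x)

theorem mul_dTT (r : ℝ) (f : Cube n → ℝ) (y : Cube n) :
    r * ∑ x, dker r x y * f x = ∑ i, (TT r f y - TT r f (flip i y)) / 2 := by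
  unfold TT
  rw [Finset.mul_sum]
  simp only [← mul_assoc, mul_dker]
  simp only [Finset.sum_mul]
  rw [Finset.sum_comm]
  refine Finset.sum_congr rfl fun i _ => ?_
  rw [← Finset.sum_sub_distrib, Finset.sum_div]
  refine Finset.sum_congr rfl fun x _ => ?_
  ring

end Vale.Agent.CK
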