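import Vale.Agent.CK.J1

/-!
# P322: Taylor bounds and numerical values for the part `G1`
-/

namespace Vale.Agent.CK

open Finset Real Set

/-- partial sums of `Phi` -/
theorem g1_Phi_partial {t : ℝ} (h0 : 0 ≤ t) (h1 : t < 1) (N : ℕ) :
    ∑ k ∈ Finset.range N, Pc k * t ^ (2 * k + 2) ≤ Phi t := by
  have ht : |t| < 1 := by rwa [abs_of_nonneg h0]
  refine sum_le_hasSum _ (fun k _ => ?_) (hasSum_Phi ht)
  have := Pc_pos k
  positivity

/-- partial sums of `L` -/
theorem g1_LL_partial {t : ℝ} (h0 : 0 ≤ t) (h1 : t < 1) (N : ℕ) :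
    ∑ k ∈ Finset.range N, (2 : ℝ) * (1 / (2 * k + 1)) * t ^ (2 * k + 1) ≤ LL t := by
  have ht : |t| < 1 := by rwa [abs_of_nonneg h0]
  refine sum_le_hasSum _ (fun k _ => ?_) (Real.hasSum_log_sub_log_of_abs_lt_one ht)
  positivity

theorem g1_T2 {t u : ℝ} (h0 : 0 < t) (h1 : t < 1) (hu : u = t ^ 2) :
    t ^ 2 * (1 / 2 + u * (1 / 12 + u * (1 / 30 + u * (1 / 56)))) ≤ Phi t := by
  refine le_trans (le_of_eq ?_) (g1_Phi_partial h0.le h1 4)
  simp only [Finset.sum_range_succ, Finset.sum_range_zero, Pc]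
  rw [hu]
  norm_num
  ring

theorem g1_T3 {t u : ℝ} (h0 : 0 < t) (h1 : t < 1) (hu : u = t ^ 2) :
    t * (2 + u * (2 / 3 + u * (2 / 5 + u * (2 / 7)))) ≤ LL t := by
  refine le_trans (le_of_eq ?_) (g1_LL_partial h0.le h1 4)
  simp only [Finset.sum_range_succ, Finset.sum_range_zero]
  rw [hu]
  norm_num
  ring

theorem g1_T1 {t u : ℝ} (h0 : 0 < t) (h1 : t < 1) (hu : u = t ^ 2) :
    Phi t ≤ t ^ 2 * (1 / 2 + u * (1 / 12 + u * (1 / 30 + u * (1 / 56 +
      u * (1 / (90 * (1 - u))))))) := by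
  have ht : |t| < 1 := by rwa [abs_of_nonneg h0.le]
  have hu0 : 0 ≤ u := by rw [hu]; positivity
  have hu1 : u < 1 := by rw [hu]; nlinarith
  have hg := ((hasSum_geometric_of_lt_one hu0 hu1).mul_left (t ^ 2 * u ^ 4 * (1 / 90)))
  have hP := hasSum_Phi ht
  rw [← hasSum_nat_add_iff' 4] at hP
  have h := hasSum_le (fun k => ?_) hP hg
  · simp only [Finset.sum_range_succ, Finset.sum_range_zero, Pc] at h
    have e : (1 : ℝ) / (90 * (1 - u)) = 1 / 90 * (1 - u)⁻¹ := by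
      rw [one_div, mul_inv, one_div]
    rw [e]
    have e2 : t ^ 2 * (1 / 2 + u * (1 / 12 + u * (1 / 30 + u * (1 / 56 +
        u * (1 / 90 * (1 - u)⁻¹))))) = t ^ 2 * (1 / 2) + t ^ 4 * (1 / 12) + t ^ 6 * (1 / 30) +
          t ^ 8 * (1 / 56) + t ^ 2 * u ^ 4 * (1 / 90) * (1 - u)⁻¹ := by
      rw [hu]
      ring
    rw [e2]
    norm_num at h
    linarith
  · have e1 : t ^ (2 * (k + 4) + 2) = t ^ 2 * u ^ 4 * u ^ k := by
      rw [hu, ← pow_mul, ← pow_mul, ← pow_add, ← pow_add]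
      congr 1
      ring
    rw [e1]
    have e2 : Pc (k + 4) ≤ 1 / 90 := by
      unfold Pc
      have hk : (0 : ℝ) ≤ k := Nat.cast_nonneg k
      push_cast
      apply one_div_le_one_div_of_le (by norm_num)
      nlinarith
    have e3 : 0 ≤ t ^ 2 * u ^ 4 * u ^ k := by positivity
    calc Pc (k + 4) * (t ^ 2 * u ^ 4 * u ^ k) ≤ 1 / 90 * (t ^ 2 * u ^ 4 * u ^ k) :=
          mul_le_mul_of_nonneg_right e2 e3
      _ = t ^ 2 * u ^ 4 * (1 / 90) * u ^ k := by ring

theorem g1_T4 {s q : ℝ} (h0 : 0 < s) (h1 : s < 1) (hq : q = 1 - s) :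
    s * (-log s) ≤ q * (1 - q * (1 / 2 + q * (1 / 6 + q * (1 / 12 + q * (1 / 20))))) := by
  have hder : ∀ x ∈ Ico (0 : ℝ) 1, HasDerivAt
      (fun q => q * (1 - q * (1 / 2 + q * (1 / 6 + q * (1 / 12 + q * (1 / 20))))) +
        (1 - q) * log (1 - q))
      (-log (1 - x) - (x + x ^ 2 / 2 + x ^ 3 / 3 + x ^ 4 / 4)) x := by
    intro x hx
    have h2 : (1 : ℝ) - x ≠ 0 := by linarith [hx.2]
    have h3 : HasDerivAt (fun q : ℝ => 1 - q) (-1) x := by
      simpa using (hasDerivAt_id x).const_sub 1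
    have h4 := h3.mul (h3.log h2)
    have h5 : HasDerivAt
        (fun q : ℝ => q * (1 - q * (1 / 2 + q * (1 / 6 + q * (1 / 12 + q * (1 / 20))))))
        (1 - x - x ^ 2 / 2 - x ^ 3 / 3 - x ^ 4 / 4) x := by
      have e : (fun q : ℝ => q * (1 - q * (1 / 2 + q * (1 / 6 + q * (1 / 12 + q * (1 / 20)))))) =
          fun q => q - 1 / 2 * q ^ 2 - 1 / 6 * q ^ 3 - 1 / 12 * q ^ 4 - 1 / 20 * q ^ 5 := by
        funext q
        ring
      rw [e]
      have := ((((hasDerivAt_id x).sub ((hasDerivAt_pow 2 x).const_mul (1 / 2))).sub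
        ((hasDerivAt_pow 3 x).const_mul (1 / 6))).sub
        ((hasDerivAt_pow 4 x).const_mul (1 / 12))).sub ((hasDerivAt_pow 5 x).const_mul (1 / 20))
      convert! this using 1
      norm_num
      ring
    convert! h5.add h4 using 1
    field_simp
    ring
  have hnn : ∀ x ∈ Ico (0 : ℝ) 1, 0 ≤ -log (1 - x) - (x + x ^ 2 / 2 + x ^ 3 / 3 + x ^ 4 / 4) := by
    intro x hx
    have hx' : |x| < 1 := by rw [abs_of_nonneg hx.1]; exact hx.2
    have h2 := sum_le_hasSum (Finset.range 4) (fun k _ => by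
      have := hx.1
      positivity) (Real.hasSum_pow_div_log_of_abs_lt_one hx')
    simp only [Finset.sum_range_succ, Finset.sum_range_zero] at h2
    norm_num at h2
    linarith
  have hmono : MonotoneOn (fun q : ℝ =>
      q * (1 - q * (1 / 2 + q * (1 / 6 + q * (1 / 12 + q * (1 / 20))))) +
        (1 - q) * log (1 - q)) (Ico 0 1) := by
    refine monotoneOn_of_deriv_nonneg (convex_Ico 0 1) ?_ ?_ ?_
    · intro x hx
      exact (hder x hx).continuousAt.continuousWithinAt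
    · intro x hx
      rw [interior_Ico] at hx
      exact (hder x ⟨hx.1.le, hx.2⟩).differentiableAt.differentiableWithinAt
    · intro x hx
      rw [interior_Ico] at hx
      rw [(hder x ⟨hx.1.le, hx.2⟩).deriv]
      exact hnn x ⟨hx.1.le, hx.2⟩
  have hq0 : 0 ≤ q := by rw [hq]; linarith
  have hq1 : q < 1 := by rw [hq]; linarith
  have h2 := hmono ⟨le_rfl, zero_lt_one⟩ ⟨hq0, hq1⟩ hq0
  simp only [zero_mul, sub_zero, log_one, mul_zero, add_zero] at h2
  have e : 1 - q = s := by rw [hq]; ring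
  rw [e] at h2
  linarith

/-! ### numerical values -/

theorem g1_log2 : log 2 ≤ 0.69315 := by
  have := Real.log_two_lt_d9
  norm_num at this ⊢
  linarith

theorem g1_Phi62_lo : (0.2069 : ℝ) ≤ Phi (31 / 50) := by
  refine le_trans ?_ (g1_Phi_partial (by norm_num) (by norm_num) 7)
  simp only [Finset.sum_range_succ, Finset.sum_range_zero, Pc]
  norm_num

theorem g1_Phi62_hi : Phi (31 / 50) ≤ (0.207 : ℝ) := by
  refine le_trans (g1_T1 (by norm_num) (by norm_num) rfl) ?_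
  norm_num

theorem g1_log7 : (1.94589 : ℝ) ≤ log 7 := by
  have h1 : (306 : ℝ) * log 2 ≤ 109 * log 7 := by
    have h2 : log ((2 : ℝ) ^ 306) ≤ log ((7 : ℝ) ^ 109) := by
      apply log_le_log (by positivity)
      have h3 : (2 : ℕ) ^ 153 * 2 ^ 153 ≤ 7 ^ 109 := by norm_num
      have h4 : ((2 : ℕ) : ℝ) ^ 153 * 2 ^ 153 ≤ 7 ^ 109 := by exact_mod_cast h3
      calc (2 : ℝ) ^ 306 = 2 ^ 153 * 2 ^ 153 := by rw [← pow_add]
        _ ≤ 7 ^ 109 := by exact_mod_cast h4
    rw [log_pow, log_pow] at h2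
    exact_mod_cast h2
  have := Real.log_two_gt_d9
  norm_num at this ⊢
  linarith

theorem g1_lam34 : lam (3 / 4) ≤ (11.048 : ℝ) := by
  rw [lam_34]
  have h := g1_log7
  have h0 : 0 < 7 * log 7 := by positivity
  have : 96 / (7 * log 7) ≤ (7.048 : ℝ) := by
    rw [div_le_iff₀ h0]
    norm_num at h ⊢
    linarith
  norm_num at this ⊢
  linarith

theorem g1_Phi12 : Phi (1 / 2) ≤ (0.13085 : ℝ) := by
  refine le_trans (g1_T1 (by norm_num) (by norm_num) rfl) ?_
  norm_num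

theorem g1_Phi910 : (0.4946 : ℝ) ≤ Phi (9 / 10) := by
  refine le_trans ?_ (g1_Phi_partial (by norm_num) (by norm_num) 24)
  simp only [Finset.sum_range_succ, Finset.sum_range_zero, Pc]
  norm_num

theorem g1_eta910 : log 2 - Phi (9 / 10) < (0.2069 : ℝ) := by
  have h1 := g1_Phi910
  have h2 := g1_log2
  norm_num at h1 h2 ⊢
  linarith

theorem g1_LL3132 : (4.143 : ℝ) ≤ LL (31 / 32) := by
  have e : LL (31 / 32) = log 63 := by
    unfold LL
    rw [← log_div (by norm_num) (by norm_num)]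
    norm_num
  have h1 : log 63 = 6 * log 2 - log (64 / 63) := by
    rw [log_div (by norm_num) (by norm_num), show (64 : ℝ) = 2 ^ 6 by norm_num, log_pow]
    norm_num
  have h2 := log_le_sub_one_of_pos (by norm_num : (0 : ℝ) < 64 / 63)
  have h3 := Real.log_two_gt_d9
  rw [e, h1]
  norm_num at h2 h3 ⊢
  linarith

theorem g1_Phi255 : (0.679 : ℝ) ≤ Phi (255 / 256) := by
  rw [Tan.Phi_eq (by norm_num) (by norm_num)]
  have e1 : (1 : ℝ) + 255 / 256 = 511 / 256 := by norm_num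
  have e2 : (1 : ℝ) - 255 / 256 = 1 / 256 := by norm_num
  have e3 : log (511 / 256) = log 2 - log (512 / 511) := by
    rw [← log_div (by norm_num) (by norm_num)]
    norm_num
  have e4 : log (1 / 256) = -(8 * log 2) := by
    rw [log_div (by norm_num) (by norm_num), log_one, show (256 : ℝ) = 2 ^ 8 by norm_num, log_pow]
    norm_num
  have h2 := log_le_sub_one_of_pos (by norm_num : (0 : ℝ) < 512 / 511)
  have h3 := Real.log_two_gt_d9
  rw [e1, e2, e3, e4]
  norm_num at h2 h3 ⊢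
  linarith

/-- bound for `J` -/
theorem g1_T6 {x d : ℝ} (h0 : 0 ≤ x) (hd : 0 < d) (hd2 : d ≤ 1 / 2) (h1 : x + d < 1) :
    (Phi (x + d) + Phi (x - d)) / 2 - Phi x ≤ 0.2175 := by
  have h2 : 0 < 1 - x := by linarith
  have h3 : 0 < 1 + x := by linarith
  have hX : d / (1 - x) < 1 := by rw [div_lt_one h2]; linarith
  have hX0 : 0 < d / (1 - x) := by positivity
  have hY0 : 0 < d / (1 + x) := by positivity
  have hY : d / (1 + x) ≤ 1 / 2 := by
    rw [div_le_iff₀ h3]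
    linarith
  have hJ := J_coord h0 hd h1
  have e0 : (Phi (x + d) + Phi (x - d)) / 2 - Phi x =
      (1 - x) / 2 * Phi (d / (1 - x)) + (1 + x) / 2 * Phi (d / (1 + x)) := by
    rw [hJ]
    unfold hb
    ring
  have a1 := Phi_le_sq hX0.le hX
  have a2 := Phi_sq_mono hY0.le hY (by norm_num)
  have hP := g1_Phi12
  have hl := g1_log2
  norm_num at hP hl
  have a3 : Phi (d / (1 + x)) ≤ (d / (1 + x)) ^ 2 * (4 * (2617 / 20000)) := by
    have : (d / (1 + x)) ^ 2 * Phi (1 / 2) ≤ (d / (1 + x)) ^ 2 * (2617 / 20000) :=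
      mul_le_mul_of_nonneg_left hP (sq_nonneg _)
    linarith
  have a4 : Phi (d / (1 - x)) ≤ (d / (1 - x)) ^ 2 * (13863 / 20000) :=
    a1.trans (mul_le_mul_of_nonneg_left hl (sq_nonneg _))
  have b1 : (1 - x) / 2 * Phi (d / (1 - x)) ≤ d ^ 2 * (13863 / 40000 / (1 - x)) := by
    refine (mul_le_mul_of_nonneg_left a4 (by linarith)).trans (le_of_eq ?_)
    field_simp
    ring
  have b2 : (1 + x) / 2 * Phi (d / (1 + x)) ≤ d ^ 2 * (2617 / 10000 / (1 + x)) := by
    refine (mul_le_mul_of_nonneg_left a3 (by linarith)).trans (le_of_eq ?_)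
    field_simp
    ring
  rw [e0]
  refine (add_le_add b1 b2).trans ?_
  rw [← mul_add]
  rcases le_or_gt x (1 / 2) with h | h
  · have c1 : 13863 / 40000 / (1 - x) + 2617 / 10000 / (1 + x) ≤ 87 / 100 := by
      rw [div_add_div _ _ h2.ne' h3.ne', div_le_iff₀ (mul_pos h2 h3)]
      nlinarith [mul_nonneg h0 (by linarith : 0 ≤ 1 / 2 - x)]
    have c2 : d ^ 2 ≤ 1 / 4 := by nlinarith
    have c3 : 0 ≤ 13863 / 40000 / (1 - x) + 2617 / 10000 / (1 + x) := by positivity
    calc d ^ 2 * (13863 / 40000 / (1 - x) + 2617 / 10000 / (1 + x)) ≤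
        1 / 4 * (87 / 100) := mul_le_mul c2 c1 c3 (by norm_num)
      _ = 0.2175 := by norm_num
  · have c2 : d ^ 2 ≤ (1 - x) ^ 2 := by
      apply pow_le_pow_left₀ hd.le
      linarith
    have c3 : 0 ≤ 13863 / 40000 / (1 - x) + 2617 / 10000 / (1 + x) := by positivity
    refine (mul_le_mul_of_nonneg_right c2 c3).trans ?_
    have c4 : (1 - x) ^ 2 * (13863 / 40000 / (1 - x) + 2617 / 10000 / (1 + x)) =
        (1 - x) * (13863 / 40000) + (1 - x) ^ 2 * (2617 / 10000) / (1 + x) := by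
      field_simp
    rw [c4]
    have c5 : (1 - x) ^ 2 * (2617 / 10000) / (1 + x) ≤ 442 / 10000 := by
      rw [div_le_iff₀ h3]
      nlinarith [mul_nonneg (by linarith : 0 ≤ 1 - x) (by linarith : 0 ≤ x - 1 / 2)]
    norm_num at c5 ⊢
    linarith

end Vale.Agent.CK
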