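import Vale.Agent.CK.Base

/-!
# P322: the junction of the two branches
-/

namespace Vale.Agent.CK

open Finset Real Set

theorem LL_34 : LL (3 / 4) = log 7 := by
  unfold LL
  have e1 : (1 : ℝ) + 3 / 4 = 7 / 4 := by norm_num
  have e2 : (1 : ℝ) - 3 / 4 = 1 / 4 := by norm_num
  rw [e1, e2, ← log_div (by norm_num) (by norm_num)]
  norm_num

theorem wf_34 : wf (3 / 4) = 3 / 2 * log 7 := by
  unfold wf
  rw [LL_34]
  ring

theorem lam_34 : lam (3 / 4) = 4 + 96 / (7 * log 7) := by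
  unfold lam
  rw [LL_34]
  have : 0 < log 7 := log_pos (by norm_num)
  field_simp
  ring

theorem Phi_34 : Phi (3 / 4) = 7 / 8 * log 7 - 2 * log 2 := by
  rw [Tan.Phi_eq (by norm_num) (by norm_num)]
  have e1 : (1 : ℝ) + 3 / 4 = 7 / 4 := by norm_num
  have e2 : (1 : ℝ) - 3 / 4 = 1 / 4 := by norm_num
  have e3 : log 4 = 2 * log 2 := by
    rw [show (4 : ℝ) = 2 ^ 2 by norm_num, log_pow]
    norm_num
  rw [e1, e2, log_div (by norm_num) (by norm_num), log_div (by norm_num) (by norm_num), log_one, e3]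
  ring

theorem log_seven_le : log 7 ≤ 3 * log 2 - 1 / 8 := by
  have h1 : log 7 = 3 * log 2 + log (7 / 8) := by
    rw [log_div (by norm_num) (by norm_num), show (8 : ℝ) = 2 ^ 3 by norm_num, log_pow]
    norm_num
  have h2 := log_le_sub_one_of_pos (by norm_num : (0 : ℝ) < 7 / 8)
  linarith

theorem log_seven_ge : 3 * log 2 - 1 / 7 ≤ log 7 := by
  have h1 : log 7 = 3 * log 2 - log (8 / 7) := by
    rw [log_div (by norm_num) (by norm_num), show (8 : ℝ) = 2 ^ 3 by norm_num, log_pow]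
    norm_num
  have h2 := log_le_sub_one_of_pos (by norm_num : (0 : ℝ) < 8 / 7)
  linarith

theorem eight_Phi_le_wf {s : ℝ} (h0 : 0 ≤ s) (h1 : s < 1) : 8 * Phi s ≤ wf s := by
  have hs : |s| < 1 := by rwa [abs_of_nonneg h0]
  refine hasSum_le (fun k => ?_) ((hasSum_Phi hs).mul_left 8) (hasSum_wf hs)
  have h2 : 0 ≤ 8 * (k : ℝ) * (Pc k * s ^ (2 * k + 2)) := by
    have := Pc_pos k
    positivity
  calc 8 * (Pc k * s ^ (2 * k + 2)) ≤
      8 * (Pc k * s ^ (2 * k + 2)) + 8 * (k : ℝ) * (Pc k * s ^ (2 * k + 2)) := by linarith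
    _ = 8 * ((k : ℝ) + 1) * Pc k * s ^ (2 * k + 2) := by ring

theorem eight_le_lam {t : ℝ} (ht0 : 0 < t) (ht1 : t < 1) : 8 ≤ lam t := by
  have h1 := wf_ge_tangent ht0 ht1 le_rfl zero_lt_one
  rw [Phi_zero, wf_zero] at h1
  have h2 := eight_Phi_le_wf ht0.le ht1
  have h3 := (Phi_mem ht0 ht1).1
  have h4 : Phi t * 8 ≤ Phi t * lam t := by linarith
  exact le_of_mul_le_mul_left h4 h3

/-- `8 y ≤ Psi(y)` -/
theorem eight_le_PsiT {t : ℝ} (ht0 : 0 < t) (ht1 : t < 1) (y : ℝ) : 8 * y ≤ PsiT t y := by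
  rcases le_or_gt y 0 with h | h
  · linarith [PsiT_nonneg ht0 ht1 y]
  · rcases le_or_gt y (Phi t) with h2 | h2
    · rw [PsiT_of_le h2]
      have h3 : y < log 2 := h2.trans_lt (Phi_lt_log_two ht0 ht1)
      have hK := Kinv_mem h h3
      have h4 := eight_Phi_le_wf hK.1.le hK.2
      rw [Phi_Kinv h h3] at h4
      rw [Psi, if_pos h]
      exact h4
    · rw [PsiT_of_ge ht0 ht1 h2.le]
      have h3 := eight_Phi_le_wf ht0.le ht1
      have h4 := eight_le_lam ht0 ht1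
      nlinarith

/-- `Phi x / x²` is nondecreasing -/
theorem Phi_sq_mono {x y : ℝ} (h0 : 0 ≤ x) (hxy : x ≤ y) (hy1 : y < 1) :
    Phi x * y ^ 2 ≤ x ^ 2 * Phi y := by
  have hx : |x| < 1 := by rw [abs_of_nonneg h0]; linarith
  have hy : |y| < 1 := by rwa [abs_of_nonneg (by linarith)]
  have s1 := (hasSum_Phi hx).mul_right (y ^ 2)
  have s2 := (hasSum_Phi hy).mul_left (x ^ 2)
  refine hasSum_le (fun k => ?_) s1 s2
  have h2 : x ^ (2 * k) ≤ y ^ (2 * k) := pow_le_pow_left₀ h0 hxy _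
  have h3 : 0 ≤ Pc k * (x ^ 2 * y ^ 2) := by
    have := Pc_pos k
    positivity
  calc Pc k * x ^ (2 * k + 2) * y ^ 2 = Pc k * (x ^ 2 * y ^ 2) * x ^ (2 * k) := by ring
    _ ≤ Pc k * (x ^ 2 * y ^ 2) * y ^ (2 * k) := mul_le_mul_of_nonneg_left h2 h3
    _ = x ^ 2 * (Pc k * y ^ (2 * k + 2)) := by ring

/-- for `x ≤ 3/4`: `λ Phi(x) ≤ κ x²` -/
theorem junc_small {x : ℝ} (h0 : 0 ≤ x) (h1 : x ≤ 3 / 4) :
    lam (3 / 4) * Phi x ≤
      (wf (3 / 4) + lam (3 / 4) * (log 2 - Phi (3 / 4))) * x ^ 2 := by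
  have h2 := Phi_sq_mono h0 h1 (by norm_num)
  have hl := lam_pos (r := 3 / 4) (by norm_num) (by norm_num)
  have a1 := log_seven_le
  have a2 := log_seven_ge
  have b1 := Real.log_two_gt_d9
  have b2 := Real.log_two_lt_d9
  have h3 : Phi x ≤ x ^ 2 * (16 / 9 * Phi (3 / 4)) := by linarith
  have h4 : lam (3 / 4) * Phi x ≤ lam (3 / 4) * (x ^ 2 * (16 / 9 * Phi (3 / 4))) :=
    mul_le_mul_of_nonneg_left h3 (by linarith)
  refine h4.trans ?_
  have h5 : lam (3 / 4) * (16 / 9 * Phi (3 / 4)) ≤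
      wf (3 / 4) + lam (3 / 4) * (log 2 - Phi (3 / 4)) := by
    have hlam : lam (3 / 4) ≤ 112 / 10 := by
      rw [lam_34]
      have hL : 0 < log 7 := log_pos (by norm_num)
      have : 96 / (7 * log 7) ≤ 72 / 10 := by
        rw [div_le_iff₀ (by positivity)]
        linarith
      linarith
    rw [wf_34, Phi_34]
    have h6 : 16 / 9 * (7 / 8 * log 7 - 2 * log 2) - (log 2 - (7 / 8 * log 7 - 2 * log 2)) ≤
        21 / 100 := by linarith
    have h7 : lam (3 / 4) * (16 / 9 * (7 / 8 * log 7 - 2 * log 2) -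
        (log 2 - (7 / 8 * log 7 - 2 * log 2))) ≤ lam (3 / 4) * (21 / 100) :=
      mul_le_mul_of_nonneg_left h6 (by linarith)
    linarith
  have h6 := mul_le_mul_of_nonneg_right h5 (sq_nonneg x)
  linarith

/-- for `x ≥ 3/4`: `8 h ≥ m (w + 8 η)` -/
theorem junc_large {x : ℝ} (h0 : 3 / 4 ≤ x) (h1 : x < 1) :
    (1 - x ^ 2) * (wf (3 / 4) + 8 * (log 2 - Phi (3 / 4))) ≤ 8 * (log 2 - Phi x) := by
  obtain ⟨a, ha⟩ : ∃ a, a = (1 - x) / 2 := ⟨_, rfl⟩
  have ha0 : 0 < a := by rw [ha]; linarith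
  have ha1 : a ≤ 1 / 8 := by rw [ha]; linarith
  have e1 : log 2 - Phi x = a * (-log a) + (1 - a) * (-log (1 - a)) := by
    have : log 2 - Phi x = binEntropy a := by
      rw [ha, ← binEntropy_half, ← binEntropy_one_sub]
      congr 1
      ring
    rw [this, binEntropy_eq_negMulLog_add_negMulLog_one_sub]
    unfold negMulLog
    ring
  have e2 : 1 - x ^ 2 = 4 * a * (1 - a) := by rw [ha]; ring
  have a1 := log_seven_le
  have a2 := log_seven_ge
  have b1 := Real.log_two_gt_d9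
  have b2 := Real.log_two_lt_d9
  have h2 : 3 * log 2 + 1 - 8 * a ≤ -log a := by
    have h3 := log_le_sub_one_of_pos (by positivity : 0 < 8 * a)
    rw [log_mul (by norm_num) ha0.ne', show (8 : ℝ) = 2 ^ 3 by norm_num, log_pow] at h3
    norm_num at h3
    linarith
  have h3 : a ≤ -log (1 - a) := by
    have := log_le_sub_one_of_pos (by linarith : 0 < 1 - a)
    linarith
  have h4 : a * (3 * log 2 + 1 - 8 * a) + (1 - a) * a ≤ log 2 - Phi x := by
    rw [e1]
    exact add_le_add (mul_le_mul_of_nonneg_left h2 ha0.le)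
      (mul_le_mul_of_nonneg_left h3 (by linarith))
  rw [e2, wf_34, Phi_34]
  have h5 : 3 / 2 * log 7 + 8 * (log 2 - (7 / 8 * log 7 - 2 * log 2)) ≤ 5985 / 1000 := by linarith
  have h6 : 4 * a * (1 - a) * (3 / 2 * log 7 + 8 * (log 2 - (7 / 8 * log 7 - 2 * log 2))) ≤
      4 * a * (1 - a) * (5985 / 1000) :=
    mul_le_mul_of_nonneg_left h5 (by
      have : 0 < 1 - a := by linarith
      positivity)
  refine h6.trans (le_trans ?_ (mul_le_mul_of_nonneg_left h4 (by norm_num)))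
  have h7 : 0 ≤ a * (3 * log 2 + 1 - 8 * a + (1 - a) - (1 - a) * (5985 / 2000)) := by
    apply mul_nonneg ha0.le
    linarith
  linarith

/-- **Junction.** -/
theorem J1 {x H : ℝ} (h0 : 0 ≤ x) (h1 : x < 1) (h : (1 - x ^ 2) * (log 2 - Phi (3 / 4)) ≤ H) :
    (1 - x ^ 2) * RT (3 / 4) (H / (1 - x ^ 2)) ≤ PsiT (3 / 4) (log 2 - Phi x - H) := by
  have hm : 0 < 1 - x ^ 2 := by nlinarith
  have h2 : log 2 - Phi (3 / 4) ≤ H / (1 - x ^ 2) := by
    rw [le_div_iff₀ hm]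
    linarith
  rw [RT_of_ge (by norm_num) (by norm_num) h2]
  have e : (1 - x ^ 2) * (wf (3 / 4) + lam (3 / 4) * (log 2 - H / (1 - x ^ 2) - Phi (3 / 4))) =
      (wf (3 / 4) + lam (3 / 4) * (log 2 - Phi (3 / 4))) * (1 - x ^ 2) - lam (3 / 4) * H := by
    field_simp
    ring
  rw [e]
  rcases le_or_gt x (3 / 4) with h3 | h3
  · refine le_trans ?_ (PsiT_ge_tangent (q := 3 / 4) (by norm_num) le_rfl (by norm_num) _)
    have := junc_small h0 h3
    linarith
  · refine le_trans ?_ (eight_le_PsiT (by norm_num) (by norm_num) _)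
    have h4 := junc_large h3.le h1
    have h5 := eight_le_lam (t := 3 / 4) (by norm_num) (by norm_num)
    have h6 : (lam (3 / 4) - 8) * ((1 - x ^ 2) * (log 2 - Phi (3 / 4))) ≤ (lam (3 / 4) - 8) * H :=
      mul_le_mul_of_nonneg_left h (by linarith)
    linarith

end Vale.Agent.CK
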