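import Vale.Agent.CK.G1Val
import Vale.Agent.CK.J1
import Vale.Agent.CK.Final
import Vale.Agent.CK.G1Tay

/-!
# P322, part G1
-/

namespace Vale.Agent.CK.G1

open IA Real Set

theorem Phi_nonneg' {t : ℝ} (h0 : 0 ≤ t) (h1 : t < 1) : 0 ≤ Phi t := by
  rcases eq_or_lt_of_le h0 with h | h
  · rw [← h, Phi_zero]
  · exact (Phi_mem h h1).1.le

/-- `J ≥ 0` -/
theorem J_nonneg {x d : ℝ} (h0 : 0 ≤ x) (hd : 0 < d) (h1 : x + d < 1) :
    0 ≤ log 2 - Phi x - hb x d := by
  rw [← J_coord h0 hd h1]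
  have h2 : 0 < 1 - x := by linarith
  have h3 : 0 < 1 + x := by linarith
  have hX : d / (1 - x) < 1 := by rw [div_lt_one h2]; linarith
  have hY : d / (1 + x) < 1 := by rw [div_lt_one h3]; linarith
  have a1 := Phi_nonneg' (by positivity : 0 ≤ d / (1 - x)) hX
  have a2 := Phi_nonneg' (by positivity : 0 ≤ d / (1 + x)) hY
  positivity

/-- Jensen: `Psi J ≤ W` -/
theorem Psi_J_le {x d : ℝ} (h0 : 0 ≤ x) (hd : 0 < d) (h1 : x + d < 1) :
    Psi (log 2 - Phi x - hb x d) ≤ d * (LL (x + d) - LL (x - d)) := by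
  rw [← J_coord h0 hd h1, W_coord h0 hd h1]
  have h2 : 0 < 1 - x := by linarith
  have h3 : 0 < 1 + x := by linarith
  have hX : d / (1 - x) < 1 := by rw [div_lt_one h2]; linarith
  have hY : d / (1 + x) < 1 := by rw [div_lt_one h3]; linarith
  have hX0 : 0 < d / (1 - x) := by positivity
  have hY0 : 0 < d / (1 + x) := by positivity
  have m1 : Phi (d / (1 - x)) ∈ Iio (log 2) := (Phi_mem hX0 hX).2
  have m2 : Phi (d / (1 + x)) ∈ Iio (log 2) := (Phi_mem hY0 hY).2
  have := Psi_convexOn.2 m1 m2 (by linarith : 0 ≤ (1 - x) / 2) (by linarith : 0 ≤ (1 + x) / 2)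
    (by ring)
  simp only [smul_eq_mul, Psi_Phi hX0.le hX, Psi_Phi hY0.le hY] at this
  exact this

/-- reduction of `G1` to two inequalities in `(x, d)` -/
theorem g1_of
    (hT : ∀ x d : ℝ, 0 ≤ x → 0 < d → d ≤ 1 / 2 → x + d < 1 →
      log 2 - Phi x - hb x d ≤ 2175 / 10000)
    (hA : ∀ x d : ℝ, 0 ≤ x → 0 < d → d ≤ 1 / 2 → x + d < 1 →
      Psi (Phi (31 / 50) + (log 2 - Phi x - hb x d)) - Psi (Phi (31 / 50)) ≤
        d * (LL (x + d) - LL (x - d)) + muu x d * Phi (31 / 50))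
    (hB : ∀ x d : ℝ, 0 ≤ x → 0 < d → d ≤ 1 / 2 → x + d < 1 → Phi (31 / 50) < hb x d →
      ∃ s, 0 < s ∧ s < 1 ∧ lam (3 / 4) * (log 2 - Phi x - hb x d) ≤
        2 * d * LL s + nuu s * (d * (log 2 - Phi s) / s - (hb x d - Phi (31 / 50)))) :
    PartG1 := by
  intro x d H M hx0 hd0 hd1 hxd hH0 hH hM2 hMb hMl
  have hJ0 := J_nonneg hx0 hd0 hxd
  have hT' := hT x d hx0 hd0 hd1 hxd
  set J := log 2 - Phi x - hb x d with hJ
  set ys := Phi (31 / 50) with hys
  have hys0 : 0 < ys := (Phi_mem (by norm_num) (by norm_num)).1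
  have hys1 : ys ≤ 207 / 1000 := by
    have := g1_Phi62_hi
    rw [← hys] at this
    norm_num at this ⊢
    linarith
  have hl2 := Real.log_two_gt_d9
  have hy0 : 0 ≤ hb x d - H := by linarith
  have e1 : log 2 - Phi x - H = (hb x d - H) + J := by rw [hJ]; ring
  rw [e1]
  set y := hb x d - H with hy
  have ha0 : (0 : ℝ) < 3 / 4 := by norm_num
  have ha1 : (3 / 4 : ℝ) < 1 := by norm_num
  rcases le_or_gt y ys with hc | hc
  · -- concavity
    have hcv := Psi_diff_convexOn hJ0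
    have hys34 : ys ≤ Phi (3 / 4) :=
      (Phi_strictMonoOn.le_iff_le ⟨by norm_num, by norm_num⟩ ⟨by norm_num, by norm_num⟩).2
        (by norm_num)
    have hth0 : 0 ≤ y / ys := div_nonneg hy0 hys0.le
    have hth1 : y / ys ≤ 1 := (div_le_one hys0).2 hc
    have m1 : (0 : ℝ) ∈ Ico 0 (log 2 - J) := ⟨le_rfl, by linarith⟩
    have m2 : ys ∈ Ico 0 (log 2 - J) := ⟨hys0.le, by linarith⟩
    have h1 := hcv.2 m1 m2 (by linarith : 0 ≤ 1 - y / ys) hth0 (by ring)
    have e2 : (1 - y / ys) • (0 : ℝ) + (y / ys) • ys = y := by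
      simp only [smul_eq_mul]
      rw [mul_zero, zero_add, div_mul_cancel₀ _ hys0.ne']
    rw [e2] at h1
    simp only [smul_eq_mul, zero_add, Psi_zero, sub_zero] at h1
    have h2 := Psi_J_le hx0 hd0 hxd
    have h3 := hA x d hx0 hd0 hd1 hxd
    rw [← hJ] at h2 h3
    have h4 := mul_le_mul_of_nonneg_left h2 (by linarith : 0 ≤ 1 - y / ys)
    have h5 := mul_le_mul_of_nonneg_left h3 hth0
    have e3 : y / ys * (d * (LL (x + d) - LL (x - d)) + muu x d * ys) =
        y / ys * (d * (LL (x + d) - LL (x - d))) + muu x d * y := by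
      field_simp
    rw [e3] at h5
    have h6 : PsiT (3 / 4) (y + J) ≤ Psi (y + J) := PsiT_le_Psi ha0 ha1 (by linarith)
    rw [PsiT_of_le (hc.trans hys34)]
    linarith
  · have hyh : y < hb x d := by rw [hy]; linarith
    obtain ⟨s, hs0, hs1, hs⟩ := hB x d hx0 hd0 hd1 hxd (hc.trans hyh)
    have h1 := hMl s hs0 hs1
    have h2 := PsiT_sub_le ha0 ha1 (by linarith : y ≤ y + J)
    have hnu : 0 ≤ nuu s := by
      unfold nuu
      have h3 : 0 < 1 - s ^ 2 := by nlinarith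
      have h4 : 0 ≤ log (4 / (1 - s ^ 2)) := by
        apply log_nonneg
        rw [le_div_iff₀ h3]
        nlinarith [sq_nonneg s]
      positivity
    have h3 : nuu s * (H) ≤ nuu s * (hb x d - ys) := by
      apply mul_le_mul_of_nonneg_left _ hnu
      have : H = hb x d - y := by rw [hy]; ring
      linarith
    have e2 : y + J - y = J := by ring
    rw [e2] at h2
    rw [mul_sub] at h1 hs
    linarith

/-! ### the one-variable bound -/

theorem inI_of {l w : ℕ} {a b x : ℝ} (ha : (l : ℝ) ≤ a * SC) (hb : b * SC ≤ (l : ℝ) + w)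
    (h1 : a ≤ x) (h2 : x ≤ b) : inI l w x := by
  have := SC_pos
  exact ⟨ha.trans (mul_le_mul_of_nonneg_right h1 this.le),
    (mul_le_mul_of_nonneg_right h2 this.le).trans hb⟩

theorem inI_zero {x : ℝ} (h : x = 0) : inI 0 0 x := by
  subst h
  constructor <;> simp

theorem D_r {r : ℝ} (h0 : 5 / 8 ≤ r) (h1 : r ≤ 852 / 1000) :
    wf r - wf (31 / 50) < (Phi r - Phi (31 / 50)) * (96 / 10 + (Phi r - Phi (31 / 50)) * (53 / 10 +
      (Phi r - Phi (31 / 50)) * (105 / 10))) := by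
  have hb : inBx bD r 0 0 := by
    refine ⟨inI_of (a := 5 / 8) (b := 852 / 1000) ?_ ?_ h0 h1, inI_zero rfl, inI_zero rfl⟩
    · norm_num [bD, SC]
    · norm_num [bD, SC]
  obtain ⟨e, he, hv⟩ := check_sound FD TD bD chkD r 0 0 hb
  simp only [FD, List.mem_cons, List.not_mem_nil, or_false] at he
  subst he
  rw [val_ED _ _ _ (by linarith) (by linarith)] at hv
  linarith

/-- a point evaluation -/
def E1 : Ex := sub (mul (sub (ent (k 5 8)) (ent qs)) (k 96 10)) (sub (wE (k 5 8)) (wE qs))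

theorem chkE1 : chk E1 ⟨0, 0, 0, 0, 0, 0⟩ = true := by decide +kernel

theorem D_point : wf (5 / 8) - wf (31 / 50) < (Phi (5 / 8) - Phi (31 / 50)) * (96 / 10) := by
  have h := chk_sound E1 ⟨0, 0, 0, 0, 0, 0⟩ chkE1 0 0 0 ⟨inI_zero rfl, inI_zero rfl, inI_zero rfl⟩
  have e1 : val qs 0 0 0 = 31 / 50 := by rw [qs, val_k]; norm_num
  have e2 : val (k 5 8) 0 0 0 = 5 / 8 := by rw [val_k]; norm_num
  rw [E1, val_sub, val_mul, val_sub, val_sub, val_wE, val_wE,
    val_ent _ _ _ _ (by rw [e2]; norm_num) (by rw [e2]; norm_num),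
    val_ent _ _ _ _ (by rw [e1]; norm_num) (by rw [e1]; norm_num), e1, e2, val_k] at h
  norm_num at h ⊢
  linarith

def E2 : Ex := sub (ent (k 852 1000)) (k 4246 10000)

theorem chkE2 : chk E2 ⟨0, 0, 0, 0, 0, 0⟩ = true := by decide +kernel

theorem Phi_852 : (4246 / 10000 : ℝ) < Phi (852 / 1000) := by
  have h := chk_sound E2 ⟨0, 0, 0, 0, 0, 0⟩ chkE2 0 0 0 ⟨inI_zero rfl, inI_zero rfl, inI_zero rfl⟩
  have e2 : val (k 852 1000) 0 0 0 = 852 / 1000 := by rw [val_k]; norm_num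
  rw [E2, val_sub, val_ent _ _ _ _ (by rw [e2]; norm_num) (by rw [e2]; norm_num), e2, val_k] at h
  push_cast at h
  linarith

theorem Dub {J : ℝ} (h0 : 0 ≤ J) (h1 : J ≤ 2175 / 10000) :
    Psi (Phi (31 / 50) + J) - Psi (Phi (31 / 50)) ≤
      J * (96 / 10 + J * (53 / 10 + J * (105 / 10))) := by
  set ys := Phi (31 / 50) with hys
  have hys0 : 0 < ys := (Phi_mem (by norm_num) (by norm_num)).1
  have hys1 : ys ≤ 207 / 1000 := by
    have := g1_Phi62_hi
    rw [← hys] at this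
    norm_num at this ⊢
    linarith
  have hl2 := Real.log_two_gt_d9
  have hws : Psi ys = wf (31 / 50) := Psi_Phi (by norm_num) (by norm_num)
  have hlt : ys < Phi (5 / 8) := (Phi_strictMonoOn.lt_iff_lt ⟨by norm_num, by norm_num⟩
    ⟨by norm_num, by norm_num⟩).2 (by norm_num)
  rcases le_or_gt (ys + J) (Phi (5 / 8)) with hc | hc
  · -- chord
    have h2 : 0 < Phi (5 / 8) - ys := by linarith
    set θ := J / (Phi (5 / 8) - ys) with hθ
    have hθ0 : 0 ≤ θ := div_nonneg h0 h2.le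
    have hθ1 : θ ≤ 1 := (div_le_one h2).2 (by linarith)
    have hJθ : θ * (Phi (5 / 8) - ys) = J := div_mul_cancel₀ _ h2.ne'
    have h58 : Phi (5 / 8) < log 2 := (Phi_mem (by norm_num) (by norm_num)).2
    have m1 : ys ∈ Iio (log 2) := by simp only [mem_Iio]; linarith
    have m2 : Phi (5 / 8) ∈ Iio (log 2) := h58
    have h3 := Psi_convexOn.2 m1 m2 (by linarith : 0 ≤ 1 - θ) hθ0 (by ring)
    have e : (1 - θ) • ys + θ • Phi (5 / 8) = ys + J := by
      simp only [smul_eq_mul]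
      linarith
    rw [e] at h3
    simp only [smul_eq_mul, hws, Psi_Phi (show (0 : ℝ) ≤ 5 / 8 by norm_num)
      (show (5 / 8 : ℝ) < 1 by norm_num)] at h3
    have h4 := D_point
    have h5 : θ * (wf (5 / 8) - wf (31 / 50)) ≤ θ * ((Phi (5 / 8) - ys) * (96 / 10)) :=
      mul_le_mul_of_nonneg_left h4.le hθ0
    rw [← mul_assoc, hJθ] at h5
    have h6 : 0 ≤ J * (J * (53 / 10 + J * (105 / 10))) := by positivity
    rw [hws]
    nlinarith
  · have h2 : ys + J < log 2 := by linarith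
    have h3 : 0 < ys + J := by linarith
    have hK := Kinv_mem h3 h2
    have hPK := Phi_Kinv h3 h2
    have h4 : 5 / 8 ≤ Kinv (ys + J) := by
      refine (Phi_strictMonoOn.le_iff_le ⟨by norm_num, by norm_num⟩ ⟨hK.1.le, hK.2.le⟩).1 ?_
      rw [hPK]; exact hc.le
    have h5 : Kinv (ys + J) ≤ 852 / 1000 := by
      refine (Phi_strictMonoOn.le_iff_le ⟨hK.1.le, hK.2.le⟩ ⟨by norm_num, by norm_num⟩).1 ?_
      rw [hPK]
      have := Phi_852
      linarith
    have h6 := D_r h4 h5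
    rw [hPK, ← hys, add_sub_cancel_left] at h6
    rw [hws, Psi, if_pos h3]
    exact h6.le

/-! ### the inequality (A) -/

theorem s_mem {x d : ℝ} (hx0 : 0 ≤ x) (hd0 : 0 < d) (hxd : x + d < 1) :
    0 < ((1 + x) ^ 2 - d ^ 2) / 4 ∧ ((1 + x) ^ 2 - d ^ 2) / 4 < 1 := by
  have e : (1 + x) ^ 2 - d ^ 2 = (1 + x - d) * (1 + x + d) := by ring
  have h1 : 0 < 1 + x - d := by linarith
  have h2 : 0 < 1 + x + d := by linarith
  have h3 : (1 + x - d) * (1 + x + d) < 2 * 2 :=
    mul_lt_mul'' (by linarith) (by linarith) h1.le h2.le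
  have h4 := mul_pos h1 h2
  rw [e]
  constructor <;> linarith

theorem muu_nonneg {x d : ℝ} (hx0 : 0 ≤ x) (hd0 : 0 < d) (hxd : x + d < 1) : 0 ≤ muu x d := by
  obtain ⟨b1, b2⟩ := s_mem hx0 hd0 hxd
  have b3 := log_neg b1 b2
  have b4 : 0 < -log (((1 + x) ^ 2 - d ^ 2) / 4) := by linarith
  unfold muu
  positivity

theorem A_core {x d ph lh mu : ℝ} (hx0 : 0 ≤ x) (hd0 : 0 < d) (hd1 : d ≤ 1 / 2) (hxd : x + d < 1)
    (hph : Phi (d / (1 - x)) ≤ (d / (1 - x)) ^ 2 * ph)
    (hph0 : 0 ≤ ph)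
    (hlh : d / (1 - x) * lh ≤ LL (d / (1 - x)))
    (hmu : d ^ 2 / (1 - x) * mu ≤ muu x d)
    (hv : 0 < lh + (1 - x) / (2 - (1 - x)) * rLhL (((1 - x) / (2 - (1 - x)) * (d / (1 - x))) ^ 2) +
      mu * (2069 / 10000) -
      (ph / 2 + (1 - x) / (2 - (1 - x)) / 2 *
        rphiU (((1 - x) / (2 - (1 - x)) * (d / (1 - x))) ^ 2)) *
      (96 / 10 + ((1 - x) * (d / (1 - x)) ^ 2 * (ph / 2 + (1 - x) / (2 - (1 - x)) / 2 *
        rphiU (((1 - x) / (2 - (1 - x)) * (d / (1 - x))) ^ 2))) * (53 / 10 +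
        ((1 - x) * (d / (1 - x)) ^ 2 * (ph / 2 + (1 - x) / (2 - (1 - x)) / 2 *
        rphiU (((1 - x) / (2 - (1 - x)) * (d / (1 - x))) ^ 2))) * (105 / 10)))) :
    Psi (Phi (31 / 50) + (log 2 - Phi x - hb x d)) - Psi (Phi (31 / 50)) ≤
        d * (LL (x + d) - LL (x - d)) + muu x d * Phi (31 / 50) := by
  have h2 : 0 < 1 - x := by linarith
  have h3 : 0 < 1 + x := by linarith
  have hX : d / (1 - x) < 1 := by rw [div_lt_one h2]; linarith
  have hY : d / (1 + x) < 1 := by rw [div_lt_one h3]; linarith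
  have hX0 : 0 < d / (1 - x) := by positivity
  have hY0 : 0 < d / (1 + x) := by positivity
  have eY : (1 - x) / (2 - (1 - x)) * (d / (1 - x)) = d / (1 + x) := by
    have : 2 - (1 - x) = 1 + x := by ring
    rw [this]
    field_simp
  rw [eY] at hv
  have e12 : 2 - (1 - x) = 1 + x := by ring
  rw [e12] at hv
  have hJ0 := J_nonneg hx0 hd0 hxd
  have hJT : log 2 - Phi x - hb x d ≤ 2175 / 10000 := by
    have := g1_T6 hx0 hd0 hd1 hxd
    unfold hb
    norm_num at this ⊢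
    linarith
  have hD := Dub hJ0 hJT
  have hJc := J_coord hx0 hd0 hxd
  have hWc := W_coord hx0 hd0 hxd
  set J := log 2 - Phi x - hb x d with hJ
  set W := d * (LL (x + d) - LL (x - d)) with hW
  set v := (d / (1 + x)) ^ 2 with hvdef
  have hv0 : 0 < v := by positivity
  have hv1 : v < 1 := by rw [hvdef]; nlinarith
  have hpU : Phi (d / (1 + x)) ≤ v * rphiU v := g1_T1 hY0 hY rfl
  have hpU0 : 0 ≤ rphiU v := by
    have : 0 < 1 - v := by linarith
    unfold rphiU
    positivity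
  have hLU : d / (1 + x) * rLhL v ≤ LL (d / (1 + x)) := g1_T3 hY0 hY rfl
  set E := d ^ 2 / (1 - x) with hE
  have hE0 : 0 < E := by positivity
  set Jh' := ph / 2 + (1 - x) / (1 + x) / 2 * rphiU v with hJh
  have hJh0 : 0 ≤ Jh' := by positivity
  have eE : (1 - x) * (d / (1 - x)) ^ 2 = E := by rw [hE]; field_simp
  rw [eE] at hv
  -- upper bound of J
  have hJle : J ≤ E * Jh' := by
    rw [← hJc]
    have a1 : (1 - x) / 2 * Phi (d / (1 - x)) ≤ (1 - x) / 2 * ((d / (1 - x)) ^ 2 * ph) :=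
      mul_le_mul_of_nonneg_left hph (by linarith)
    have a2 : (1 + x) / 2 * Phi (d / (1 + x)) ≤ (1 + x) / 2 * (v * rphiU v) :=
      mul_le_mul_of_nonneg_left hpU (by linarith)
    have e3 : (1 - x) / 2 * ((d / (1 - x)) ^ 2 * ph) = E * (ph / 2) := by
      rw [hE]; field_simp
    have e4 : (1 + x) / 2 * (v * rphiU v) = E * ((1 - x) / (1 + x) / 2 * rphiU v) := by
      rw [hE, hvdef]; field_simp
    rw [hJh, mul_add, ← e3, ← e4]
    linarith
  -- lower bound of W
  have hWge : E * (lh + (1 - x) / (1 + x) * rLhL v) ≤ W := by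
    rw [hWc]
    unfold wf
    have a1 : (1 - x) / 2 * (2 * (d / (1 - x)) * (d / (1 - x) * lh)) ≤
        (1 - x) / 2 * (2 * (d / (1 - x)) * LL (d / (1 - x))) := by gcongr
    have a2 : (1 + x) / 2 * (2 * (d / (1 + x)) * (d / (1 + x) * rLhL v)) ≤
        (1 + x) / 2 * (2 * (d / (1 + x)) * LL (d / (1 + x))) := by gcongr
    have e3 : (1 - x) / 2 * (2 * (d / (1 - x)) * (d / (1 - x) * lh)) = E * lh := by
      rw [hE]; field_simp
    have e4 : (1 + x) / 2 * (2 * (d / (1 + x)) * (d / (1 + x) * rLhL v)) =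
        E * ((1 - x) / (1 + x) * rLhL v) := by
      rw [hE]; field_simp
    rw [mul_add, ← e3, ← e4]
    linarith
  have hmm : 0 ≤ muu x d := muu_nonneg hx0 hd0 hxd
  have hmy : E * (mu * (2069 / 10000)) ≤ muu x d * Phi (31 / 50) := by
    have a1 : E * mu * (2069 / 10000) ≤ muu x d * (2069 / 10000) :=
      mul_le_mul_of_nonneg_right hmu (by norm_num)
    have n1 : (2069 / 10000 : ℝ) ≤ Phi (31 / 50) := by
      have := g1_Phi62_lo
      norm_num at this ⊢
      linarith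
    have a2 : muu x d * (2069 / 10000) ≤ muu x d * Phi (31 / 50) :=
      mul_le_mul_of_nonneg_left n1 hmm
    linarith
  have hPJ : J * (96 / 10 + J * (53 / 10 + J * (105 / 10))) ≤
      (E * Jh') * (96 / 10 + (E * Jh') * (53 / 10 + (E * Jh') * (105 / 10))) := by
    have : 0 ≤ E * Jh' := by positivity
    gcongr
  have hfin := mul_pos hE0 hv
  have e5 : E * (lh + (1 - x) / (1 + x) * rLhL v + mu * (2069 / 10000) -
      Jh' * (96 / 10 + E * Jh' * (53 / 10 + E * Jh' * (105 / 10)))) =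
      E * (lh + (1 - x) / (1 + x) * rLhL v) + E * (mu * (2069 / 10000)) -
      (E * Jh') * (96 / 10 + (E * Jh') * (53 / 10 + (E * Jh') * (105 / 10))) := by ring
  rw [e5] at hfin
  linarith

theorem A_of_val (ph lh mu : Ex) {x d : ℝ} (hx0 : 0 ≤ x) (hd0 : 0 < d) (hd1 : d ≤ 1 / 2)
    (hxd : x + d < 1)
    (hph : Phi (d / (1 - x)) ≤ (d / (1 - x)) ^ 2 * val ph (1 - x) (d / (1 - x)) 0)
    (hph0 : 0 ≤ val ph (1 - x) (d / (1 - x)) 0)
    (hlh : d / (1 - x) * val lh (1 - x) (d / (1 - x)) 0 ≤ LL (d / (1 - x)))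
    (hmu : d ^ 2 / (1 - x) * val mu (1 - x) (d / (1 - x)) 0 ≤ muu x d)
    (hv : 0 < val (EA ph lh mu) (1 - x) (d / (1 - x)) 0) :
    Psi (Phi (31 / 50) + (log 2 - Phi x - hb x d)) - Psi (Phi (31 / 50)) ≤
        d * (LL (x + d) - LL (x - d)) + muu x d * Phi (31 / 50) := by
  refine A_core hx0 hd0 hd1 hxd hph hph0 hlh hmu ?_
  rw [val_EA, val_Jh] at hv
  exact hv

theorem s_eq {x d : ℝ} (h : 0 < 1 - x) :
    ((2 - (1 - x)) ^ 2 - (1 - x) ^ 2 * (d / (1 - x)) ^ 2) / 4 = ((1 + x) ^ 2 - d ^ 2) / 4 := by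
  have e : (1 - x) ^ 2 * (d / (1 - x)) ^ 2 = d ^ 2 := by field_simp
  rw [e]
  ring

theorem mu_E {x d : ℝ} (hxd : x + d < 1) (hd0 : 0 < d) :
    d ^ 2 / (1 - x) * val muE (1 - x) (d / (1 - x)) 0 ≤ muu x d := by
  have h : 0 < 1 - x := by linarith
  rw [val_muE, s_eq h]
  unfold muu
  refine le_of_eq ?_
  rw [div_mul_div_comm, mul_comm (1 - x), ← mul_assoc, mul_comm (d ^ 2)]
  rw [mul_div_mul_right _ _ h.ne']

theorem mu_P {x d : ℝ} (hx0 : 0 ≤ x) (hd0 : 0 < d) (hxd : x + d < 1) :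
    d ^ 2 / (1 - x) * val muP (1 - x) (d / (1 - x)) 0 ≤ muu x d := by
  have h : 0 < 1 - x := by linarith
  obtain ⟨b1, b2⟩ := s_mem hx0 hd0 hxd
  set s := ((1 + x) ^ 2 - d ^ 2) / 4 with hs
  have h4 := g1_T4 b1 b2 rfl
  rw [val_muP]
  set g := 1 - (1 - x) * (1 - (d / (1 - x)) ^ 2) / 4 with hg
  have e1 : (1 - x) * g = 1 - s := by
    rw [hg, hs]
    field_simp
    ring
  rw [e1]
  set Q := 1 - (1 - s) * (1 / 2 + (1 - s) * (1 / 6 + (1 - s) * (1 / 12 + (1 - s) * (1 / 20)))) with hQ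
  have hL := log_neg b1 b2
  have hsl : 0 < s * (-log s) := mul_pos b1 (by linarith)
  have e2 : muu x d = 2 * d ^ 2 / (s * (-log s)) := rfl
  rw [e2]
  have h5 : (1 - s) * Q = (1 - x) * (g * Q) := by rw [← e1]; ring
  have hgQ : 0 < g * Q := by
    have : 0 < (1 - x) * (g * Q) := by rw [← h5]; linarith
    exact pos_of_mul_pos_right this h.le
  have e3 : d ^ 2 / (1 - x) * (2 / (g * Q)) = 2 * d ^ 2 / ((1 - x) * (g * Q)) := by
    field_simp
  rw [e3, ← h5]
  exact div_le_div_of_nonneg_left (by positivity) hsl h4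

theorem g1_A {x d : ℝ} (hx0 : 0 ≤ x) (hd0 : 0 < d) (hd1 : d ≤ 1 / 2) (hxd : x + d < 1) :
    Psi (Phi (31 / 50) + (log 2 - Phi x - hb x d)) - Psi (Phi (31 / 50)) ≤
        d * (LL (x + d) - LL (x - d)) + muu x d * Phi (31 / 50) := by
  have he : 0 < 1 - x := by linarith
  have he1 : 1 - x ≤ 1 := by linarith
  have ht0 : 0 < d / (1 - x) := by positivity
  have ht1 : d / (1 - x) < 1 := by rw [div_lt_one he]; linarith
  have het : (1 - x) * (d / (1 - x)) = d := by field_simp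
  have hu1 : 0 < 1 - (d / (1 - x)) ^ 2 := by nlinarith
  have hmE := mu_E hxd hd0
  have hmP := mu_P hx0 hd0 hxd
  have hOut : ¬ 0 < val Out (1 - x) (d / (1 - x)) 0 := by
    rw [val_Out, het]
    linarith
  rcases le_total (d / (1 - x)) (5 / 8) with hc | hc
  · have hb : inBx bA1 (1 - x) (d / (1 - x)) 0 := by
      refine ⟨inI_of (a := 0) (b := 1) ?_ ?_ he.le he1, inI_of (a := 0) (b := 5 / 8) ?_ ?_ ht0.le hc,
        inI_zero rfl⟩ <;> norm_num [bA1, SC]
    have hph : Phi (d / (1 - x)) ≤ (d / (1 - x)) ^ 2 * val (phiU uu) (1 - x) (d / (1 - x)) 0 := by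
      rw [val_phiU, val_uu]
      exact g1_T1 ht0 ht1 rfl
    have hph0 : 0 ≤ val (phiU uu) (1 - x) (d / (1 - x)) 0 := by
      rw [val_phiU, val_uu]
      unfold rphiU
      positivity
    have hlh : d / (1 - x) * val (LhL uu) (1 - x) (d / (1 - x)) 0 ≤ LL (d / (1 - x)) := by
      rw [val_LhL, val_uu]
      exact g1_T3 ht0 ht1 rfl
    obtain ⟨e, hm, hv⟩ := check_sound FA1 TA1 bA1 chkA1 _ _ 0 hb
    simp only [FA1, List.mem_cons, List.not_mem_nil, or_false] at hm
    rcases hm with h | h | h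
    · subst h
      exact A_of_val _ _ _ hx0 hd0 hd1 hxd hph hph0 hlh hmP hv
    · subst h
      exact A_of_val _ _ _ hx0 hd0 hd1 hxd hph hph0 hlh hmE hv
    · subst h
      exact absurd hv hOut
  · rcases le_total (d / (1 - x)) (31 / 32) with hc2 | hc2
    · have hb : inBx bA2 (1 - x) (d / (1 - x)) 0 := by
        refine ⟨inI_of (a := 0) (b := 7 / 8) ?_ ?_ he.le (by nlinarith),
          inI_of (a := 5 / 8) (b := 31 / 32) ?_ ?_ hc hc2, inI_zero rfl⟩ <;> norm_num [bA2, SC]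
      have hph : Phi (d / (1 - x)) ≤ (d / (1 - x)) ^ 2 * val phiE (1 - x) (d / (1 - x)) 0 := by
        rw [val_phiE _ _ _ ht0 ht1]
        refine le_of_eq ?_
        field_simp
      have hph0 : 0 ≤ val phiE (1 - x) (d / (1 - x)) 0 := by
        rw [val_phiE _ _ _ ht0 ht1]
        have := Phi_nonneg' ht0.le ht1
        positivity
      have hlh : d / (1 - x) * val LhE (1 - x) (d / (1 - x)) 0 ≤ LL (d / (1 - x)) := by
        rw [val_LhE]
        refine le_of_eq ?_
        field_simp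
      obtain ⟨e, hm, hv⟩ := check_sound FA2 TA2 bA2 chkA2 _ _ 0 hb
      simp only [FA2, List.mem_cons, List.not_mem_nil, or_false] at hm
      rcases hm with h | h | h
      · subst h
        exact A_of_val _ _ _ hx0 hd0 hd1 hxd hph hph0 hlh hmP hv
      · subst h
        exact A_of_val _ _ _ hx0 hd0 hd1 hxd hph hph0 hlh hmE hv
      · subst h
        exact absurd hv hOut
    · have hb : inBx bA3 (1 - x) (d / (1 - x)) 0 := by
        refine ⟨inI_of (a := 0) (b := 5 / 8) ?_ ?_ he.le (by nlinarith),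
          inI_of (a := 31 / 32) (b := 1) ?_ ?_ hc2 ht1.le, inI_zero rfl⟩ <;> norm_num [bA3, SC]
      have hph : Phi (d / (1 - x)) ≤ (d / (1 - x)) ^ 2 * val phiT (1 - x) (d / (1 - x)) 0 := by
        rw [val_phiT]
        have h1 := (Phi_mem ht0 ht1).2
        have h2 := g1_log2
        have e : (d / (1 - x)) ^ 2 * (69315 / 100000 / (d / (1 - x)) ^ 2) = 69315 / 100000 := by
          field_simp
        rw [e]
        norm_num at h2 ⊢
        linarith
      have hph0 : 0 ≤ val phiT (1 - x) (d / (1 - x)) 0 := by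
        rw [val_phiT]
        positivity
      have hlh : d / (1 - x) * val (k 4143 1000) (1 - x) (d / (1 - x)) 0 ≤ LL (d / (1 - x)) := by
        rw [val_k]
        have h1 := g1_LL3132
        have h2 : LL (31 / 32) ≤ LL (d / (1 - x)) := by
          unfold LL
          have a1 : log (1 + 31 / 32) ≤ log (1 + d / (1 - x)) :=
            log_le_log (by norm_num) (by linarith)
          have a2 : log (1 - d / (1 - x)) ≤ log (1 - 31 / 32) :=
            log_le_log (by linarith) (by linarith)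
          linarith
        have h3 : d / (1 - x) * (((4143 : ℕ) : ℝ) / ((1000 : ℕ) : ℝ)) ≤ 4.143 := by
          push_cast
          norm_num
          linarith
        linarith
      obtain ⟨e, hm, hv⟩ := check_sound FA3 TA3 bA3 chkA3 _ _ 0 hb
      simp only [FA3, List.mem_cons, List.not_mem_nil, or_false] at hm
      rcases hm with h | h | h
      · subst h
        exact A_of_val _ _ _ hx0 hd0 hd1 hxd hph hph0 hlh hmP hv
      · subst h
        exact A_of_val _ _ _ hx0 hd0 hd1 hxd hph hph0 hlh hmE hv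
      · subst h
        exact absurd hv hOut

end Vale.Agent.CK.G1
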