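import Vale.Agent.CK.G1Val
import Vale.Agent.CK.G1Tay
import Vale.Agent.CK.Base

/-!
# P322, part G1: the `(B)` half
-/

namespace Vale.Agent.CK.G1

open IA Real

/-- from the positivity of `EB` to the inequality -/
theorem g1B_core {e t κ pu Hu : ℝ} (he0 : 0 < e) (he1 : e ≤ 1) (ht0 : 0 < t) (ht1 : t < 1)
    (hκ : 0 < κ) (hκ1 : κ * t < 1) (hpu : Phi t ≤ pu * t ^ 2)
    (hHu : hb (1 - e) (e * t) - Phi (31 / 50) ≤ Hu)
    (hpos : 0 < 2 * κ * rLhL ((κ * t) ^ 2) +
      κ ^ 2 * (8 / ((1 - (κ * t) ^ 2) * (log 4 - log (1 - (κ * t) ^ 2)))) *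
        ((log 2 - Phi (κ * t)) / κ - Hu / e) -
      11048 / 1000 * (pu / 2 + e / (2 - e) / 2 * rphiU ((e / (2 - e) * t) ^ 2))) :
    lam (3 / 4) * ((Phi (1 - e + e * t) + Phi (1 - e - e * t)) / 2 - Phi (1 - e)) ≤
      2 * (e * t) * LL (κ * t) + nuu (κ * t) * ((e * t) * (log 2 - Phi (κ * t)) / (κ * t) -
        (hb (1 - e) (e * t) - Phi (31 / 50))) := by
  have hs0 : 0 < κ * t := mul_pos hκ ht0
  have hs2 : 0 < 1 - (κ * t) ^ 2 := by nlinarith
  have h2e : 0 < 2 - e := by linarith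
  -- the scale
  have hsc : 0 < e * t ^ 2 := by positivity
  -- `J`
  have hJ := J_coord (x := 1 - e) (d := e * t) (by linarith) (by positivity) (by nlinarith)
  have e1 : e * t / (1 - (1 - e)) = t := by
    have : 1 - (1 - e) = e := by ring
    rw [this]; field_simp
  have e2 : e * t / (1 + (1 - e)) = e / (2 - e) * t := by
    have : 1 + (1 - e) = 2 - e := by ring
    rw [this]; ring
  rw [e1, e2] at hJ
  set c := e / (2 - e) with hc
  have hc0 : 0 < c := div_pos he0 h2e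
  have hc1 : c ≤ 1 := by rw [hc, div_le_one h2e]; linarith
  have hct0 : 0 < c * t := mul_pos hc0 ht0
  have hct1 : c * t < 1 := by nlinarith
  have hce : c * (2 - e) = e := by rw [hc]; field_simp
  have hJ2 : (Phi (1 - e + e * t) + Phi (1 - e - e * t)) / 2 - Phi (1 - e) =
      e / 2 * Phi t + (2 - e) / 2 * Phi (c * t) := by
    unfold hb at hJ
    have e3 : (1 - (1 - e)) / 2 = e / 2 := by ring
    have e4 : (1 + (1 - e)) / 2 = (2 - e) / 2 := by ring
    rw [e3, e4] at hJ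
    linarith
  have hT1 : Phi (c * t) ≤ (c * t) ^ 2 * rphiU ((c * t) ^ 2) := g1_T1 hct0 hct1 rfl
  have hJ3 : (Phi (1 - e + e * t) + Phi (1 - e - e * t)) / 2 - Phi (1 - e) ≤
      (pu / 2 + c / 2 * rphiU ((c * t) ^ 2)) * (e * t ^ 2) := by
    rw [hJ2]
    have a1 : e / 2 * Phi t ≤ e / 2 * (pu * t ^ 2) := mul_le_mul_of_nonneg_left hpu (by positivity)
    have a2 : (2 - e) / 2 * Phi (c * t) ≤ (2 - e) / 2 * ((c * t) ^ 2 * rphiU ((c * t) ^ 2)) :=
      mul_le_mul_of_nonneg_left hT1 (by positivity)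
    have a3 : (2 - e) / 2 * ((c * t) ^ 2 * rphiU ((c * t) ^ 2)) =
        c / 2 * rphiU ((c * t) ^ 2) * (e * t ^ 2) := by
      have : (2 - e) / 2 * ((c * t) ^ 2 * rphiU ((c * t) ^ 2)) =
        (c * (2 - e)) * (c / 2 * rphiU ((c * t) ^ 2) * t ^ 2) := by ring
      rw [this, hce]; ring
    rw [a3] at a2
    nlinarith [a1, a2]
  have hJ0 : 0 ≤ (Phi (1 - e + e * t) + Phi (1 - e - e * t)) / 2 - Phi (1 - e) := by
    rw [hJ2]
    have b1 := (Phi_mem ht0 ht1).1
    have b2 := (Phi_mem hct0 hct1).1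
    positivity
  have hlam : lam (3 / 4) ≤ 11048 / 1000 := by
    have := g1_lam34
    norm_num at this ⊢
    linarith
  have hL : lam (3 / 4) * ((Phi (1 - e + e * t) + Phi (1 - e - e * t)) / 2 - Phi (1 - e)) ≤
      11048 / 1000 * (pu / 2 + c / 2 * rphiU ((c * t) ^ 2)) * (e * t ^ 2) := by
    calc _ ≤ 11048 / 1000 * ((Phi (1 - e + e * t) + Phi (1 - e - e * t)) / 2 - Phi (1 - e)) :=
          mul_le_mul_of_nonneg_right hlam hJ0
      _ ≤ 11048 / 1000 * ((pu / 2 + c / 2 * rphiU ((c * t) ^ 2)) * (e * t ^ 2)) :=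
          mul_le_mul_of_nonneg_left hJ3 (by norm_num)
      _ = _ := by ring
  -- `L`
  have hT3 : (κ * t) * rLhL ((κ * t) ^ 2) ≤ LL (κ * t) := g1_T3 hs0 hκ1 rfl
  have hLL : 2 * κ * rLhL ((κ * t) ^ 2) * (e * t ^ 2) ≤ 2 * (e * t) * LL (κ * t) := by
    have : 2 * κ * rLhL ((κ * t) ^ 2) * (e * t ^ 2) =
      2 * (e * t) * ((κ * t) * rLhL ((κ * t) ^ 2)) := by ring
    rw [this]
    exact mul_le_mul_of_nonneg_left hT3 (by positivity)
  -- `nuu`
  have hlog : log (4 / (1 - (κ * t) ^ 2)) = log 4 - log (1 - (κ * t) ^ 2) :=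
    log_div (by norm_num) hs2.ne'
  have hD0 : 0 < log 4 - log (1 - (κ * t) ^ 2) := by
    rw [← hlog]
    apply log_pos
    rw [lt_div_iff₀ hs2]
    nlinarith [sq_nonneg (κ * t)]
  have hnu : nuu (κ * t) = t ^ 2 * (κ ^ 2 *
      (8 / ((1 - (κ * t) ^ 2) * (log 4 - log (1 - (κ * t) ^ 2))))) := by
    unfold nuu
    rw [hlog]
    ring
  set K := κ ^ 2 * (8 / ((1 - (κ * t) ^ 2) * (log 4 - log (1 - (κ * t) ^ 2)))) with hK
  have hK0 : 0 < K := by rw [hK]; positivity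
  have hN : K * ((log 2 - Phi (κ * t)) / κ - Hu / e) * (e * t ^ 2) ≤
      nuu (κ * t) * ((e * t) * (log 2 - Phi (κ * t)) / (κ * t) -
        (hb (1 - e) (e * t) - Phi (31 / 50))) := by
    rw [hnu]
    have c1 : (e * t) * (log 2 - Phi (κ * t)) / (κ * t) = e * ((log 2 - Phi (κ * t)) / κ) := by
      field_simp
    rw [c1]
    have c2 : K * ((log 2 - Phi (κ * t)) / κ - Hu / e) * (e * t ^ 2) =
        t ^ 2 * K * (e * ((log 2 - Phi (κ * t)) / κ) - Hu) := by
      have : Hu = e * (Hu / e) := by field_simp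
      calc _ = t ^ 2 * K * (e * ((log 2 - Phi (κ * t)) / κ) - e * (Hu / e)) := by ring
        _ = _ := by rw [← this]
    rw [c2]
    exact mul_le_mul_of_nonneg_left (by linarith) (by positivity)
  have hpos' := mul_pos hpos hsc
  have hfin : (2 * κ * rLhL ((κ * t) ^ 2) + K * ((log 2 - Phi (κ * t)) / κ - Hu / e) -
      11048 / 1000 * (pu / 2 + c / 2 * rphiU ((c * t) ^ 2))) * (e * t ^ 2) =
      2 * κ * rLhL ((κ * t) ^ 2) * (e * t ^ 2) +
      K * ((log 2 - Phi (κ * t)) / κ - Hu / e) * (e * t ^ 2) -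
      11048 / 1000 * (pu / 2 + c / 2 * rphiU ((c * t) ^ 2)) * (e * t ^ 2) := by ring
  rw [hfin] at hpos'
  linarith

/-- the conclusion -/
def BConc (x d : ℝ) : Prop := ∃ s, 0 < s ∧ s < 1 ∧
  lam (3 / 4) * ((Phi (x + d) + Phi (x - d)) / 2 - Phi x) ≤
    2 * d * LL s + nuu s * (d * (log 2 - Phi s) / s - (hb x d - Phi (31 / 50)))

/-- lower bound of `J` -/
theorem g1B_Jlow {e t pl : ℝ} (he0 : 0 < e) (he1 : e ≤ 1) (ht0 : 0 < t) (ht1 : t < 1)
    (hpl : pl * t ^ 2 ≤ Phi t) :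
    e * t ^ 2 * (pl / 2 + e / (2 - e) / 2 * rphiL ((e / (2 - e) * t) ^ 2)) ≤
      log 2 - Phi (1 - e) - hb (1 - e) (e * t) := by
  have h2e : 0 < 2 - e := by linarith
  have hJ := J_coord (x := 1 - e) (d := e * t) (by linarith) (by positivity) (by nlinarith)
  have e1 : e * t / (1 - (1 - e)) = t := by
    have : 1 - (1 - e) = e := by ring
    rw [this]; field_simp
  have e2 : e * t / (1 + (1 - e)) = e / (2 - e) * t := by
    have : 1 + (1 - e) = 2 - e := by ring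
    rw [this]; ring
  rw [e1, e2] at hJ
  set c := e / (2 - e) with hc
  have hc0 : 0 < c := div_pos he0 h2e
  have hc1 : c ≤ 1 := by rw [hc, div_le_one h2e]; linarith
  have hct0 : 0 < c * t := mul_pos hc0 ht0
  have hct1 : c * t < 1 := by nlinarith
  have hce : c * (2 - e) = e := by rw [hc]; field_simp
  have hT2 : (c * t) ^ 2 * rphiL ((c * t) ^ 2) ≤ Phi (c * t) := g1_T2 hct0 hct1 rfl
  rw [← hJ]
  have e3 : (1 - (1 - e)) / 2 = e / 2 := by ring
  have e4 : (1 + (1 - e)) / 2 = (2 - e) / 2 := by ring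
  rw [e3, e4]
  have a1 : e / 2 * (pl * t ^ 2) ≤ e / 2 * Phi t := mul_le_mul_of_nonneg_left hpl (by positivity)
  have a2 : (2 - e) / 2 * ((c * t) ^ 2 * rphiL ((c * t) ^ 2)) ≤ (2 - e) / 2 * Phi (c * t) :=
    mul_le_mul_of_nonneg_left hT2 (by positivity)
  have a3 : (2 - e) / 2 * ((c * t) ^ 2 * rphiL ((c * t) ^ 2)) =
      c / 2 * rphiL ((c * t) ^ 2) * (e * t ^ 2) := by
    have : (2 - e) / 2 * ((c * t) ^ 2 * rphiL ((c * t) ^ 2)) =
      (c * (2 - e)) * (c / 2 * rphiL ((c * t) ^ 2) * t ^ 2) := by ring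
    rw [this, hce]; ring
  rw [a3] at a2
  nlinarith [a1, a2]

/-- one box -/
theorem g1B_box {e t : ℝ} {pu pl : Ex} {ks : List ℕ} (he0 : 0 < e) (he1 : e ≤ 1) (ht0 : 0 < t)
    (ht1 : t < 1) (hd : e * t ≤ 1 / 2) (hv : Phi (31 / 50) < hb (1 - e) (e * t))
    (hks : ∀ a ∈ ks, 0 < a ∧ (a : ℝ) / (100 : ℕ) * t < 1)
    (hpu : Phi t ≤ val pu e t 0 * t ^ 2) (hpl : val pl e t 0 * t ^ 2 ≤ Phi t)
    (hex : ∃ E ∈ Out :: Vd pl :: (ks.map fun a => EB pu pl a 100), 0 < val E e t 0) :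
    BConc (1 - e) (e * t) := by
  have hJl := g1B_Jlow he0 he1 ht0 ht1 hpl
  have hys : (2069 / 10000 : ℝ) ≤ Phi (31 / 50) := by
    have := g1_Phi62_lo
    norm_num at this ⊢
    linarith
  have hHup : hb (1 - e) (e * t) - Phi (31 / 50) ≤ val (Hup pl) e t 0 := by
    rw [val_Hup pl e t 0 he0 (by linarith), val_Jlow]
    linarith
  obtain ⟨E, hE, hpos⟩ := hex
  rcases List.mem_cons.1 hE with h | h
  · rw [h, val_Out] at hpos
    linarith
  rcases List.mem_cons.1 h with h | h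
  · rw [h, val_Vd] at hpos
    linarith
  obtain ⟨a, ha, h⟩ := List.mem_map.1 h
  obtain ⟨ha0, ha1⟩ := hks a ha
  have hκ : (0 : ℝ) < (a : ℝ) / (100 : ℕ) := by
    have : (0 : ℝ) < a := by exact_mod_cast ha0
    positivity
  rw [← h, val_EB pu pl a 100 e t 0 (by nlinarith) ha1, val_Jh] at hpos
  exact ⟨(a : ℝ) / (100 : ℕ) * t, by positivity, ha1,
    g1B_core he0 he1 ht0 ht1 hκ ha1 hpu hHup hpos⟩

theorem g1B_inI_of {l w : ℕ} {x lo hi : ℝ} (h1 : (l : ℝ) = lo * SC) (h2 : (l : ℝ) + w = hi * SC)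
    (hlo : lo ≤ x) (hhi : x ≤ hi) : inI l w x := by
  constructor
  · rw [h1]; exact mul_le_mul_of_nonneg_right hlo SC_pos.le
  · rw [h2]; exact mul_le_mul_of_nonneg_right hhi SC_pos.le

theorem g1B_main {e t : ℝ} (he : 3 / 32 ≤ e) (he1 : e ≤ 1) (ht0 : 0 < t) (ht1 : t < 1)
    (hd : e * t ≤ 1 / 2) (hv : Phi (31 / 50) < hb (1 - e) (e * t)) : BConc (1 - e) (e * t) := by
  have he0 : 0 < e := by linarith
  have h0 : inI 0 0 0 := g1B_inI_of (lo := 0) (hi := 0) (by simp) (by simp) le_rfl le_rfl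
  have hU : Phi t ≤ val (phiU uu) e t 0 * t ^ 2 := by
    rw [val_phiU, val_uu, mul_comm]
    exact g1_T1 ht0 ht1 rfl
  have hL : val (phiL uu) e t 0 * t ^ 2 ≤ Phi t := by
    rw [val_phiL, val_uu, mul_comm]
    exact g1_T2 ht0 ht1 rfl
  have hE : val phiE e t 0 * t ^ 2 = Phi t := by
    rw [val_phiE _ _ _ ht0 ht1]
    field_simp
  rcases le_or_gt t (1 / 2) with h1 | h1
  · -- box 1
    refine g1B_box (ks := ks1) he0 he1 ht0 ht1 hd hv ?_ hU hL
      (check_sound FB1 TB1 bB1 chkB1 e t 0 ⟨?_, ?_, h0⟩)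
    · intro a ha
      have : 0 < a ∧ a ≤ 152 := by
        simp only [ks1, List.mem_cons, List.not_mem_nil, or_false] at ha
        omega
      refine ⟨this.1, ?_⟩
      have h3 : (a : ℝ) ≤ 152 := by exact_mod_cast this.2
      push_cast
      nlinarith
    · exact g1B_inI_of (lo := 3 / 32) (hi := 1) (by unfold SC; norm_num [bB1])
        (by unfold SC; norm_num [bB1]) he he1
    · exact g1B_inI_of (lo := 0) (hi := 1 / 2) (by simp [bB1])
        (by unfold SC; norm_num [bB1]) ht0.le h1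
  rcases le_or_gt t (3 / 4) with h2 | h2
  · -- box 2
    refine g1B_box (ks := ks2) he0 he1 ht0 ht1 hd hv ?_ hU hL
      (check_sound FB2 TB2 bB2 chkB2 e t 0 ⟨?_, ?_, h0⟩)
    · intro a ha
      have : 0 < a ∧ a ≤ 128 := by
        simp only [ks2, List.mem_cons, List.not_mem_nil, or_false] at ha
        omega
      refine ⟨this.1, ?_⟩
      have h3 : (a : ℝ) ≤ 128 := by exact_mod_cast this.2
      push_cast
      nlinarith
    · exact g1B_inI_of (lo := 3 / 32) (hi := 1) (by unfold SC; norm_num [bB2])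
        (by unfold SC; norm_num [bB2]) he he1
    · exact g1B_inI_of (lo := 1 / 2) (hi := 3 / 4) (by unfold SC; norm_num [bB2])
        (by unfold SC; norm_num [bB2]) h1.le h2
  have hks3 : ∀ a ∈ ks3, 0 < a ∧ (a : ℝ) / (100 : ℕ) * t < 1 := by
    intro a ha
    have : 0 < a ∧ a ≤ 99 := by
      simp only [ks3, List.mem_cons, List.not_mem_nil, or_false] at ha
      omega
    refine ⟨this.1, ?_⟩
    have h3 : (a : ℝ) ≤ 99 := by exact_mod_cast this.2
    push_cast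
    nlinarith
  rcases le_or_gt t (255 / 256) with h3 | h3
  · -- box 3
    have he2 : e ≤ 3 / 4 := by nlinarith
    refine g1B_box (ks := ks3) he0 he1 ht0 ht1 hd hv hks3 hE.ge hE.le
      (check_sound FB3 TB3 bB3 chkB3 e t 0 ⟨?_, ?_, h0⟩)
    · exact g1B_inI_of (lo := 3 / 32) (hi := 3 / 4) (by unfold SC; norm_num [bB3])
        (by unfold SC; norm_num [bB3]) he he2
    · exact g1B_inI_of (lo := 3 / 4) (hi := 255 / 256) (by unfold SC; norm_num [bB3])
        (by unfold SC; norm_num [bB3]) h2.le h3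
  · -- box 5
    have he2 : e ≤ 5 / 8 := by nlinarith
    have hPm := Phi_strictMonoOn.monotoneOn (a := 255 / 256) (b := t) ⟨by norm_num, by norm_num⟩
      ⟨ht0.le, ht1.le⟩ h3.le
    have hT : Phi t ≤ val phiT e t 0 * t ^ 2 := by
      rw [val_phiT]
      have a1 := (Phi_mem ht0 ht1).2
      have a2 := g1_log2
      have a3 : (69315 / 100000 : ℝ) / t ^ 2 * t ^ 2 = 69315 / 100000 := by field_simp
      rw [a3]
      norm_num at a2 ⊢
      linarith
    have hC : val phiC e t 0 * t ^ 2 ≤ Phi t := by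
      rw [val_phiC]
      have a2 := g1_Phi255
      have a3 : (679 / 1000 : ℝ) / t ^ 2 * t ^ 2 = 679 / 1000 := by field_simp
      rw [a3]
      norm_num at a2 ⊢
      linarith
    refine g1B_box (ks := ks3) he0 he1 ht0 ht1 hd hv hks3 hT hC
      (check_sound FB5 TB5 bB5 chkB5 e t 0 ⟨?_, ?_, h0⟩)
    · exact g1B_inI_of (lo := 3 / 32) (hi := 5 / 8) (by unfold SC; norm_num [bB5])
        (by unfold SC; norm_num [bB5]) he he2
    · exact g1B_inI_of (lo := 255 / 256) (hi := 1) (by unfold SC; norm_num [bB5])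
        (by unfold SC; norm_num [bB5]) h3.le ht1.le

theorem g1_B {x d : ℝ} (hx0 : 0 ≤ x) (hd0 : 0 < d) (hd1 : d ≤ 1 / 2) (hxd : x + d < 1)
    (hv : Phi (31 / 50) < hb x d) : ∃ s, 0 < s ∧ s < 1 ∧
    lam (3 / 4) * ((Phi (x + d) + Phi (x - d)) / 2 - Phi x) ≤
      2 * d * LL s + nuu s * (d * (log 2 - Phi s) / s - (hb x d - Phi (31 / 50))) := by
  have hx1 : x < 1 := by linarith
  have he0 : 0 < 1 - x := by linarith
  have ex : 1 - (1 - x) = x := by ring
  have ed : (1 - x) * (d / (1 - x)) = d := by field_simp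
  have ht0 : 0 < d / (1 - x) := by positivity
  have ht1 : d / (1 - x) < 1 := by rw [div_lt_one he0]; linarith
  have hx29 : 3 / 32 ≤ 1 - x := by
    by_contra hcon
    push Not at hcon
    have h1 : hb x d ≤ log 2 - Phi x := by
      have hJ := J_coord hx0 hd0 hxd
      have hY1 : d / (1 + x) < 1 := by rw [div_lt_one (by linarith)]; linarith
      have hY0 : 0 < d / (1 + x) := by positivity
      have b1 := (Phi_mem ht0 ht1).1
      have b2 := (Phi_mem hY0 hY1).1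
      have b3 : 0 < (1 - x) / 2 * Phi (d / (1 - x)) + (1 + x) / 2 * Phi (d / (1 + x)) := by
        have : 0 < (1 + x) / 2 := by linarith
        positivity
      linarith
    have h2 : Phi (9 / 10) ≤ Phi x := Phi_strictMonoOn.monotoneOn ⟨by norm_num, by norm_num⟩
      ⟨hx0, hx1.le⟩ (by linarith)
    have h3 := g1_eta910
    have h4 := g1_Phi62_lo
    norm_num at h3 h4
    linarith
  have := g1B_main (e := 1 - x) (t := d / (1 - x)) hx29 (by linarith) ht0 ht1 (by rw [ed]; exact hd1)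
    (by rw [ex, ed]; exact hv)
  rw [ex, ed] at this
  exact this

end Vale.Agent.CK.G1
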