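import Vale.Agent.CK.G1Ex

/-!
# P322, part G1: the subdivision trees and the kernel checks
-/

namespace Vale.Agent.CK.G1

open IA

def l := Tr.l
def x := Tr.x
def y := Tr.y

def TA1 : Tr :=
  (x (y (x (x (y (x (y (l 0) (l 0)) (l 0)) (y (l 0) (l 0))) (y (x (l 0) (l 0)) (x (l 0) (l 0)))) (x
  (y (l 0) (l 0)) (y (l 0) (l 0)))) (x (y (x (y (l 0) (l 0)) (y (l 0) (l 0))) (x (l 0) (l 0))) (y
  (x (l 0) (x (l 0) (l 0))) (x (y (l 0) (l 0)) (y (l 0) (l 0)))))) (y (y (y (y (x (x (l 0) (l 0))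
  (x (l 0) (l 0))) (x (x (l 0) (l 0)) (x (l 0) (l 0)))) (x (x (l 0) (l 0)) (x (l 0) (l 0)))) (x (x
  (l 0) (l 0)) (y (y (x (l 0) (l 0)) (x (l 0) (l 0))) (x (l 0) (l 0))))) (x (y (x (x (l 0) (l 0))
  (x (l 0) (l 0))) (x (y (l 0) (x (l 0) (l 0))) (y (x (l 0) (l 0)) (x (y (l 0) (l 0)) (y (l 0) (x
  (l 0) (l 0))))))) (y (y (x (x (l 0) (l 0)) (x (l 0) (l 0))) (x (x (l 0) (l 0)) (y (x (l 0) (l 0))
  (x (l 0) (l 0))))) (x (y (x (l 0) (y (l 0) (l 0))) (x (y (x (l 0) (l 0)) (x (l 1) (y (l 0) (l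
  1)))) (y (x (l 0) (l 0)) (x (y (l 1) (x (l 1) (l 1))) (y (l 1) (l 2)))))) (y (y (x (l 0) (l 0))
  (x (x (l 0) (l 0)) (y (l 0) (x (l 0) (l 0))))) (x (y (x (l 1) (l 1)) (l 2)) (l 2))))))))

def bA1 : Bx := ⟨0, 1099511627776, 0, 687194767360, 0, 0⟩

set_option maxRecDepth 100000 in
theorem chkA1 : check FA1 TA1 bA1 = true := by decide +kernel

def TA2 : Tr :=
  (x (x (x (x (x (y (x (y (y (l 0) (l 0)) (y (l 0) (l 0))) (y (y (l 0) (l 0)) (y (l 0) (l 0)))) (x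
  (y (y (l 0) (l 0)) (x (y (l 0) (l 0)) (y (l 0) (l 0)))) (y (y (l 0) (l 0)) (x (y (l 0) (l 0)) (y
  (l 0) (l 0)))))) (y (x (y (y (l 0) (l 0)) (y (l 0) (l 0))) (y (y (l 0) (l 0)) (y (l 0) (l 0))))
  (x (y (y (l 0) (l 0)) (x (y (l 0) (l 0)) (y (l 0) (l 0)))) (y (y (l 0) (l 0)) (x (y (l 0) (l 0))
  (y (l 0) (l 0))))))) (x (y (x (y (y (l 0) (l 0)) (y (l 0) (l 0))) (y (y (l 0) (l 0)) (y (l 0) (l
  0)))) (x (y (y (l 0) (l 0)) (x (y (l 0) (l 0)) (y (l 0) (l 0)))) (y (y (l 0) (l 0)) (x (y (l 0)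
  (l 0)) (y (l 0) (l 0)))))) (y (x (y (x (y (l 0) (l 0)) (y (l 0) (l 0))) (y (l 0) (l 0))) (y (x (y
  (l 0) (l 0)) (y (l 0) (l 0))) (y (l 0) (l 0)))) (x (y (y (l 0) (l 0)) (x (y (l 0) (l 0)) (y (l 0)
  (l 0)))) (y (y (l 0) (l 0)) (x (y (l 0) (l 0)) (y (l 0) (l 0)))))))) (x (y (x (y (x (y (l 0) (l
  0)) (y (l 0) (l 0))) (y (l 0) (l 0))) (y (x (y (l 0) (l 0)) (y (l 0) (l 0))) (y (l 0) (l 0)))) (x
  (x (y (y (l 0) (l 0)) (x (y (l 0) (l 0)) (y (l 0) (l 0)))) (y (y (l 0) (l 0)) (x (y (l 0) (l 0))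
  (y (l 0) (l 0))))) (y (y (l 0) (l 0)) (x (x (y (l 0) (l 0)) (y (l 0) (l 0))) (y (l 0) (l 0))))))
  (y (x (y (x (y (l 0) (l 0)) (y (l 0) (l 0))) (y (l 0) (l 0))) (y (x (y (l 0) (l 0)) (y (l 0) (l
  0))) (x (y (l 0) (l 0)) (y (l 0) (l 0))))) (x (y (y (l 0) (l 0)) (x (y (l 0) (l 0)) (y (l 0) (l
  0)))) (y (x (y (l 0) (l 0)) (y (l 0) (l 0))) (x (y (l 0) (l 0)) (y (l 0) (l 0)))))))) (x (y (x (y
  (x (y (y (l 0) (l 0)) (l 0)) (y (y (l 0) (l 0)) (l 0))) (x (x (y (l 0) (l 0)) (y (l 0) (l 0))) (y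
  (l 0) (l 0)))) (y (x (y (y (l 0) (l 0)) (l 0)) (y (y (l 0) (l 0)) (l 0))) (x (y (l 0) (l 0)) (y
  (l 0) (l 0))))) (x (x (y (x (y (l 0) (l 0)) (y (l 0) (l 0))) (x (y (l 0) (l 0)) (y (l 0) (l 0))))
  (y (x (y (l 0) (l 0)) (y (l 0) (l 0))) (x (y (l 0) (l 0)) (y (l 0) (l 0))))) (y (x (y (l 0) (l
  0)) (y (l 0) (l 0))) (x (x (y (l 0) (l 0)) (y (l 0) (l 0))) (y (l 0) (l 0)))))) (y (x (y (x (y (y
  (l 0) (l 0)) (l 0)) (y (y (l 0) (l 0)) (y (l 0) (l 0)))) (x (y (l 0) (l 0)) (y (l 0) (l 0)))) (y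
  (x (y (y (l 0) (l 0)) (y (l 0) (l 0))) (y (y (l 0) (l 0)) (y (l 0) (l 0)))) (x (y (l 0) (l 0)) (y
  (y (l 0) (l 0)) (l 0))))) (x (y (x (y (l 0) (l 0)) (y (l 0) (l 0))) (x (y (l 0) (l 0)) (y (l 0)
  (l 0)))) (y (x (y (l 0) (l 0)) (y (l 0) (l 0))) (x (y (l 0) (y (l 0) (l 0))) (y (l 0) (y (l 0) (l
  0))))))))) (x (y (x (y (x (y (y (l 0) (l 0)) (y (l 0) (l 0))) (y (y (l 0) (l 0)) (y (l 0) (l
  0)))) (x (x (y (y (l 0) (l 0)) (l 0)) (y (y (l 0) (l 0)) (y (l 0) (l 0)))) (y (y (l 0) (l 0)) (y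
  (l 0) (l 0))))) (y (x (y (y (l 0) (l 0)) (y (l 0) (l 0))) (y (x (y (l 0) (l 0)) (y (l 0) (l 0)))
  (x (y (l 0) (l 0)) (y (l 0) (y (l 0) (l 0)))))) (x (y (x (y (l 0) (l 0)) (y (l 0) (l 0))) (x (y
  (l 0) (l 0)) (y (l 0) (l 0)))) (y (x (y (l 0) (l 0)) (y (y (l 0) (l 0)) (y (l 0) (l 0)))) (x (y
  (l 0) (l 0)) (y (y (l 0) (l 0)) (x (l 0) (y (l 0) (l 0))))))))) (x (x (y (x (y (l 0) (l 0)) (y (l
  0) (l 0))) (x (y (l 0) (y (l 0) (l 0))) (y (l 0) (x (y (l 0) (l 0)) (y (l 0) (l 0)))))) (y (x (y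
  (y (l 0) (l 0)) (l 0)) (y (y (l 0) (l 0)) (y (l 0) (l 0)))) (x (y (l 0) (x (y (l 0) (l 0)) (y (l
  0) (l 0)))) (y (y (l 0) (l 0)) (x (y (l 0) (l 0)) (y (l 0) (l 0))))))) (y (x (y (x (y (l 0) (l
  0)) (y (l 0) (l 0))) (x (y (l 0) (l 0)) (y (l 0) (l 0)))) (y (x (y (l 0) (l 0)) (l 2)) (l 2))) (x
  (x (y (x (y (l 0) (l 0)) (y (l 0) (l 0))) (l 2)) (l 2)) (l 2))))) (y (x (y (x (y (x (y (l 1) (y
  (l 0) (l 0))) (y (y (l 0) (l 0)) (y (l 0) (l 0)))) (x (y (y (l 0) (l 0)) (y (l 0) (l 0))) (y (y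
  (l 0) (l 1)) (x (y (l 0) (l 0)) (y (l 1) (l 1)))))) (y (x (y (y (l 0) (l 0)) (y (l 0) (l 1))) (y
  (y (l 0) (l 1)) (x (y (l 1) (l 1)) (y (l 1) (y (l 1) (l 1)))))) (x (y (x (y (l 0) (l 1)) (y (l 1)
  (y (l 1) (l 1)))) (x (y (y (l 1) (l 1)) (x (y (l 1) (l 1)) (l 2))) (y (x (y (l 1) (l 1)) (l 2))
  (l 2)))) (y (x (y (y (l 1) (l 1)) (l 2)) (l 2)) (l 2))))) (x (y (x (y (y (l 0) (l 0)) (x (y (l 0)
  (l 0)) (y (l 0) (l 1)))) (y (x (y (l 1) (l 1)) (y (y (l 1) (l 1)) (l 2))) (l 2))) (x (y (x (y (l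
  0) (l 0)) (l 2)) (l 2)) (l 2))) (l 2))) (y (x (y (x (y (x (y (l 0) (l 1)) (y (l 1) (l 1))) (x (y
  (l 1) (l 2)) (l 2))) (y (x (y (l 1) (l 1)) (l 2)) (l 2))) (l 2)) (l 2)) (l 2))) (x (l 2) (l
  2)))))

def bA2 : Bx := ⟨0, 962072674304, 687194767360, 377957122048, 0, 0⟩

set_option maxRecDepth 100000 in
theorem chkA2 : check FA2 TA2 bA2 = true := by decide +kernel

def TA3 : Tr :=
  (x (l 0) (x (l 0) (x (l 0) (l 2))))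

def bA3 : Bx := ⟨0, 687194767360, 1065151889408, 34359738368, 0, 0⟩

set_option maxRecDepth 100000 in
theorem chkA3 : check FA3 TA3 bA3 = true := by decide +kernel

def TB1 : Tr :=
  (y (y (y (x (y (x (x (x (x (l 2) (l 2)) (l 2)) (x (l 2) (l 2))) (x (x (l 2) (l 2)) (x (l 2) (l
  2)))) (x (x (x (x (l 2) (l 2)) (l 2)) (x (l 2) (l 2))) (x (x (l 2) (l 2)) (x (l 2) (l 2))))) (y
  (x (y (x (x (l 3) (l 4)) (x (l 5) (l 6))) (x (x (l 3) (l 4)) (x (l 5) (l 6)))) (y (x (x (l 7) (l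
  8)) (x (l 9) (l 10))) (x (x (l 7) (l 8)) (x (l 9) (l 10))))) (x (y (x (x (l 3) (l 4)) (x (l 5) (l
  6))) (x (x (l 3) (l 4)) (x (l 5) (l 6)))) (y (x (x (l 7) (l 8)) (x (l 9) (l 10))) (x (x (l 7) (l
  8)) (x (l 9) (l 10))))))) (x (x (x (x (x (l 2) (l 2)) (l 2)) (x (l 2) (l 2))) (x (x (l 2) (l 2))
  (x (l 2) (l 3)))) (y (x (y (x (x (l 3) (l 4)) (x (l 5) (l 6))) (x (x (l 3) (l 4)) (x (l 5) (l
  6)))) (y (x (x (l 7) (l 8)) (x (l 9) (l 10))) (x (x (l 7) (l 8)) (x (l 9) (l 10))))) (x (x (x (l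
  3) (l 4)) (x (l 5) (l 6))) (y (x (x (l 7) (l 8)) (x (l 9) (l 10))) (x (x (l 7) (l 8)) (x (l 8) (l
  10)))))))) (x (x (x (x (x (l 2) (l 2)) (l 2)) (x (l 2) (l 2))) (x (x (l 2) (x (l 2) (l 2))) (x (x
  (l 2) (l 2)) (x (l 2) (l 3))))) (y (x (y (x (x (l 3) (l 4)) (x (l 5) (l 6))) (x (x (l 3) (l 4))
  (x (l 5) (l 6)))) (y (x (x (l 7) (l 8)) (x (l 9) (l 10))) (x (x (l 7) (l 8)) (x (l 9) (l 10)))))
  (x (x (x (l 4) (l 5)) (x (l 6) (l 7))) (y (x (x (l 7) (l 8)) (x (l 8) (l 10))) (x (x (l 7) (l 7))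
  (x (l 8) (l 9)))))))) (x (x (x (x (x (l 2) (l 2)) (x (l 2) (l 2))) (x (x (l 2) (y (l 2) (l 2)))
  (x (y (l 2) (l 2)) (y (l 2) (l 2))))) (y (x (x (x (l 2) (l 2)) (x (l 2) (l 2))) (x (x (l 2) (l
  2)) (y (l 3) (l 3)))) (x (x (x (l 2) (l 2)) (x (l 2) (l 2))) (y (x (l 2) (l 3)) (x (l 2) (l
  3)))))) (y (x (y (x (x (l 4) (l 5)) (x (l 6) (l 7))) (x (x (l 4) (l 5)) (x (l 6) (l 6)))) (y (x
  (x (l 7) (l 8)) (x (y (l 8) (l 8)) (y (l 9) (l 9)))) (x (x (l 7) (l 8)) (y (x (l 8) (l 9)) (x (l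
  8) (l 9)))))) (x (x (y (x (l 4) (l 5)) (x (l 4) (l 5))) (y (x (l 6) (l 6)) (x (l 5) (l 6)))) (y
  (x (y (x (l 6) (l 7)) (x (l 6) (l 7))) (y (x (l 7) (l 8)) (x (l 7) (l 8)))) (x (x (l 7) (l 8)) (y
  (x (l 7) (l 8)) (x (l 7) (l 7)))))))))

def bB1 : Bx := ⟨103079215104, 996432412672, 0, 549755813888, 0, 0⟩

set_option maxRecDepth 100000 in
theorem chkB1 : check FB1 TB1 bB1 = true := by decide +kernel

def TB2 : Tr :=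
  (x (x (x (x (x (y (l 2) (l 2)) (y (l 2) (l 2))) (x (y (l 2) (l 2)) (y (l 2) (l 2)))) (x (x (y (l
  2) (l 2)) (y (l 2) (l 2))) (x (y (l 2) (l 2)) (y (l 2) (l 2))))) (x (x (y (x (l 2) (l 2)) (x (y
  (l 2) (l 2)) (y (l 2) (l 2)))) (y (y (l 2) (l 2)) (x (y (l 2) (l 2)) (y (l 2) (l 2))))) (y (x (y
  (l 3) (x (l 2) (l 2))) (y (l 3) (x (l 2) (l 2)))) (x (y (x (l 2) (l 2)) (x (l 2) (l 2))) (y (x (l
  2) (l 2)) (x (l 2) (l 2))))))) (x (y (x (y (x (l 4) (l 5)) (x (l 4) (l 4))) (y (x (l 5) (l 6)) (x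
  (l 5) (l 5)))) (x (x (y (x (l 2) (l 2)) (y (l 2) (l 2))) (y (l 4) (y (l 2) (l 2)))) (y (x (l 4)
  (l 5)) (x (y (l 2) (l 2)) (l 4))))) (y (x (y (x (l 6) (l 7)) (x (l 6) (y (l 5) (l 5)))) (y (x (y
  (l 6) (l 6)) (y (l 7) (l 7))) (x (y (l 6) (l 0)) (l 0)))) (x (y (x (l 5) (l 0)) (l 0)) (l 0)))))

def bB2 : Bx := ⟨103079215104, 996432412672, 549755813888, 274877906944, 0, 0⟩

set_option maxRecDepth 100000 in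
theorem chkB2 : check FB2 TB2 bB2 = true := by decide +kernel

def TB3 : Tr :=
  (x (x (x (x (x (y (x (l 1) (l 2)) (y (l 1) (y (l 1) (l 1)))) (y (y (l 2) (l 2)) (y (l 2) (y (l 2)
  (l 2))))) (y (x (y (l 2) (l 2)) (y (l 2) (l 2))) (y (x (l 2) (l 2)) (y (l 2) (x (l 2) (l 2))))))
  (x (y (y (x (l 2) (l 2)) (x (l 2) (l 2))) (x (y (l 2) (y (l 2) (l 2))) (y (l 2) (y (l 2) (y (l 2)
  (l 2)))))) (y (y (x (l 2) (l 2)) (x (l 2) (l 2))) (x (y (l 2) (y (l 2) (y (l 2) (l 2)))) (y (y (l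
  2) (l 2)) (y (l 2) (y (l 2) (l 2)))))))) (x (y (y (x (x (l 2) (l 2)) (x (y (l 2) (l 2)) (y (l 2)
  (l 2)))) (x (x (l 2) (y (l 2) (l 2))) (x (y (l 2) (l 2)) (y (l 2) (l 2))))) (x (x (y (y (l 2) (l
  2)) (y (l 2) (y (l 2) (l 2)))) (y (y (l 2) (l 2)) (y (l 2) (y (l 2) (l 2))))) (y (y (l 2) (x (l
  2) (l 2))) (x (y (l 2) (y (l 2) (l 2))) (y (l 2) (y (l 2) (y (l 2) (l 2)))))))) (y (x (y (x (y (l
  2) (l 2)) (y (l 2) (l 2))) (y (l 2) (l 2))) (y (x (y (l 2) (l 2)) (y (l 2) (l 2))) (x (y (l 2) (l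
  2)) (y (l 2) (l 2))))) (x (y (y (l 2) (x (l 2) (l 2))) (x (y (l 2) (y (l 2) (y (l 2) (l 2)))) (y
  (l 2) (x (y (l 2) (y (l 2) (l 2))) (y (l 2) (y (l 2) (l 2))))))) (y (x (y (l 2) (l 2)) (y (l 2)
  (l 2))) (x (y (l 2) (x (y (l 2) (y (l 2) (l 2))) (y (l 2) (y (l 2) (l 2))))) (y (l 2) (x (y (l 2)
  (y (l 2) (l 2))) (y (l 2) (y (l 2) (l 2))))))))))) (x (x (y (x (y (x (y (l 2) (l 2)) (y (l 2) (l
  2))) (x (y (l 2) (l 2)) (y (l 2) (l 2)))) (y (x (y (l 2) (l 2)) (y (l 2) (l 2))) (x (y (l 2) (l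
  2)) (y (l 2) (l 2))))) (x (y (x (y (l 2) (l 2)) (y (l 2) (l 2))) (x (y (l 2) (x (y (l 2) (y (l 2)
  (l 2))) (y (l 2) (y (l 2) (l 2))))) (y (l 2) (x (y (l 2) (y (l 2) (l 2))) (y (l 2) (y (l 2) (l
  2))))))) (y (x (y (l 2) (l 2)) (y (l 2) (l 2))) (x (y (l 2) (x (y (l 2) (y (l 2) (l 2))) (y (l 2)
  (l 2)))) (y (l 2) (x (y (l 2) (l 2)) (y (l 2) (l 2)))))))) (y (y (x (y (l 2) (l 2)) (y (l 2) (l
  2))) (x (x (y (l 2) (l 2)) (y (l 2) (l 2))) (y (l 2) (l 2)))) (x (y (x (y (l 2) (l 2)) (y (l 2)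
  (l 2))) (x (y (l 2) (x (y (l 2) (l 2)) (y (l 2) (l 0)))) (y (l 2) (l 0)))) (y (x (y (l 2) (l 2))
  (y (l 2) (l 0))) (l 0))))) (y (x (y (x (y (l 2) (l 2)) (y (l 2) (l 2))) (x (y (l 2) (l 2)) (l
  0))) (y (x (y (l 0) (l 0)) (l 0)) (l 0))) (x (l 0) (l 0)))))

def bB3 : Bx := ⟨103079215104, 721554505728, 824633720832, 270582939648, 0, 0⟩

set_option maxRecDepth 100000 in
theorem chkB3 : check FB3 TB3 bB3 = true := by decide +kernel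

def TB5 : Tr :=
  (x (x (x (x (l 1) (l 2)) (x (l 2) (l 2))) (x (x (l 2) (l 2)) (x (l 2) (l 2)))) (x (x (x (l 2) (l
  2)) (x (l 2) (l 2))) (x (l 2) (l 0))))

def bB5 : Bx := ⟨103079215104, 584115552256, 1095216660480, 4294967296, 0, 0⟩

set_option maxRecDepth 100000 in
theorem chkB5 : check FB5 TB5 bB5 = true := by decide +kernel

def TD : Tr :=
  (x (x (x (x (x (x (x (l 0) (l 0)) (x (l 0) (l 0))) (x (l 0) (l 0))) (x (x (l 0) (l 0)) (x (l 0) (l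
  0)))) (x (x (x (l 0) (l 0)) (l 0)) (x (l 0) (l 0)))) (x (x (x (l 0) (l 0)) (x (l 0) (l 0))) (x (x
  (l 0) (l 0)) (x (l 0) (l 0))))) (x (x (x (x (l 0) (l 0)) (x (l 0) (l 0))) (x (x (l 0) (l 0)) (x
  (l 0) (l 0)))) (x (x (x (l 0) (l 0)) (x (l 0) (l 0))) (x (x (l 0) (l 0)) (x (l 0) (l 0))))))

def bD : Bx := ⟨687194767360, 250138895319, 0, 0, 0, 0⟩

set_option maxRecDepth 100000 in
theorem chkD : check FD TD bD = true := by decide +kernel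

end Vale.Agent.CK.G1
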