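import Vale.Agent.CK.IAEv

/-!
# P322, part G1: the expressions that are checked by interval arithmetic

Variables: `Ex.x` is `e = 1 - x`, `Ex.y` is `t = d/(1 - x)`; everything is divided by `e t^2`.
-/

namespace Vale.Agent.CK.G1

open IA

def add := Ex.add
def sub := Ex.sub
def mul := Ex.mul
def inv := Ex.inv
def k := Ex.k
def one : Ex := Ex.k 1 1
def X : Ex := Ex.x
def Y : Ex := Ex.y
/-- `c = e/(2-e)` -/
def cc : Ex := mul X (inv (sub (k 2 1) X))
/-- `u = t^2` -/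
def uu : Ex := mul Y Y
/-- `v = (c t)^2` -/
def vv : Ex := mul (mul cc cc) uu
/-- upper bound of `Phi(t)/t^2`, `u = t^2` -/
def phiU (u : Ex) : Ex := add (k 1 2) (mul u (add (k 1 12) (mul u (add (k 1 30) (mul u (add (k 1 56)
  (mul u (inv (mul (k 90 1) (sub one u))))))))))
/-- lower bound of `Phi(t)/t^2` -/
def phiL (u : Ex) : Ex := add (k 1 2) (mul u (add (k 1 12) (mul u (add (k 1 30) (mul u (k 1 56))))))
/-- lower bound of `L(t)/t` -/
def LhL (u : Ex) : Ex := add (k 2 1) (mul u (add (k 2 3) (mul u (add (k 2 5) (mul u (k 2 7))))))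
/-- `Phi(a)` -/
def ent (a : Ex) : Ex := mul (k 1 2) (add (mul (add one a) (Ex.log (add one a)))
  (mul (sub one a) (Ex.log (sub one a))))
/-- `w(a)` -/
def wE (a : Ex) : Ex := mul (mul (k 2 1) a) (sub (Ex.log (add one a)) (Ex.log (sub one a)))
/-- `Phi(t)/t^2`, exact -/
def phiE : Ex := mul (ent Y) (inv uu)
/-- `L(t)/t`, exact -/
def LhE : Ex := mul (sub (Ex.log (add one Y)) (Ex.log (sub one Y))) (inv Y)
/-- `Phi(t)/t^2 ≤ 0.69315/t^2` -/
def phiT : Ex := mul (k 69315 100000) (inv uu)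
/-- `Phi(t)/t^2 ≥ 0.679/t^2` for `t ≥ 255/256` -/
def phiC : Ex := mul (k 679 1000) (inv uu)
def sg : Ex := sub one (mul X (mul (k 1 4) (sub one uu)))
def sgm : Ex := mul X sg
/-- lower bound of `mu/(e t^2)` -/
def muP : Ex := mul (k 2 1) (inv (mul sg (sub one (mul sgm (add (k 1 2) (mul sgm (add (k 1 6)
  (mul sgm (add (k 1 12) (mul sgm (k 1 20)))))))))))
def ss : Ex := mul (k 1 4) (sub (mul (sub (k 2 1) X) (sub (k 2 1) X)) (mul (mul X X) uu))
/-- `mu/(e t^2)`, exact -/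
def muE : Ex := mul (mul (k 2 1) X) (inv (mul ss (sub (k 0 1) (Ex.log ss))))
/-- `J/(e t^2)` -/
def Jh (ph : Ex) : Ex := add (mul (k 1 2) ph) (mul (mul (k 1 2) cc) (phiU vv))
/-- lower bound of `J` -/
def Jlow (pl : Ex) : Ex := mul (mul X uu) (add (mul (k 1 2) pl) (mul (mul (k 1 2) cc) (phiL vv)))
/-- `(W + mu ys - J P(J))/(e t^2)`, `P(J) = 9.6 + 5.3 J + 10.5 J^2` -/
def EA (ph lh mu : Ex) : Ex :=
  sub (add (add lh (mul cc (LhL vv))) (mul mu (k 2069 10000)))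
    (mul (Jh ph) (add (k 960 100) (mul (mul (mul X uu) (Jh ph)) (add (k 53 10)
      (mul (mul (mul X uu) (Jh ph)) (k 105 10))))))
/-- `d > 1/2` -/
def Out : Ex := sub (mul X Y) (k 1 2)
def lg2 : Ex := Ex.log (k 2 1)
/-- `Phi(x)` -/
def PhiX : Ex := mul (k 1 2) (add (mul (sub (k 2 1) X) (Ex.log (sub (k 2 1) X)))
  (mul X (Ex.log X)))
/-- upper bound of `hbar - ys` -/
def Hup (pl : Ex) : Ex := sub (sub (sub lg2 PhiX) (Jlow pl)) (k 2069 10000)
/-- `(C1 line at s = kap t, H = hbar - ys) - lam J`, divided by `e t^2` -/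
def EB (pu pl : Ex) (k1 k2 : Nat) : Ex :=
  sub (add (mul (mul (k 2 1) (k k1 k2)) (LhL (mul (mul (k k1 k2) Y) (mul (k k1 k2) Y))))
    (mul (mul (mul (k k1 k2) (k k1 k2)) (mul (k 8 1) (inv (mul (sub one (mul (mul (k k1 k2) Y)
      (mul (k k1 k2) Y))) (sub (Ex.log (k 4 1)) (Ex.log (sub one (mul (mul (k k1 k2) Y)
      (mul (k k1 k2) Y)))))))))
      (sub (mul (sub lg2 (ent (mul (k k1 k2) Y))) (inv (k k1 k2))) (mul (Hup pl) (inv X)))))
    (mul (k 11048 1000) (Jh pu))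
/-- `hbar < ys` -/
def Vd (pl : Ex) : Ex := sub (k 0 1) (Hup pl)

def FA1 : List Ex := [EA (phiU uu) (LhL uu) muP, EA (phiU uu) (LhL uu) muE, Out]
def FA2 : List Ex := [EA phiE LhE muP, EA phiE LhE muE, Out]
def FA3 : List Ex := [EA phiT (k 4143 1000) muP, EA phiT (k 4143 1000) muE, Out]

def ks1 : List Nat := [84, 88, 92, 97, 102, 108, 114, 120, 128, 136, 144, 152]
def ks2 : List Nat := [84, 88, 92, 97, 102, 108, 114, 120, 128]
def ks3 : List Nat := [82, 84, 88, 92, 96, 99]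
def FB1 : List Ex := Out :: Vd (phiL uu) :: (ks1.map fun a => EB (phiU uu) (phiL uu) a 100)
def FB2 : List Ex := Out :: Vd (phiL uu) :: (ks2.map fun a => EB (phiU uu) (phiL uu) a 100)
def FB3 : List Ex := Out :: Vd phiE :: (ks3.map fun a => EB phiE phiE a 100)
def FB5 : List Ex := Out :: Vd phiC :: (ks3.map fun a => EB phiT phiC a 100)

/-- one-variable check: `Psi(ys + J) - Psi(ys) ≤ J P(J)`, `Ex.x = r`, `J = Phi(r) - Phi(0.62)` -/
def qs : Ex := k 62 100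
def JD : Ex := sub (ent X) (ent qs)
def ED : Ex := sub (mul JD (add (k 960 100) (mul JD (add (k 53 10) (mul JD (k 105 10))))))
  (sub (wE X) (wE qs))
def FD : List Ex := [ED]

end Vale.Agent.CK.G1
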