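import Vale.Agent.CK.G1
import Vale.Agent.CK.G1B

/-!
# P322, part G1: assembly
-/

namespace Vale.Agent.CK.G1

open Real

theorem partG1 : PartG1 := by
  refine g1_of ?_ (fun x d => g1_A) ?_
  · intro x d h0 hd hd2 h1
    have := g1_T6 h0 hd hd2 h1
    unfold hb
    norm_num at this ⊢
    linarith
  · intro x d h0 hd hd2 h1 hv
    obtain ⟨s, hs0, hs1, hs⟩ := g1_B h0 hd hd2 h1 hv
    refine ⟨s, hs0, hs1, ?_⟩
    have e : log 2 - Phi x - hb x d = (Phi (x + d) + Phi (x - d)) / 2 - Phi x := by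
      unfold hb
      ring
    rw [e]
    exact hs

end Vale.Agent.CK.G1
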