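import Vale.Agent.CK.Defs

/-!
# P322: the tangent certificate

For `0 < q < p < 1`, `p + q ≤ 1` and `mu = 2 (p - q)^2 / (s log (1/s))`, `s = (1 - p)(1 - q)`, the
function `F(u,v) = W(u,v) + (mu/2)(h(u) + h(v))` lies above its tangent plane at `(p,q)`, and this
plane passes through the origin.
-/

namespace Vale.Agent.CK.Tan

open Finset Real Set

/-! ## Two calculus lemmas -/

/-- On `[0,r]`: if the second derivative changes sign only from `-` to `+`, `f(0) ≥ 0` and
`f(r) = f'(r) = 0`, then `f ≥ 0`. -/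
theorem left_nonneg {f f' f'' : ℝ → ℝ} {r : ℝ}
    (hc : ContinuousOn f (Icc 0 r))
    (hf : ∀ s, 0 < s → s ≤ r → HasDerivAt f (f' s) s)
    (hf' : ∀ s, 0 < s → s ≤ r → HasDerivAt f' (f'' s) s)
    (hsgn : ∀ s t, 0 < s → s ≤ t → t ≤ r → 0 ≤ f'' s → 0 ≤ f'' t)
    (hf0 : 0 ≤ f 0) (hfr : f r = 0) (hfr' : f' r = 0) :
    ∀ s, 0 ≤ s → s ≤ r → 0 ≤ f s := by
  intro s hs0 hsr
  by_contra hneg
  push Not at hneg
  have hs : 0 < s := by
    rcases hs0.lt_or_eq with h | h
    · exact h
    · rw [← h] at hneg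
      linarith
  have hslt : s < r := by
    rcases hsr.lt_or_eq with h | h
    · exact h
    · rw [h] at hneg
      linarith
  obtain ⟨c, hc1, hc2⟩ := exists_hasDerivAt_eq_slope f f' hs
    (hc.mono (Icc_subset_Icc le_rfl hsr)) (fun x hx => hf x hx.1 (hx.2.le.trans hsr))
  have hfc : f' c < 0 := by
    rw [hc2]
    apply div_neg_of_neg_of_pos <;> linarith
  have key : ∀ t, s ≤ t → t ≤ r → f' t ≤ 0 := by
    intro t ht1 ht2
    have ht0 : 0 < t := by linarith
    by_cases h : 0 ≤ f'' t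
    · have hmono : MonotoneOn f' (Icc t r) := by
        refine monotoneOn_of_deriv_nonneg (convex_Icc t r) ?_ ?_ ?_
        · intro x hx
          exact (hf' x (by linarith [hx.1]) hx.2).continuousAt.continuousWithinAt
        · intro x hx
          rw [interior_Icc] at hx
          exact (hf' x (by linarith [hx.1]) hx.2.le).differentiableAt.differentiableWithinAt
        · intro x hx
          rw [interior_Icc] at hx
          rw [(hf' x (by linarith [hx.1]) hx.2.le).deriv]
          exact hsgn t x ht0 hx.1.le hx.2.le h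
      have := hmono ⟨le_rfl, ht2⟩ ⟨ht2, le_rfl⟩ ht2
      rw [hfr'] at this
      exact this
    · have hlt : ∀ x, 0 < x → x ≤ t → f'' x < 0 := by
        intro x hx hxt
        by_contra hcon
        exact h (hsgn x t hx hxt ht2 (not_lt.1 hcon))
      have hanti : AntitoneOn f' (Icc c t) := by
        refine antitoneOn_of_deriv_nonpos (convex_Icc c t) ?_ ?_ ?_
        · intro x hx
          exact (hf' x (by linarith [hx.1, hc1.1]) (hx.2.trans ht2)).continuousAt.continuousWithinAt
        · intro x hx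
          rw [interior_Icc] at hx
          exact (hf' x (by linarith [hx.1, hc1.1])
            (hx.2.le.trans ht2)).differentiableAt.differentiableWithinAt
        · intro x hx
          rw [interior_Icc] at hx
          rw [(hf' x (by linarith [hx.1, hc1.1]) (hx.2.le.trans ht2)).deriv]
          exact (hlt x (by linarith [hx.1, hc1.1]) hx.2.le).le
      have hct : c ≤ t := by linarith [hc1.2]
      have := hanti ⟨le_rfl, hct⟩ ⟨hct, le_rfl⟩ hct
      linarith
  have hanti : AntitoneOn f (Icc s r) := by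
    refine antitoneOn_of_deriv_nonpos (convex_Icc s r) ?_ ?_ ?_
    · exact hc.mono (Icc_subset_Icc hs0 le_rfl)
    · intro x hx
      rw [interior_Icc] at hx
      exact (hf x (by linarith [hx.1]) hx.2.le).differentiableAt.differentiableWithinAt
    · intro x hx
      rw [interior_Icc] at hx
      rw [(hf x (by linarith [hx.1]) hx.2.le).deriv]
      exact key x hx.1.le hx.2.le
  have := hanti ⟨le_rfl, hsr⟩ ⟨hsr, le_rfl⟩ hsr
  linarith

/-- On `[r,b)`: `f'' ≥ 0` and `f(r) = f'(r) = 0` imply `f ≥ 0`. -/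
theorem right_nonneg {f f' f'' : ℝ → ℝ} {r b : ℝ}
    (hf : ∀ s, r ≤ s → s < b → HasDerivAt f (f' s) s)
    (hf' : ∀ s, r ≤ s → s < b → HasDerivAt f' (f'' s) s)
    (hpos : ∀ s, r ≤ s → s < b → 0 ≤ f'' s)
    (hfr : f r = 0) (hfr' : f' r = 0) :
    ∀ s, r ≤ s → s < b → 0 ≤ f s := by
  intro s hs hsb
  have hmono' : MonotoneOn f' (Icc r s) := by
    refine monotoneOn_of_deriv_nonneg (convex_Icc r s) ?_ ?_ ?_
    · intro x hx
      exact (hf' x hx.1 (by linarith [hx.2])).continuousAt.continuousWithinAt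
    · intro x hx
      rw [interior_Icc] at hx
      exact (hf' x hx.1.le (by linarith [hx.2])).differentiableAt.differentiableWithinAt
    · intro x hx
      rw [interior_Icc] at hx
      rw [(hf' x hx.1.le (by linarith [hx.2])).deriv]
      exact hpos x hx.1.le (by linarith [hx.2])
  have hmono : MonotoneOn f (Icc r s) := by
    refine monotoneOn_of_deriv_nonneg (convex_Icc r s) ?_ ?_ ?_
    · intro x hx
      exact (hf x hx.1 (by linarith [hx.2])).continuousAt.continuousWithinAt
    · intro x hx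
      rw [interior_Icc] at hx
      exact (hf x hx.1.le (by linarith [hx.2])).differentiableAt.differentiableWithinAt
    · intro x hx
      rw [interior_Icc] at hx
      rw [(hf x hx.1.le (by linarith [hx.2])).deriv]
      have := hmono' ⟨le_rfl, hs⟩ ⟨hx.1.le, hx.2.le⟩ hx.1.le
      rw [hfr'] at this
      exact this
  have := hmono ⟨le_rfl, hs⟩ ⟨hs, le_rfl⟩ hs
  linarith

/-! ## Basic functions -/

theorem one_sub_sq_pos {r : ℝ} (h0 : -1 < r) (h1 : r < 1) : 0 < 1 - r ^ 2 := by nlinarith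

theorem LL_hasDerivAt {r : ℝ} (h0 : -1 < r) (h1 : r < 1) :
    HasDerivAt LL (2 / (1 - r ^ 2)) r := by
  unfold LL
  have h2 : HasDerivAt (fun r : ℝ => log (1 + r)) (1 / (1 + r)) r :=
    ((hasDerivAt_id r).const_add 1).log (by simpa using (by linarith : (1 : ℝ) + r ≠ 0))
  have h3 : HasDerivAt (fun r : ℝ => log (1 - r)) (-1 / (1 - r)) r :=
    ((hasDerivAt_id r).const_sub 1).log (by simpa using (by linarith : (1 : ℝ) - r ≠ 0))
  convert! h2.sub h3 using 1
  have e1 : (1 : ℝ) + r ≠ 0 := by linarith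
  have e2 : (1 : ℝ) - r ≠ 0 := by linarith
  have e3 : (1 : ℝ) - r ^ 2 = (1 + r) * (1 - r) := by ring
  rw [e3]
  field_simp
  ring

/-- `w(r) = 2 r L(r)` -/
noncomputable def w (r : ℝ) : ℝ := 2 * r * LL r

/-- `w'` -/
noncomputable def w' (r : ℝ) : ℝ := 2 * LL r + 4 * r / (1 - r ^ 2)

theorem w_hasDerivAt {s : ℝ} (h0 : -1 < s) (h1 : s < 1) : HasDerivAt w (w' s) s := by
  unfold w w'
  have e1 : HasDerivAt (fun s : ℝ => 2 * s) 2 s := by
    simpa using (hasDerivAt_id s).const_mul 2
  have e2 := e1.mul (LL_hasDerivAt h0 h1)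
  convert! e2 using 1
  ring

theorem w'_hasDerivAt {s : ℝ} (h0 : -1 < s) (h1 : s < 1) :
    HasDerivAt w' (8 / (1 - s ^ 2) ^ 2) s := by
  unfold w'
  have e1 := (LL_hasDerivAt h0 h1).const_mul 2
  have e2 : HasDerivAt (fun s : ℝ => 4 * s) 4 s := by
    simpa using (hasDerivAt_id s).const_mul 4
  have e3 : HasDerivAt (fun s : ℝ => 1 - s ^ 2) (-(2 * s)) s := by
    simpa using (hasDerivAt_pow 2 s).const_sub 1
  have h := (one_sub_sq_pos h0 h1)
  have e4 := e1.add (e2.div e3 h.ne')
  convert! e4 using 1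
  field_simp
  ring

theorem Phi_eq {r : ℝ} (h0 : -1 < r) (h1 : r < 1) :
    Phi r = ((1 + r) * log (1 + r) + (1 - r) * log (1 - r)) / 2 := by
  unfold Phi
  rw [binEntropy_eq_negMulLog_add_negMulLog_one_sub]
  unfold negMulLog
  have e1 : 1 - (1 + r) / 2 = (1 - r) / 2 := by ring
  rw [e1, log_div (by linarith) two_ne_zero, log_div (by linarith) two_ne_zero]
  ring

theorem Phi_hasDerivAt {r : ℝ} (h0 : -1 < r) (h1 : r < 1) : HasDerivAt Phi (LL r / 2) r := by
  unfold Phi
  have e1 : HasDerivAt (fun r : ℝ => (1 + r) / 2) (1 / 2) r := by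
    simpa using ((hasDerivAt_id r).const_add 1).div_const 2
  have e2 := (hasDerivAt_binEntropy (p := (1 + r) / 2) (by linarith) (by linarith)).comp r e1
  have e3 := e2.const_sub (log 2)
  convert! e3 using 1
  unfold LL
  have e4 : 1 - (1 + r) / 2 = (1 - r) / 2 := by ring
  rw [e4, log_div (by linarith) two_ne_zero, log_div (by linarith) two_ne_zero]
  ring

theorem Phi'_hasDerivAt {r : ℝ} (h0 : -1 < r) (h1 : r < 1) :
    HasDerivAt (fun r => LL r / 2) (1 / (1 - r ^ 2)) r := by
  convert! (LL_hasDerivAt h0 h1).div_const 2 using 1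
  have := one_sub_sq_pos h0 h1
  field_simp

/-- `ℓ(r) = - log (1 - r^2)` -/
noncomputable def ell (r : ℝ) : ℝ := -log (1 - r ^ 2)

theorem ell_eq {r : ℝ} (h0 : -1 < r) (h1 : r < 1) : ell r = -log (1 + r) - log (1 - r) := by
  unfold ell
  rw [show 1 - r ^ 2 = (1 + r) * (1 - r) by ring, log_mul (by linarith) (by linarith)]
  ring

theorem Phi_id {r : ℝ} (h0 : -1 < r) (h1 : r < 1) : r * (LL r / 2) - Phi r = ell r / 2 := by
  rw [Phi_eq h0 h1, ell_eq h0 h1]
  unfold LL
  ring

theorem w_id {r : ℝ} (h0 : -1 < r) (h1 : r < 1) : r * w' r - w r = 4 * r ^ 2 / (1 - r ^ 2) := by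
  unfold w w'
  have := one_sub_sq_pos h0 h1
  field_simp
  ring

theorem Phi_zero : Phi 0 = 0 := by
  rw [Phi_eq (by norm_num) (by norm_num)]
  simp

theorem w_zero : w 0 = 0 := by simp [w]

theorem LL_zero : LL 0 = 0 := by simp [LL]

theorem ell_pos {r : ℝ} (h0 : 0 < r) (h1 : r < 1) : 0 < ell r := by
  unfold ell
  have := one_sub_sq_pos (by linarith : -1 < r) h1
  have := log_neg this (by nlinarith)
  linarith

/-- `r^2 ≤ ℓ(r)` -/
theorem sq_le_ell {r : ℝ} (h0 : -1 < r) (h1 : r < 1) : r ^ 2 ≤ ell r := by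
  unfold ell
  have := log_le_sub_one_of_pos (one_sub_sq_pos h0 h1)
  linarith

/-- `ℓ(r) (1 - r^2) ≤ r^2` -/
theorem ell_le {r : ℝ} (h0 : -1 < r) (h1 : r < 1) : ell r * (1 - r ^ 2) ≤ r ^ 2 := by
  unfold ell
  have h := one_sub_sq_pos h0 h1
  have h2 := one_sub_inv_le_log_of_pos h
  have h3 : (1 - (1 - r ^ 2)⁻¹) * (1 - r ^ 2) ≤ log (1 - r ^ 2) * (1 - r ^ 2) :=
    mul_le_mul_of_nonneg_right h2 h.le
  have h4 : (1 - (1 - r ^ 2)⁻¹) * (1 - r ^ 2) = -r ^ 2 := by
    field_simp
    ring
  rw [h4] at h3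
  linarith

/-- Bregman divergence of `Phi`: `B_Phi(s,r) ≥ (ℓ(r)/(2 r^2)) (s - r)^2`. -/
theorem BPhi_ge {r : ℝ} (h0 : 0 < r) (h1 : r < 1) {s : ℝ} (hs0 : 0 ≤ s) (hs1 : s < 1) :
    ell r / (2 * r ^ 2) * (s - r) ^ 2 ≤ Phi s - Phi r - LL r / 2 * (s - r) := by
  have hr2 : 0 < r ^ 2 := by positivity
  set c : ℝ := ell r / (2 * r ^ 2) with hc
  have hd1 : ∀ x, -1 < x → x < 1 →
      HasDerivAt (fun x => Phi x - Phi r - LL r / 2 * (x - r) - c * (x - r) ^ 2)
        (LL x / 2 - LL r / 2 - 2 * c * (x - r)) x := by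
    intro x hx0 hx1
    have e1 := (Phi_hasDerivAt hx0 hx1).sub_const (Phi r)
    have e2 : HasDerivAt (fun x : ℝ => x - r) 1 x := (hasDerivAt_id x).sub_const r
    have e3 := (e1.sub (e2.const_mul (LL r / 2))).sub ((e2.pow 2).const_mul c)
    convert! e3 using 1
    norm_num
    ring
  have hd2 : ∀ x, -1 < x → x < 1 →
      HasDerivAt (fun x => LL x / 2 - LL r / 2 - 2 * c * (x - r)) (1 / (1 - x ^ 2) - 2 * c) x := by
    intro x hx0 hx1
    have e1 := (Phi'_hasDerivAt hx0 hx1).sub_const (LL r / 2)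
    have e2 : HasDerivAt (fun x : ℝ => x - r) 1 x := (hasDerivAt_id x).sub_const r
    have e3 := e1.sub (e2.const_mul (2 * c))
    convert! e3 using 1
    ring
  have hc2 : 2 * c = ell r / r ^ 2 := by
    rw [hc]
    field_simp
  have hrr : 2 * c ≤ 1 / (1 - r ^ 2) := by
    rw [hc2, div_le_div_iff₀ hr2 (one_sub_sq_pos (by linarith) h1)]
    linarith [ell_le (by linarith : -1 < r) h1]
  have hmono : ∀ x y : ℝ, 0 ≤ x → x ≤ y → y < 1 → 1 / (1 - x ^ 2) ≤ 1 / (1 - y ^ 2) := by
    intro x y hx hxy hy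
    apply one_div_le_one_div_of_le (one_sub_sq_pos (by linarith) hy)
    nlinarith
  have hf0 : Phi 0 - Phi r - LL r / 2 * (0 - r) - c * (0 - r) ^ 2 = 0 := by
    have h3 : c * (0 - r) ^ 2 = ell r / 2 := by
      rw [hc]
      field_simp
      ring
    rw [h3, Phi_zero, ← Phi_id (by linarith : -1 < r) h1]
    ring
  rcases le_total s r with hsr | hsr
  · have := left_nonneg (f := fun x => Phi x - Phi r - LL r / 2 * (x - r) - c * (x - r) ^ 2)
      (f' := fun x => LL x / 2 - LL r / 2 - 2 * c * (x - r))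
      (f'' := fun x => 1 / (1 - x ^ 2) - 2 * c) (r := r)
      (fun x hx => (hd1 x (by linarith [hx.1]) (by linarith [hx.2])).continuousAt.continuousWithinAt)
      (fun x hx0 hx1 => hd1 x (by linarith) (by linarith))
      (fun x hx0 hx1 => hd2 x (by linarith) (by linarith))
      (fun x y hx hxy hy h => by
        have := hmono x y hx.le hxy (by linarith)
        linarith)
      (by rw [hf0]) (by simp) (by simp) s hs0 hsr
    linarith
  · have := right_nonneg (f := fun x => Phi x - Phi r - LL r / 2 * (x - r) - c * (x - r) ^ 2)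
      (f' := fun x => LL x / 2 - LL r / 2 - 2 * c * (x - r))
      (f'' := fun x => 1 / (1 - x ^ 2) - 2 * c) (r := r) (b := 1)
      (fun x hx0 hx1 => hd1 x (by linarith) (by linarith))
      (fun x hx0 hx1 => hd2 x (by linarith) (by linarith))
      (fun x hx hx1 => by
        have := hmono r x h0.le hx (by linarith)
        linarith)
      (by simp) (by simp) s hsr hs1
    linarith

/-- Bregman divergences: `B_w(s,r) ≥ θ B_Phi(s,r)` when `θ ℓ(r)/2 ≤ 4 r^2/(1-r^2)` -/
theorem Bw_ge {r θ : ℝ} (h0 : 0 < r) (h1 : r < 1) (hθ : θ * (ell r / 2) ≤ 4 * r ^ 2 / (1 - r ^ 2))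
    {s : ℝ} (hs0 : 0 ≤ s) (hs1 : s < 1) :
    θ * (Phi s - Phi r - LL r / 2 * (s - r)) ≤ w s - w r - w' r * (s - r) := by
  have hr2 : 0 < r ^ 2 := by positivity
  have hd1 : ∀ x, -1 < x → x < 1 →
      HasDerivAt (fun x => w x - w r - w' r * (x - r) - θ * (Phi x - Phi r - LL r / 2 * (x - r)))
        (w' x - w' r - θ * (LL x / 2 - LL r / 2)) x := by
    intro x hx0 hx1
    have e1 := (Phi_hasDerivAt hx0 hx1).sub_const (Phi r)
    have e2 : HasDerivAt (fun x : ℝ => x - r) 1 x := (hasDerivAt_id x).sub_const r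
    have e3 := (e1.sub (e2.const_mul (LL r / 2)))
    have e4 := (((w_hasDerivAt hx0 hx1).sub_const (w r)).sub (e2.const_mul (w' r))).sub
      (e3.const_mul θ)
    convert! e4 using 1
    ring
  have hd2 : ∀ x, -1 < x → x < 1 →
      HasDerivAt (fun x => w' x - w' r - θ * (LL x / 2 - LL r / 2))
        (8 / (1 - x ^ 2) ^ 2 - θ * (1 / (1 - x ^ 2))) x := by
    intro x hx0 hx1
    have e1 := (Phi'_hasDerivAt hx0 hx1).sub_const (LL r / 2)
    have e3 := ((w'_hasDerivAt hx0 hx1).sub_const (w' r)).sub (e1.const_mul θ)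
    convert! e3 using 1
  have hsg : ∀ x, 0 ≤ x → x < 1 →
      (0 ≤ 8 / (1 - x ^ 2) ^ 2 - θ * (1 / (1 - x ^ 2)) ↔ θ * (1 - x ^ 2) ≤ 8) := by
    intro x hx0 hx1
    have h := one_sub_sq_pos (by linarith : -1 < x) hx1
    have e : 8 / (1 - x ^ 2) ^ 2 - θ * (1 / (1 - x ^ 2)) =
        (8 - θ * (1 - x ^ 2)) / (1 - x ^ 2) ^ 2 := by
      field_simp
    rw [e]
    constructor
    · intro h2
      by_contra h3
      push Not at h3
      have : (8 - θ * (1 - x ^ 2)) / (1 - x ^ 2) ^ 2 < 0 :=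
        div_neg_of_neg_of_pos (by linarith) (by positivity)
      linarith
    · intro h2
      exact div_nonneg (by linarith) (by positivity)
  have hmono : ∀ x y : ℝ, 0 ≤ x → x ≤ y → y < 1 → θ * (1 - x ^ 2) ≤ 8 → θ * (1 - y ^ 2) ≤ 8 := by
    intro x y hx hxy hy h
    rcases le_total θ 0 with h2 | h2
    · have := one_sub_sq_pos (by linarith : -1 < y) hy
      nlinarith
    · have : θ * (1 - y ^ 2) ≤ θ * (1 - x ^ 2) := by
        apply mul_le_mul_of_nonneg_left _ h2
        nlinarith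
      linarith
  have hrr : θ * (1 - r ^ 2) ≤ 8 := by
    rcases le_total θ 0 with h2 | h2
    · have := one_sub_sq_pos (by linarith : -1 < r) h1
      nlinarith
    · have h3 := one_sub_sq_pos (by linarith : -1 < r) h1
      have h4 : θ * (ell r / 2) * (1 - r ^ 2) ≤ 4 * r ^ 2 := by
        rw [le_div_iff₀ h3] at hθ
        exact hθ
      have h5 : θ * (1 - r ^ 2) * r ^ 2 ≤ θ * (1 - r ^ 2) * ell r :=
        mul_le_mul_of_nonneg_left (sq_le_ell (by linarith) h1) (by positivity)
      have h6 : θ * (1 - r ^ 2) * r ^ 2 ≤ 8 * r ^ 2 := by linarith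
      exact le_of_mul_le_mul_right h6 hr2
  have hf0 : w 0 - w r - w' r * (0 - r) - θ * (Phi 0 - Phi r - LL r / 2 * (0 - r)) =
      4 * r ^ 2 / (1 - r ^ 2) - θ * (ell r / 2) := by
    rw [← w_id (by linarith : -1 < r) h1, ← Phi_id (by linarith : -1 < r) h1, w_zero, Phi_zero]
    ring
  rcases le_total s r with hsr | hsr
  · have := left_nonneg
      (f := fun x => w x - w r - w' r * (x - r) - θ * (Phi x - Phi r - LL r / 2 * (x - r)))
      (f' := fun x => w' x - w' r - θ * (LL x / 2 - LL r / 2))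
      (f'' := fun x => 8 / (1 - x ^ 2) ^ 2 - θ * (1 / (1 - x ^ 2))) (r := r)
      (fun x hx => (hd1 x (by linarith [hx.1]) (by linarith [hx.2])).continuousAt.continuousWithinAt)
      (fun x hx0 hx1 => hd1 x (by linarith) (by linarith))
      (fun x hx0 hx1 => hd2 x (by linarith) (by linarith))
      (fun x y hx hxy hy h => by
        rw [hsg x hx.le (by linarith)] at h
        rw [hsg y (by linarith) (by linarith)]
        exact hmono x y hx.le hxy (by linarith) h)
      (by rw [hf0]; linarith) (by simp) (by simp) s hs0 hsr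
    linarith
  · have := right_nonneg
      (f := fun x => w x - w r - w' r * (x - r) - θ * (Phi x - Phi r - LL r / 2 * (x - r)))
      (f' := fun x => w' x - w' r - θ * (LL x / 2 - LL r / 2))
      (f'' := fun x => 8 / (1 - x ^ 2) ^ 2 - θ * (1 / (1 - x ^ 2))) (r := r) (b := 1)
      (fun x hx0 hx1 => hd1 x (by linarith) (by linarith))
      (fun x hx0 hx1 => hd2 x (by linarith) (by linarith))
      (fun x hx hx1 => by
        rw [hsg x (by linarith) hx1]
        exact hmono r x h0.le hx hx1 hrr)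
      (by simp) (by simp) s hsr hs1
    linarith

/-- `ℓ(r)/r^2` is nondecreasing -/
theorem ell_div_mono {x y : ℝ} (h0 : 0 < y) (h1 : y ≤ x) (h2 : x < 1) :
    ell y / y ^ 2 ≤ ell x / x ^ 2 := by
  have hx0 : 0 < x := by linarith
  rw [div_le_div_iff₀ (by positivity) (by positivity)]
  unfold ell
  have hA := one_sub_sq_pos (by linarith : -1 < x) h2
  have hB := one_sub_sq_pos (by linarith : -1 < y) (by linarith : y < 1)
  -- `log (1 - y^2) ≥ (y^2/x^2) log (1 - x^2)`
  have hconc := strictConcaveOn_log_Ioi.concaveOn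
  have ht0 : 0 ≤ y ^ 2 / x ^ 2 := by positivity
  have ht1 : y ^ 2 / x ^ 2 ≤ 1 := by
    rw [div_le_one (by positivity)]
    nlinarith
  have h := hconc.2 (x := 1 - x ^ 2) (y := 1) (by simpa using hA) (by simp) ht0
    (by linarith : (0 : ℝ) ≤ 1 - y ^ 2 / x ^ 2) (by ring)
  simp only [smul_eq_mul, log_one, mul_zero, add_zero] at h
  have e : y ^ 2 / x ^ 2 * (1 - x ^ 2) + (1 - y ^ 2 / x ^ 2) * 1 = 1 - y ^ 2 := by
    field_simp
    ring
  rw [e] at h
  have h3 : y ^ 2 * log (1 - x ^ 2) ≤ log (1 - y ^ 2) * x ^ 2 := by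
    have := mul_le_mul_of_nonneg_right h (by positivity : 0 ≤ x ^ 2)
    calc y ^ 2 * log (1 - x ^ 2) = y ^ 2 / x ^ 2 * log (1 - x ^ 2) * x ^ 2 := by field_simp
      _ ≤ _ := this
  nlinarith

/-- `θ` is nondecreasing -/
theorem theta_mono {x y θ : ℝ} (h0 : 0 < y) (h1 : y ≤ x) (h2 : x < 1)
    (hθ : θ * (ell y / 2) ≤ 4 * y ^ 2 / (1 - y ^ 2)) (hθ0 : 0 ≤ θ) :
    θ * (ell x / 2) ≤ 4 * x ^ 2 / (1 - x ^ 2) := by
  have hx0 : 0 < x := by linarith
  have hA := one_sub_sq_pos (by linarith : -1 < x) h2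
  have hB := one_sub_sq_pos (by linarith : -1 < y) (by linarith : y < 1)
  -- `g(t) = (1-t)(-log(1-t))/t` is nonincreasing; equivalently in `s = 1 - t`
  have key : ell x * (1 - x ^ 2) * y ^ 2 ≤ ell y * (1 - y ^ 2) * x ^ 2 := by
    unfold ell
    have hmono : MonotoneOn (fun s : ℝ => s * (-log s) / (1 - s)) (Ioo 0 1) := by
      refine monotoneOn_of_deriv_nonneg (convex_Ioo 0 1) ?_ ?_ ?_
      · intro s hs
        have e1 := ((hasDerivAt_id s).mul (hasDerivAt_log hs.1.ne').neg)
        have e2 : HasDerivAt (fun s : ℝ => 1 - s) (-1) s := (hasDerivAt_id s).const_sub 1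
        exact (e1.div e2 (by linarith [hs.2])).continuousAt.continuousWithinAt
      · intro s hs
        rw [interior_Ioo] at hs
        have e1 := ((hasDerivAt_id s).mul (hasDerivAt_log hs.1.ne').neg)
        have e2 : HasDerivAt (fun s : ℝ => 1 - s) (-1) s := (hasDerivAt_id s).const_sub 1
        exact (e1.div e2 (by linarith [hs.2])).differentiableAt.differentiableWithinAt
      · intro s hs
        rw [interior_Ioo] at hs
        have e1 := ((hasDerivAt_id s).mul (hasDerivAt_log hs.1.ne').neg)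
        have e2 : HasDerivAt (fun s : ℝ => 1 - s) (-1) s := (hasDerivAt_id s).const_sub 1
        have e3 := e1.div e2 (by linarith [hs.2])
        have e4 : deriv (fun s : ℝ => s * (-log s) / (1 - s)) s =
            (s - 1 - log s) / (1 - s) ^ 2 := by
          have h := e3.deriv
          simp only [Pi.mul_apply, Pi.neg_apply, id] at h
          rw [show deriv (fun s : ℝ => s * (-log s) / (1 - s)) s = _ from h]
          congr 1
          have := hs.1.ne'
          field_simp
          ring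
        rw [e4]
        have := log_le_sub_one_of_pos hs.1
        apply div_nonneg <;> nlinarith
    have h := hmono (a := 1 - x ^ 2) (b := 1 - y ^ 2) ⟨hA, by nlinarith⟩ ⟨hB, by nlinarith⟩
      (by nlinarith)
    simp only at h
    rw [div_le_div_iff₀ (by nlinarith) (by nlinarith)] at h
    nlinarith
  rw [le_div_iff₀ hA]
  rw [le_div_iff₀ hB] at hθ
  have hy2 : 0 < y ^ 2 := by positivity
  have h3 : θ / 2 * (ell x * (1 - x ^ 2) * y ^ 2) ≤ θ / 2 * (ell y * (1 - y ^ 2) * x ^ 2) :=
    mul_le_mul_of_nonneg_left key (by positivity)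
  have h4 : θ * (ell y / 2) * (1 - y ^ 2) * x ^ 2 ≤ 4 * y ^ 2 * x ^ 2 :=
    mul_le_mul_of_nonneg_right hθ (by positivity)
  have h5 : (θ * (ell x / 2) * (1 - x ^ 2)) * y ^ 2 ≤ 4 * x ^ 2 * y ^ 2 := by nlinarith
  exact le_of_mul_le_mul_right h5 hy2

theorem phi_aux {a : ℝ} (h0 : 0 < a) (h1 : a ≤ 1 / 2) :
    a ^ 2 * (-log a) ≤ (1 - a) ^ 2 * (-log (1 - a)) := by
  -- `D(a) = (1-a)^2 (-log(1-a)) - a^2 (-log a)` is concave on `[0,1/2]`, zero at the end points
  have hd0 : ∀ x, 0 < x → HasDerivAt (fun x : ℝ => x ^ 2 * (-log x)) (-(2 * x * log x) - x) x := by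
    intro x hx
    have e1 := (hasDerivAt_pow 2 x).mul (hasDerivAt_log hx.ne').neg
    convert! e1 using 1
    simp
    field_simp
    ring
  have hd1 : ∀ x, 0 < x → HasDerivAt (fun x : ℝ => -(2 * x * log x) - x) (-2 * log x - 3) x := by
    intro x hx
    have e0 : HasDerivAt (fun x : ℝ => 2 * x) 2 x := by
      simpa using (hasDerivAt_id x).const_mul 2
    have e1 := (e0.mul (hasDerivAt_log hx.ne')).neg.sub (hasDerivAt_id x)
    convert! e1 using 1
    simp
    field_simp
    ring
  have hd0' : ∀ x, x < 1 → HasDerivAt (fun x : ℝ => (1 - x) ^ 2 * (-log (1 - x)))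
      (-(-(2 * (1 - x) * log (1 - x)) - (1 - x))) x := by
    intro x hx
    have e0 : HasDerivAt (fun x : ℝ => 1 - x) (-1) x := (hasDerivAt_id x).const_sub 1
    have e1 := (hd0 (1 - x) (by linarith)).comp x e0
    convert! e1 using 1
    ring
  have hd1' : ∀ x, x < 1 → HasDerivAt (fun x : ℝ => -(-(2 * (1 - x) * log (1 - x)) - (1 - x)))
      (-2 * log (1 - x) - 3) x := by
    intro x hx
    have e0 : HasDerivAt (fun x : ℝ => 1 - x) (-1) x := (hasDerivAt_id x).const_sub 1
    have e1 := ((hd1 (1 - x) (by linarith)).comp x e0).neg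
    convert! e1 using 1
    ring
  set D : ℝ → ℝ := fun x => (1 - x) ^ 2 * (-log (1 - x)) - x ^ 2 * (-log x) with hD
  set D1 : ℝ → ℝ := fun x => -(-(2 * (1 - x) * log (1 - x)) - (1 - x)) -
    (-(2 * x * log x) - x) with hD1
  have hDd : ∀ x, 0 < x → x < 1 → HasDerivAt D (D1 x) x := fun x hx0 hx1 =>
    (hd0' x hx1).sub (hd0 x hx0)
  have hDd1 : ∀ x, 0 < x → x < 1 →
      HasDerivAt D1 ((-2 * log (1 - x) - 3) - (-2 * log x - 3)) x := fun x hx0 hx1 =>
    (hd1' x hx1).sub (hd1 x hx0)
  have hcont : ContinuousOn D (Icc 0 (1 / 2)) := by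
    have hx : ∀ x : ℝ, x ^ 2 * (-log x) = x * negMulLog x := by
      intro x
      unfold negMulLog
      ring
    have : D = fun x => (1 - x) * negMulLog (1 - x) - x * negMulLog x := by
      funext x
      rw [hD]
      simp only [hx]
    rw [this]
    have c1 : Continuous fun x : ℝ => negMulLog x := continuous_negMulLog
    have c2 : Continuous fun x : ℝ => negMulLog (1 - x) :=
      continuous_negMulLog.comp (continuous_const.sub continuous_id)
    exact (((continuous_const.sub continuous_id).mul c2).sub (continuous_id.mul c1)).continuousOn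
  have hconc : ConcaveOn ℝ (Icc (0 : ℝ) (1 / 2)) D := by
    refine AntitoneOn.concaveOn_of_deriv (convex_Icc _ _) hcont ?_ ?_
    · intro x hx
      rw [interior_Icc] at hx
      exact (hDd x hx.1 (by linarith [hx.2])).differentiableAt.differentiableWithinAt
    · rw [interior_Icc]
      have hanti : AntitoneOn D1 (Ioo 0 (1 / 2)) := by
        refine antitoneOn_of_deriv_nonpos (convex_Ioo _ _) ?_ ?_ ?_
        · intro x hx
          exact (hDd1 x hx.1 (by linarith [hx.2])).continuousAt.continuousWithinAt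
        · intro x hx
          rw [interior_Ioo] at hx
          exact (hDd1 x hx.1 (by linarith [hx.2])).differentiableAt.differentiableWithinAt
        · intro x hx
          rw [interior_Ioo] at hx
          rw [(hDd1 x hx.1 (by linarith [hx.2])).deriv]
          have := log_le_log hx.1 (by linarith [hx.2] : x ≤ 1 - x)
          linarith
      intro x hx y hy hxy
      rw [(hDd x hx.1 (by linarith [hx.2])).deriv, (hDd y hy.1 (by linarith [hy.2])).deriv]
      exact hanti hx hy hxy
  have hD0 : D 0 = 0 := by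
    rw [hD]
    simp
  have hDh : D (1 / 2) = 0 := by
    rw [hD]
    norm_num
  have h := hconc.2 (x := 0) (y := 1 / 2) ⟨le_rfl, by norm_num⟩ ⟨by norm_num, le_rfl⟩
    (by linarith : 0 ≤ 1 - 2 * a) (by linarith : 0 ≤ 2 * a) (by ring)
  rw [hD0, hDh] at h
  simp only [smul_eq_mul, mul_zero, add_zero] at h
  rw [show 2 * a * (1 / 2) = a by ring, zero_add] at h
  rw [hD] at h
  simp only at h
  linarith

theorem lgt_hasDerivAt {p : ℝ} (h0 : 0 < p) (h1 : p < 1) :
    HasDerivAt lgt (1 / (p * (1 - p))) p := by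
  unfold lgt
  have e0 : HasDerivAt (fun x : ℝ => 1 - x) (-1) p := (hasDerivAt_id p).const_sub 1
  have e1 := (hasDerivAt_log h0.ne').sub (e0.log (by linarith))
  convert! e1 using 1
  have : 1 - p ≠ 0 := by linarith
  field_simp
  ring

theorem h_hasDerivAt {p : ℝ} (h0 : 0 < p) (h1 : p < 1) :
    HasDerivAt binEntropy (-lgt p) p := by
  have := hasDerivAt_binEntropy (p := p) h0.ne' h1.ne
  convert! this using 1
  unfold lgt
  ring

theorem h_id (a : ℝ) : binEntropy a + a * lgt a = -log (1 - a) := by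
  rw [binEntropy_eq_negMulLog_add_negMulLog_one_sub]
  unfold lgt negMulLog
  ring

theorem h_id' (a : ℝ) : binEntropy a - (1 - a) * lgt a = -log a := by
  rw [binEntropy_eq_negMulLog_add_negMulLog_one_sub]
  unfold lgt negMulLog
  ring

/-- `KL(s ‖ a) ≤ (-log(1-a)/a^2) (s - a)^2` for `a ≤ 1/2` -/
theorem KL_le {a : ℝ} (h0 : 0 < a) (h1 : a ≤ 1 / 2) {s : ℝ} (hs0 : 0 ≤ s) (hs1 : s ≤ 1) :
    binEntropy a - lgt a * (s - a) - binEntropy s ≤ -log (1 - a) / a ^ 2 * (s - a) ^ 2 := by
  set c : ℝ := -log (1 - a) / a ^ 2 with hc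
  have ha2 : 0 < a ^ 2 := by positivity
  have hlog : a ≤ -log (1 - a) := by
    have := log_le_sub_one_of_pos (by linarith : 0 < 1 - a)
    linarith
  have hcge : 1 / a ≤ c := by
    rw [hc, div_le_div_iff₀ h0 ha2]
    nlinarith
  have hd1 : ∀ x, 0 < x → x < 1 →
      HasDerivAt (fun x => c * (x - a) ^ 2 - (binEntropy a - lgt a * (x - a) - binEntropy x))
        (2 * c * (x - a) + lgt a - lgt x) x := by
    intro x hx0 hx1
    have e2 : HasDerivAt (fun x : ℝ => x - a) 1 x := (hasDerivAt_id x).sub_const a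
    have e3 := ((e2.pow 2).const_mul c).sub (((e2.const_mul (lgt a)).const_sub (binEntropy a)).sub
      (h_hasDerivAt hx0 hx1))
    convert! e3 using 1
    norm_num
    ring
  have hd2 : ∀ x, 0 < x → x < 1 →
      HasDerivAt (fun x => 2 * c * (x - a) + lgt a - lgt x) (2 * c - 1 / (x * (1 - x))) x := by
    intro x hx0 hx1
    have e2 : HasDerivAt (fun x : ℝ => x - a) 1 x := (hasDerivAt_id x).sub_const a
    have e3 := ((e2.const_mul (2 * c)).add_const (lgt a)).sub (lgt_hasDerivAt hx0 hx1)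
    convert! e3 using 1
    ring
  have hcont : Continuous fun x =>
      c * (x - a) ^ 2 - (binEntropy a - lgt a * (x - a) - binEntropy x) := by
    have := binEntropy_continuous
    fun_prop
  have hva : ∀ x y : ℝ, 0 < x → x ≤ y → x ≤ 1 - y → 1 / (y * (1 - y)) ≤ 1 / (x * (1 - x)) := by
    intro x y hx hxy hxy'
    apply one_div_le_one_div_of_le (mul_pos hx (by linarith))
    nlinarith
  have haa : 1 / (a * (1 - a)) ≤ 2 * c := by
    have : 1 / (a * (1 - a)) ≤ 2 * (1 / a) := by
      rw [← div_div, mul_comm 2]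
      rw [div_le_iff₀ (by linarith : (0 : ℝ) < 1 - a)]
      have : 0 < 1 / a := by positivity
      nlinarith
    linarith
  rcases le_total s a with hsa | hsa
  · have := left_nonneg
      (f := fun x => c * (x - a) ^ 2 - (binEntropy a - lgt a * (x - a) - binEntropy x))
      (f' := fun x => 2 * c * (x - a) + lgt a - lgt x)
      (f'' := fun x => 2 * c - 1 / (x * (1 - x))) (r := a)
      hcont.continuousOn
      (fun x hx0 hx1 => hd1 x (by linarith) (by linarith))
      (fun x hx0 hx1 => hd2 x (by linarith) (by linarith))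
      (fun x y hx hxy hy h => by
        have := hva x y hx hxy (by linarith)
        linarith)
      (by
        simp only [binEntropy_zero]
        have e1 := h_id a
        have e2 : c * (0 - a) ^ 2 = -log (1 - a) := by
          rw [hc]
          field_simp
          ring
        rw [e2]
        linarith) (by simp) (by simp) s hs0 hsa
    linarith
  · have hcomp : ∀ x : ℝ, HasDerivAt (fun x : ℝ => 1 - x) (-1) x := fun x =>
      (hasDerivAt_id x).const_sub 1
    have := left_nonneg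
      (f := fun x => c * ((1 - x) - a) ^ 2 -
        (binEntropy a - lgt a * ((1 - x) - a) - binEntropy (1 - x)))
      (f' := fun x => -(2 * c * ((1 - x) - a) + lgt a - lgt (1 - x)))
      (f'' := fun x => 2 * c - 1 / ((1 - x) * (1 - (1 - x)))) (r := 1 - a)
      (hcont.comp (continuous_const.sub continuous_id)).continuousOn
      (fun x hx0 hx1 => by
        have := (hd1 (1 - x) (by linarith) (by linarith)).comp x (hcomp x)
        convert! this using 1
        ring)
      (fun x hx0 hx1 => by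
        have := ((hd2 (1 - x) (by linarith) (by linarith)).comp x (hcomp x)).neg
        convert! this using 1
        ring)
      (fun x y hx hxy hy h => by
        rcases le_total y (1 / 2) with hy2 | hy2
        · have := hva x y hx hxy (by linarith)
          rw [show (1 - x) * (1 - (1 - x)) = x * (1 - x) by ring] at h
          rw [show (1 - y) * (1 - (1 - y)) = y * (1 - y) by ring]
          linarith
        · have := hva a (1 - y) h0 (by linarith) (by linarith)
          linarith)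
      (by
        simp only [sub_zero, binEntropy_one]
        have e1 := h_id' a
        have e2 : c * (1 - a) ^ 2 = (1 - a) ^ 2 * (-log (1 - a)) / a ^ 2 := by
          rw [hc]
          field_simp
        have e3 : -log a ≤ c * (1 - a) ^ 2 := by
          rw [e2, le_div_iff₀ ha2]
          linarith [phi_aux h0 h1]
        linarith) (by simp) (by simp) (1 - s) (by linarith) (by linarith)
    rw [show 1 - (1 - s) = s by ring] at this
    linarith

/-- `L(r) (1 - r^2)/r` is nonincreasing -/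
theorem LL_div_anti {x y : ℝ} (h0 : 0 < y) (h1 : y ≤ x) (h2 : x < 1) :
    LL x * (1 - x ^ 2) / x ≤ LL y * (1 - y ^ 2) / y := by
  have hd : ∀ r, 0 < r → r < 1 → HasDerivAt (fun r => LL r * (1 - r ^ 2) / r)
      ((2 * r - LL r * (1 + r ^ 2)) / r ^ 2) r := by
    intro r hr0 hr1
    have e3 : HasDerivAt (fun s : ℝ => 1 - s ^ 2) (-(2 * r)) r := by
      simpa using (hasDerivAt_pow 2 r).const_sub 1
    have e4 := ((LL_hasDerivAt (by linarith) hr1).mul e3).div (hasDerivAt_id r) hr0.ne'
    convert! e4 using 1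
    have := one_sub_sq_pos (by linarith : -1 < r) hr1
    simp only [id]
    field_simp
    simp
    ring
  have hL : ∀ r, 0 ≤ r → r < 1 → 2 * r ≤ LL r := by
    intro r hr0 hr1
    have hmono : MonotoneOn (fun r => LL r - 2 * r) (Icc 0 r) := by
      have hder : ∀ x ∈ Icc (0 : ℝ) r,
          HasDerivAt (fun r => LL r - 2 * r) (2 / (1 - x ^ 2) - 2) x := by
        intro x hx
        have h2 : HasDerivAt (fun r : ℝ => 2 * r) 2 x := by
          simpa using (hasDerivAt_id x).const_mul 2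
        exact (LL_hasDerivAt (by linarith [hx.1]) (by linarith [hx.2])).sub h2
      refine monotoneOn_of_deriv_nonneg (convex_Icc 0 r) ?_ ?_ ?_
      · intro x hx
        exact (hder x hx).continuousAt.continuousWithinAt
      · intro x hx
        exact (hder x (interior_subset hx)).differentiableAt.differentiableWithinAt
      · intro x hx
        have hx := interior_subset hx
        rw [(hder x hx).deriv]
        have h2 := one_sub_sq_pos (by linarith [hx.1] : -1 < x) (by linarith [hx.2])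
        have h3 : 2 ≤ 2 / (1 - x ^ 2) := by
          rw [le_div_iff₀ h2]
          nlinarith [sq_nonneg x]
        linarith
    have := hmono ⟨le_rfl, hr0⟩ ⟨hr0, le_rfl⟩ hr0
    simp only [LL_zero] at this
    linarith
  have hanti : AntitoneOn (fun r => LL r * (1 - r ^ 2) / r) (Icc y x) := by
    refine antitoneOn_of_deriv_nonpos (convex_Icc _ _) ?_ ?_ ?_
    · intro r hr
      exact (hd r (by linarith [hr.1]) (by linarith [hr.2])).continuousAt.continuousWithinAt
    · intro r hr
      have hr := interior_subset hr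
      exact (hd r (by linarith [hr.1])
        (by linarith [hr.2])).differentiableAt.differentiableWithinAt
    · intro r hr
      have hr := interior_subset hr
      rw [(hd r (by linarith [hr.1]) (by linarith [hr.2])).deriv]
      have h5 := hL r (by linarith [hr.1]) (by linarith [hr.2])
      apply div_nonpos_of_nonpos_of_nonneg
      · nlinarith [sq_nonneg r, hr.1]
      · positivity
  exact hanti ⟨le_rfl, h1⟩ ⟨h1, le_rfl⟩ h1

/-- The slope in the direction `d` is nonnegative. -/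
theorem slope_nonneg {x y K : ℝ} (h0 : 0 < y) (h1 : y ≤ x) (h2 : x < 1) (hK : LL y ≤ 2 * K)
    (hK0 : 0 < K) :
    4 * y ^ 2 / ((1 - y ^ 2) * K) * (LL x / 2 + LL y / 2) ≤ w' x + w' y := by
  have hx0 : 0 < x := by linarith
  have hA := one_sub_sq_pos (by linarith : -1 < x) h2
  have hB := one_sub_sq_pos (by linarith : -1 < y) (by linarith : y < 1)
  have hLy : 0 < LL y := by
    unfold LL
    have := log_lt_log (by linarith : 0 < 1 - y) (by linarith : 1 - y < 1 + y)
    linarith
  have hLx : 0 < LL x := by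
    unfold LL
    have := log_lt_log (by linarith : 0 < 1 - x) (by linarith : 1 - x < 1 + x)
    linarith
  have hanti := LL_div_anti h0 h1 h2
  rw [div_le_div_iff₀ hx0 h0] at hanti
  unfold w'
  -- bound `1/K ≤ 2/LL y`
  have e1 : 4 * y ^ 2 / ((1 - y ^ 2) * K) * (LL x / 2 + LL y / 2) =
      2 * y ^ 2 / (1 - y ^ 2) * (LL x / K) + 2 * y ^ 2 / (1 - y ^ 2) * (LL y / K) := by
    field_simp
    ring
  rw [e1]
  have e2 : LL y / K ≤ 2 := by
    rw [div_le_iff₀ hK0]
    exact hK
  have e3 : LL x / K ≤ 2 * (x * (1 - y ^ 2) / (y * (1 - x ^ 2))) := by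
    rw [div_le_iff₀ hK0]
    have e4 : LL x ≤ LL y * (x * (1 - y ^ 2) / (y * (1 - x ^ 2))) := by
      rw [← mul_div_assoc, le_div_iff₀ (by positivity)]
      linarith
    have e5 : 0 ≤ x * (1 - y ^ 2) / (y * (1 - x ^ 2)) := by positivity
    nlinarith
  have e6 : 0 ≤ 2 * y ^ 2 / (1 - y ^ 2) := by positivity
  have e7 := mul_le_mul_of_nonneg_left e2 e6
  have e8 := mul_le_mul_of_nonneg_left e3 e6
  have e9 : 2 * y ^ 2 / (1 - y ^ 2) * (2 * (x * (1 - y ^ 2) / (y * (1 - x ^ 2)))) =
      4 * x * y / (1 - x ^ 2) := by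
    field_simp
    ring
  rw [e9] at e8
  have e10 : 4 * x * y / (1 - x ^ 2) ≤ 4 * x / (1 - x ^ 2) := by
    rw [div_le_div_iff_of_pos_right hA]
    nlinarith
  have e11 : 2 * y ^ 2 / (1 - y ^ 2) * 2 ≤ 4 * y / (1 - y ^ 2) := by
    rw [div_mul_eq_mul_div, div_le_div_iff_of_pos_right hB]
    nlinarith
  linarith

/-! ## The inequality in coordinates `S = (u+v)/2`, `D = (u-v)/2` -/

theorem quad {a d S D : ℝ} (ha : 0 < a) (h1a : 0 < 1 - a) (hS : 0 < S) (h1S : 0 < 1 - S) :
    (d / (1 - a)) ^ 2 * ((S - a) ^ 2 / a ^ 2) ≤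
      S * (D / S - d / a) ^ 2 + (1 - S) * (D / (1 - S) - d / (1 - a)) ^ 2 := by
  have e : S * (D / S - d / a) ^ 2 + (1 - S) * (D / (1 - S) - d / (1 - a)) ^ 2 -
      (d / (1 - a)) ^ 2 * ((S - a) ^ 2 / a ^ 2) =
      (D - S * (1 - S) * (d / a + d / (1 - a))) ^ 2 / (S * (1 - S)) := by
    field_simp
    ring
  have : 0 ≤ (D - S * (1 - S) * (d / a + d / (1 - a))) ^ 2 / (S * (1 - S)) := by positivity
  linarith

/-- the joint lower bound for the two Bregman divergences of `Phi` -/
theorem PhiPart {a x y d : ℝ} (ha0 : 0 < a) (ha1 : a ≤ 1 / 2) (hd : 0 < d) (hda : d < a)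
    (hx : x = d / a) (hy : y = d / (1 - a))
    {S D x' y' : ℝ} (hS0 : 0 < S) (hS1 : S < 1) (hx'0 : 0 ≤ x') (hx'1 : x' < 1) (hy'0 : 0 ≤ y')
    (hy'1 : y' < 1) (hx' : S * x' = D) (hy' : (1 - S) * y' = D) :
    ell y / 2 * ((S - a) ^ 2 / a ^ 2) ≤
      S * (Phi x' - Phi x - LL x / 2 * (x' - x)) +
        (1 - S) * (Phi y' - Phi y - LL y / 2 * (y' - y)) := by
  have h1a : 0 < 1 - a := by linarith
  have h1S : 0 < 1 - S := by linarith
  have hx0 : 0 < x := by rw [hx]; positivity
  have hx1 : x < 1 := by rw [hx, div_lt_one ha0]; exact hda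
  have hy0 : 0 < y := by rw [hy]; positivity
  have hyx : y ≤ x := by
    rw [hx, hy]
    exact div_le_div_of_nonneg_left hd.le ha0 (by linarith)
  have hy1 : y < 1 := lt_of_le_of_lt hyx hx1
  have hell := ell_pos hy0 hy1
  have c1 := mul_le_mul_of_nonneg_left (BPhi_ge hx0 hx1 hx'0 hx'1) hS0.le
  have c2 := mul_le_mul_of_nonneg_left (BPhi_ge hy0 hy1 hy'0 hy'1) h1S.le
  have hm := ell_div_mono hy0 hyx hx1
  have hx2 : 0 < x ^ 2 := by positivity
  have hy2 : 0 < y ^ 2 := by positivity
  have hm' : ell y / (2 * y ^ 2) ≤ ell x / (2 * x ^ 2) := by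
    have e1 : ell y / (2 * y ^ 2) = ell y / y ^ 2 / 2 := by field_simp
    have e2 : ell x / (2 * x ^ 2) = ell x / x ^ 2 / 2 := by field_simp
    rw [e1, e2]
    linarith
  have hx'' : x' = D / S := by
    rw [← hx']
    field_simp
  have hy'' : y' = D / (1 - S) := by
    rw [← hy']
    field_simp
  have hquad := quad (d := d) (D := D) ha0 h1a hS0 h1S
  rw [← hx, ← hy, ← hx'', ← hy''] at hquad
  have e1 : ell y / 2 * ((S - a) ^ 2 / a ^ 2) =
      ell y / (2 * y ^ 2) * (y ^ 2 * ((S - a) ^ 2 / a ^ 2)) := by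
    field_simp
  have e2 := mul_le_mul_of_nonneg_left hquad (by positivity : 0 ≤ ell y / (2 * y ^ 2))
  have e3 : ell y / (2 * y ^ 2) * (S * (x' - x) ^ 2) ≤
      S * (ell x / (2 * x ^ 2) * (x' - x) ^ 2) := by
    have h4 : 0 ≤ S * (x' - x) ^ 2 := by positivity
    have h5 := mul_le_mul_of_nonneg_right hm' h4
    have h6 : ell x / (2 * x ^ 2) * (S * (x' - x) ^ 2) =
        S * (ell x / (2 * x ^ 2) * (x' - x) ^ 2) := by ring
    linarith
  have e5 : ell y / (2 * y ^ 2) * (S * (x' - x) ^ 2 + (1 - S) * (y' - y) ^ 2) =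
      ell y / (2 * y ^ 2) * (S * (x' - x) ^ 2) +
        (1 - S) * (ell y / (2 * y ^ 2) * (y' - y) ^ 2) := by ring
  rw [e1]
  rw [e5] at e2
  linarith

theorem core {a x y d K mu : ℝ} (ha0 : 0 < a) (ha1 : a ≤ 1 / 2) (hd : 0 < d) (hda : d < a)
    (hx : x = d / a) (hy : y = d / (1 - a)) (hK : K = -log (1 - a) + ell y / 2)
    (hmuK : mu * K = 4 * y ^ 2 / (1 - y ^ 2)) (hmu0 : 0 ≤ mu)
    {S D x' y' : ℝ} (hS0 : 0 < S) (hS1 : S < 1) (hx'0 : 0 ≤ x') (hx'1 : x' < 1) (hy'0 : 0 ≤ y')
    (hy'1 : y' < 1) (hx' : S * x' = D) (hy' : (1 - S) * y' = D) :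
    S * (w x - x * w' x) + D * w' x + (1 - S) * (w y - y * w' y) + D * w' y
      - mu * (S * (Phi x - x * (LL x / 2)) + D * (LL x / 2) + (1 - S) * (Phi y - y * (LL y / 2)) +
        D * (LL y / 2))
      + mu * (binEntropy a - lgt a * (S - a)) ≤
    S * w x' + (1 - S) * w y' + mu * (binEntropy S - S * Phi x' - (1 - S) * Phi y') := by
  have h1a : 0 < 1 - a := by linarith
  have hx0 : 0 < x := by rw [hx]; positivity
  have hx1 : x < 1 := by rw [hx, div_lt_one ha0]; exact hda
  have hy0 : 0 < y := by rw [hy]; positivity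
  have hyx : y ≤ x := by
    rw [hx, hy]
    exact div_le_div_of_nonneg_left hd.le ha0 (by linarith)
  have hy1 : y < 1 := lt_of_le_of_lt hyx hx1
  have hB := one_sub_sq_pos (by linarith : -1 < y) hy1
  have hell := ell_pos hy0 hy1
  have hlog : 0 < -log (1 - a) := by
    have := log_neg h1a (by linarith)
    linarith
  obtain ⟨θ, hθ0, hθy⟩ : ∃ θ : ℝ, 0 ≤ θ ∧ θ * (ell y / 2) = 4 * y ^ 2 / (1 - y ^ 2) := by
    refine ⟨8 * y ^ 2 / ((1 - y ^ 2) * ell y), by positivity, ?_⟩
    field_simp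
    ring
  have hθx : θ * (ell x / 2) ≤ 4 * x ^ 2 / (1 - x ^ 2) :=
    theta_mono hy0 hyx hx1 hθy.le hθ0
  have hdiff : (θ - mu) * (ell y / 2) = mu * (-log (1 - a)) := by
    rw [sub_mul, hθy, ← hmuK, hK]
    ring
  have hdiff0 : 0 ≤ θ - mu := by
    by_contra hcon
    push Not at hcon
    have h1 : (θ - mu) * (ell y / 2) < 0 := mul_neg_of_neg_of_pos hcon (by positivity)
    rw [hdiff] at h1
    have h2 : 0 ≤ mu * (-log (1 - a)) := by positivity
    linarith
  -- Bregman inequalities
  have b1 := mul_le_mul_of_nonneg_left (Bw_ge hx0 hx1 hθx hx'0 hx'1) hS0.le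
  have b2 := mul_le_mul_of_nonneg_left (Bw_ge hy0 hy1 hθy.le hy'0 hy'1) (by linarith : 0 ≤ 1 - S)
  have hPhi := PhiPart ha0 ha1 hd hda hx hy hS0 hS1 hx'0 hx'1 hy'0 hy'1 hx' hy'
  have hKL' := mul_le_mul_of_nonneg_left (KL_le ha0 ha1 hS0.le hS1.le) hmu0
  have hPhi' := mul_le_mul_of_nonneg_left hPhi hdiff0
  have e4 : (θ - mu) * (ell y / 2 * ((S - a) ^ 2 / a ^ 2)) =
      mu * (-log (1 - a) / a ^ 2 * (S - a) ^ 2) := by
    rw [← mul_assoc, hdiff]
    field_simp
  rw [e4] at hPhi'
  have g1 : S * (w x' - w x - w' x * (x' - x)) = S * w x' - S * (w x - x * w' x) - D * w' x := by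
    rw [← hx']; ring
  have g2 : (1 - S) * (w y' - w y - w' y * (y' - y)) =
      (1 - S) * w y' - (1 - S) * (w y - y * w' y) - D * w' y := by
    rw [← hy']; ring
  have g5 : S * (θ * (Phi x' - Phi x - LL x / 2 * (x' - x))) =
      θ * (S * (Phi x' - Phi x - LL x / 2 * (x' - x))) := by ring
  have g6 : (1 - S) * (θ * (Phi y' - Phi y - LL y / 2 * (y' - y))) =
      θ * ((1 - S) * (Phi y' - Phi y - LL y / 2 * (y' - y))) := by ring
  rw [g5, g1] at b1
  rw [g6, g2] at b2
  have g7 : mu * (S * Phi x' + (1 - S) * Phi y') =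
      mu * (S * (Phi x' - Phi x - LL x / 2 * (x' - x)) +
        (1 - S) * (Phi y' - Phi y - LL y / 2 * (y' - y))) +
      mu * (S * (Phi x - x * (LL x / 2))
      + D * (LL x / 2) + (1 - S) * (Phi y - y * (LL y / 2)) + D * (LL y / 2)) := by
    have g3 : S * (Phi x' - Phi x - LL x / 2 * (x' - x)) =
        S * Phi x' - S * (Phi x - x * (LL x / 2)) - D * (LL x / 2) := by
      rw [← hx']; ring
    have g4 : (1 - S) * (Phi y' - Phi y - LL y / 2 * (y' - y)) =
        (1 - S) * Phi y' - (1 - S) * (Phi y - y * (LL y / 2)) - D * (LL y / 2) := by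
      rw [← hy']; ring
    rw [g3, g4]
    ring
  generalize S * (Phi x' - Phi x - LL x / 2 * (x' - x)) = P at *
  generalize (1 - S) * (Phi y' - Phi y - LL y / 2 * (y' - y)) = Q at *
  have g8 : (θ - mu) * (P + Q) = θ * P + θ * Q - mu * (P + Q) := by ring
  have g9 : mu * (binEntropy S - S * Phi x' - (1 - S) * Phi y') =
      mu * binEntropy S - mu * (S * Phi x' + (1 - S) * Phi y') := by ring
  have g10 : mu * (binEntropy a - lgt a * (S - a) - binEntropy S) =
      mu * (binEntropy a - lgt a * (S - a)) - mu * binEntropy S := by ring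
  rw [g9, g7]
  rw [g8] at hPhi'
  rw [g10] at hKL'
  linarith

/-! ## Coordinates `(u,v)` -/

theorem LL_pair {u v : ℝ} (hu : 0 < u) (hv : 0 < v) :
    LL ((u - v) / 2 / ((u + v) / 2)) = log u - log v := by
  unfold LL
  have e1 : 1 + (u - v) / 2 / ((u + v) / 2) = u / ((u + v) / 2) := by
    field_simp
    ring
  have e2 : 1 - (u - v) / 2 / ((u + v) / 2) = v / ((u + v) / 2) := by
    field_simp
    ring
  rw [e1, e2, log_div hu.ne' (by positivity), log_div hv.ne' (by positivity)]
  ring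

theorem ell_pair {u v : ℝ} (hu : 0 < u) (hv : 0 < v) :
    ell ((u - v) / 2 / ((u + v) / 2)) = 2 * log ((u + v) / 2) - log u - log v := by
  unfold ell
  have e1 : 1 - ((u - v) / 2 / ((u + v) / 2)) ^ 2 = u * v / ((u + v) / 2) ^ 2 := by
    field_simp
    ring
  rw [e1, log_div (by positivity) (by positivity), log_mul hu.ne' hv.ne', log_pow]
  push_cast
  ring

theorem pair_lt {u v : ℝ} (hu : 0 < u) (hv : 0 < v) (huv : v ≤ u) :
    0 ≤ (u - v) / 2 / ((u + v) / 2) ∧ (u - v) / 2 / ((u + v) / 2) < 1 := by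
  constructor
  · apply div_nonneg <;> linarith
  · rw [div_lt_one (by linarith)]
    linarith

/-- `W(u,v)` and the entropies in the coordinates `S`, `x'`, `y'` -/
theorem pair_coord {u v x' y' : ℝ} (hu0 : 0 < u) (hu1 : u < 1) (hv0 : 0 < v) (hv1 : v < 1)
    (huv : v ≤ u) (hx' : x' = (u - v) / 2 / ((u + v) / 2))
    (hy' : y' = (u - v) / 2 / (1 - (u + v) / 2)) :
    (u + v) / 2 * w x' + (1 - (u + v) / 2) * w y' = WW u v ∧
    binEntropy ((u + v) / 2) - (u + v) / 2 * Phi x' - (1 - (u + v) / 2) * Phi y' =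
      (binEntropy u + binEntropy v) / 2 := by
  have hS : 0 < (u + v) / 2 := by linarith
  have h1S : 0 < 1 - (u + v) / 2 := by linarith
  have hy'2 : y' = ((1 - v) - (1 - u)) / 2 / (((1 - v) + (1 - u)) / 2) := by
    rw [hy']
    congr 1 <;> ring
  have hxlt := pair_lt hu0 hv0 huv
  have hylt := pair_lt (u := 1 - v) (v := 1 - u) (by linarith) (by linarith) (by linarith)
  rw [← hx'] at hxlt
  rw [← hy'2] at hylt
  have hLx : LL x' = log u - log v := by rw [hx', LL_pair hu0 hv0]
  have hLy : LL y' = log (1 - v) - log (1 - u) := by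
    rw [hy'2, LL_pair (by linarith) (by linarith)]
  have hex : ell x' = 2 * log ((u + v) / 2) - log u - log v := by rw [hx', ell_pair hu0 hv0]
  have hey : ell y' = 2 * log (1 - (u + v) / 2) - log (1 - v) - log (1 - u) := by
    rw [hy'2, ell_pair (by linarith) (by linarith)]
    congr 4
    ring
  have hPx := Phi_id (r := x') (by linarith [hxlt.1]) hxlt.2
  have hPy := Phi_id (r := y') (by linarith [hylt.1]) hylt.2
  have hSx : (u + v) / 2 * x' = (u - v) / 2 := by
    rw [hx']
    field_simp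
  have hSy : (1 - (u + v) / 2) * y' = (u - v) / 2 := by
    rw [hy', mul_comm, div_mul_cancel₀ _ h1S.ne']
  constructor
  · unfold w WW lgt
    rw [hLx, hLy]
    have e : (u + v) / 2 * (2 * x' * (log u - log v)) +
        (1 - (u + v) / 2) * (2 * y' * (log (1 - v) - log (1 - u))) =
        2 * ((u + v) / 2 * x') * (log u - log v) +
          2 * ((1 - (u + v) / 2) * y') * (log (1 - v) - log (1 - u)) := by ring
    rw [e, hSx, hSy]
    ring
  · have e1 : Phi x' = x' * (LL x' / 2) - ell x' / 2 := by linarith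
    have e2 : Phi y' = y' * (LL y' / 2) - ell y' / 2 := by linarith
    rw [e1, e2, hLx, hLy, hex, hey]
    have e : binEntropy ((u + v) / 2) -
        (u + v) / 2 * (x' * ((log u - log v) / 2) - (2 * log ((u + v) / 2) - log u - log v) / 2) -
        (1 - (u + v) / 2) * (y' * ((log (1 - v) - log (1 - u)) / 2) -
          (2 * log (1 - (u + v) / 2) - log (1 - v) - log (1 - u)) / 2) =
        binEntropy ((u + v) / 2) -
        ((u + v) / 2 * x') * ((log u - log v) / 2) +
        (u + v) / 2 * (2 * log ((u + v) / 2) - log u - log v) / 2 -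
        ((1 - (u + v) / 2) * y') * ((log (1 - v) - log (1 - u)) / 2) +
        (1 - (u + v) / 2) * (2 * log (1 - (u + v) / 2) - log (1 - v) - log (1 - u)) / 2 := by
      ring
    rw [e, hSx, hSy]
    simp only [binEntropy_eq_negMulLog_add_negMulLog_one_sub, negMulLog]
    ring

/-- `mu(p,q) = 2 (p - q)^2 / (s log (1/s))`, `s = (1 - p)(1 - q)` -/
noncomputable def mu (p q : ℝ) : ℝ :=
  2 * (p - q) ^ 2 / (((1 - p) * (1 - q)) * (-log ((1 - p) * (1 - q))))

/-- first coefficient of the plane -/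
noncomputable def A0 (p q : ℝ) : ℝ :=
  (lgt p - lgt q) + (p - q) / (p * (1 - p)) - mu p q / 2 * lgt p

/-- second coefficient of the plane -/
noncomputable def A1 (p q : ℝ) : ℝ :=
  -(lgt p - lgt q) - (p - q) / (q * (1 - q)) - mu p q / 2 * lgt q

section
variable {p q : ℝ}

theorem s_pos (hq : 0 < q) (hqp : q < p) (hpq : p + q ≤ 1) : 0 < (1 - p) * (1 - q) :=
  mul_pos (by linarith) (by linarith)

theorem s_log_pos (hq : 0 < q) (hqp : q < p) (hpq : p + q ≤ 1) :
    0 < -log ((1 - p) * (1 - q)) := by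
  have h : (1 - p) * (1 - q) < 1 := by nlinarith [mul_pos (by linarith : 0 < 1 - p) hq]
  have := log_neg (s_pos hq hqp hpq) h
  linarith

theorem mu_nonneg (hq : 0 < q) (hqp : q < p) (hpq : p + q ≤ 1) : 0 ≤ mu p q := by
  unfold mu
  have h1 := s_pos hq hqp hpq
  have h2 := s_log_pos hq hqp hpq
  positivity

/-- the coordinates of `(p,q)` and the relation of `mu` with `K` -/
theorem pq_coord (hq : 0 < q) (hqp : q < p) (hpq : p + q ≤ 1) {a x y K : ℝ}
    (ha : a = (p + q) / 2) (hx : x = (p - q) / 2 / a) (hy : y = (p - q) / 2 / (1 - a))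
    (hK : K = -log (1 - a) + ell y / 2) :
    LL x = log p - log q ∧ LL y = log (1 - q) - log (1 - p) ∧
    ell x = 2 * log a - log p - log q ∧ ell y = 2 * log (1 - a) - log (1 - q) - log (1 - p) ∧
    mu p q * K = 4 * y ^ 2 / (1 - y ^ 2) ∧
    4 * x / (1 - x ^ 2) = (p - q) * (1 / q + 1 / p) ∧
    4 * y / (1 - y ^ 2) = (p - q) * (1 / (1 - p) + 1 / (1 - q)) ∧
    4 * x ^ 2 / (1 - x ^ 2) = (p - q) ^ 2 / (p * q) ∧
    4 * y ^ 2 / (1 - y ^ 2) = (p - q) ^ 2 / ((1 - p) * (1 - q)) ∧ 0 < K ∧ LL y ≤ 2 * K := by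
  have hp : 0 < p := by linarith
  have h1p : 0 < 1 - p := by linarith
  have h1q : 0 < 1 - q := by linarith
  have hy2 : y = ((1 - q) - (1 - p)) / 2 / (((1 - q) + (1 - p)) / 2) := by
    rw [hy, ha]
    congr 1 <;> ring
  have h1 : LL x = log p - log q := by rw [hx, ha, LL_pair hp hq]
  have h2 : LL y = log (1 - q) - log (1 - p) := by rw [hy2, LL_pair h1q h1p]
  have h3 : ell x = 2 * log a - log p - log q := by rw [hx, ha, ell_pair hp hq]
  have h4 : ell y = 2 * log (1 - a) - log (1 - q) - log (1 - p) := by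
    rw [hy2, ell_pair h1q h1p, ha]
    congr 4
    ring
  have ex : 1 - x ^ 2 = 4 * (p * q) / (p + q) ^ 2 := by
    rw [hx, ha]
    field_simp
    ring
  have ey : 1 - y ^ 2 = 4 * ((1 - p) * (1 - q)) / (2 - p - q) ^ 2 := by
    have h5 : (2 - p - q) ≠ 0 := by linarith
    have h6 : 1 - (p + q) / 2 = (2 - p - q) / 2 := by ring
    rw [hy, ha, h6]
    field_simp
    ring
  have hxv : x = (p - q) / (p + q) := by
    rw [hx, ha]
    field_simp
  have hyv : y = (p - q) / (2 - p - q) := by
    have h5 : (2 - p - q) ≠ 0 := by linarith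
    have h6 : 1 - (p + q) / 2 = (2 - p - q) / 2 := by ring
    rw [hy, ha, h6]
    field_simp
  have hne : (2 - p - q) ≠ 0 := by linarith
  have hs := s_pos hq hqp hpq
  have hsl := s_log_pos hq hqp hpq
  have hlogs : log ((1 - p) * (1 - q)) = log (1 - p) + log (1 - q) := log_mul h1p.ne' h1q.ne'
  have hKv : K = -log ((1 - p) * (1 - q)) / 2 := by
    rw [hK, h4, hlogs]
    ring
  have hK0 : 0 < K := by rw [hKv]; positivity
  refine ⟨h1, h2, h3, h4, ?_, ?_, ?_, ?_, ?_, hK0, ?_⟩
  · have e1 : 4 * y ^ 2 / (1 - y ^ 2) = (p - q) ^ 2 / ((1 - p) * (1 - q)) := by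
      rw [ey, hyv]
      field_simp
    rw [e1, hKv, mu]
    generalize -log ((1 - p) * (1 - q)) = l at *
    field_simp
  · rw [ex, hxv]
    field_simp
  · rw [ey, hyv]
    field_simp
    ring
  · rw [ex, hxv]
    field_simp
  · rw [ey, hyv]
    field_simp
  · rw [h2, hKv, hlogs]
    have := log_nonpos h1q.le (by linarith : 1 - q ≤ 1)
    linarith

/-- the tangent plane inequality for `v ≤ u` -/
theorem cert_le (hq : 0 < q) (hqp : q < p) (hpq : p + q ≤ 1) {u v : ℝ} (hu1 : u < 1)
    (hv0 : 0 < v) (huv : v ≤ u) :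
    A0 p q * u + A1 p q * v ≤ WW u v + mu p q * ((binEntropy u + binEntropy v) / 2) := by
  have hp : 0 < p := by linarith
  have h1p : 0 < 1 - p := by linarith
  have h1q : 0 < 1 - q := by linarith
  have hu0 : 0 < u := by linarith
  have hv1 : v < 1 := by linarith
  have hyeq : (u - v) / 2 / (1 - (u + v) / 2) =
      ((1 - v) - (1 - u)) / 2 / (((1 - v) + (1 - u)) / 2) := by
    congr 1 <;> ring
  have hylt := pair_lt (u := 1 - v) (v := 1 - u) (by linarith) (by linarith) (by linarith)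
  rw [← hyeq] at hylt
  have hxlt := pair_lt hu0 hv0 huv
  obtain ⟨c1, c2⟩ := pair_coord hu0 hu1 hv0 hv1 huv rfl rfl
  obtain ⟨h1, h2, h3, h4, h5, h6, h7, h8, h9, h10, h11⟩ := pq_coord hq hqp hpq rfl rfl rfl rfl
  have key := core (a := (p + q) / 2) (d := (p - q) / 2) (by linarith) (by linarith) (by linarith)
    (by linarith) rfl rfl rfl h5 (mu_nonneg hq hqp hpq) (S := (u + v) / 2) (D := (u - v) / 2)
    (x' := (u - v) / 2 / ((u + v) / 2)) (y' := (u - v) / 2 / (1 - (u + v) / 2))
    (by linarith) (by linarith) hxlt.1 hxlt.2 hylt.1 hylt.2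
    (by
      have : (u + v) ≠ 0 := by linarith
      field_simp)
    (by
      have : 1 - (u + v) / 2 ≠ 0 := by linarith
      rw [mul_comm, div_mul_cancel₀ _ this])
  rw [c1, c2] at key
  refine le_trans (le_of_eq ?_) key
  have hx1 := pair_lt hp hq hqp.le
  have hy1 := pair_lt (u := 1 - q) (v := 1 - p) (by linarith) (by linarith) (by linarith)
  have hyeq2 : (p - q) / 2 / (1 - (p + q) / 2) =
      ((1 - q) - (1 - p)) / 2 / (((1 - q) + (1 - p)) / 2) := by
    congr 1 <;> ring
  rw [← hyeq2] at hy1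
  have i1 := Phi_id (r := (p - q) / 2 / ((p + q) / 2)) (by linarith [hx1.1]) hx1.2
  have i2 := Phi_id (r := (p - q) / 2 / (1 - (p + q) / 2)) (by linarith [hy1.1]) hy1.2
  have i3 := w_id (r := (p - q) / 2 / ((p + q) / 2)) (by linarith [hx1.1]) hx1.2
  have i4 := w_id (r := (p - q) / 2 / (1 - (p + q) / 2)) (by linarith [hy1.1]) hy1.2
  have i5 := h_id ((p + q) / 2)
  have j1 : w' ((p - q) / 2 / ((p + q) / 2)) =
      2 * (log p - log q) + (p - q) * (1 / q + 1 / p) := by
    unfold w'
    rw [h1, h6]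
  have j2 : w' ((p - q) / 2 / (1 - (p + q) / 2)) =
      2 * (log (1 - q) - log (1 - p)) + (p - q) * (1 / (1 - p) + 1 / (1 - q)) := by
    unfold w'
    rw [h2, h7]
  have j3 : w ((p - q) / 2 / ((p + q) / 2)) - (p - q) / 2 / ((p + q) / 2) *
      w' ((p - q) / 2 / ((p + q) / 2)) = -((p - q) ^ 2 / (p * q)) := by
    rw [← h8]
    linarith
  have j4 : w ((p - q) / 2 / (1 - (p + q) / 2)) - (p - q) / 2 / (1 - (p + q) / 2) *
      w' ((p - q) / 2 / (1 - (p + q) / 2)) = -((p - q) ^ 2 / ((1 - p) * (1 - q))) := by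
    rw [← h9]
    linarith
  have j5 : Phi ((p - q) / 2 / ((p + q) / 2)) - (p - q) / 2 / ((p + q) / 2) *
      (LL ((p - q) / 2 / ((p + q) / 2)) / 2) = -((2 * log ((p + q) / 2) - log p - log q) / 2) := by
    rw [← h3]
    linarith
  have j6 : Phi ((p - q) / 2 / (1 - (p + q) / 2)) - (p - q) / 2 / (1 - (p + q) / 2) *
      (LL ((p - q) / 2 / (1 - (p + q) / 2)) / 2) =
      -((2 * log (1 - (p + q) / 2) - log (1 - q) - log (1 - p)) / 2) := by
    rw [← h4]
    linarith
  have j7 : binEntropy ((p + q) / 2) - lgt ((p + q) / 2) * ((u + v) / 2 - (p + q) / 2) =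
      -log (1 - (p + q) / 2) - (u + v) / 2 * (log ((p + q) / 2) - log (1 - (p + q) / 2)) := by
    have e : lgt ((p + q) / 2) = log ((p + q) / 2) - log (1 - (p + q) / 2) := rfl
    rw [← i5, ← e]
    ring
  have hconst : mu p q * ((-log (1 - p) - log (1 - q)) / 2) =
      (p - q) ^ 2 / ((1 - p) * (1 - q)) := by
    rw [← h9, ← h5, h4]
    ring
  rw [j3, j4, j5, j6, j7, j1, j2, h1, h2]
  have k1 : (p - q) ^ 2 / (p * q) = (p - q) * (1 / q - 1 / p) := by
    field_simp
  have k2 : (p - q) ^ 2 / ((1 - p) * (1 - q)) = (p - q) * (1 / (1 - p) - 1 / (1 - q)) := by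
    have := h1p.ne'
    have := h1q.ne'
    field_simp
    ring
  have k3 : (p - q) / (p * (1 - p)) = (p - q) * (1 / p + 1 / (1 - p)) := by
    have := h1p.ne'
    field_simp
    ring
  have k4 : (p - q) / (q * (1 - q)) = (p - q) * (1 / q + 1 / (1 - q)) := by
    have := h1q.ne'
    field_simp
    ring
  rw [k2] at hconst
  unfold A0 A1 lgt
  rw [k1, k2, k3, k4]
  generalize 1 / p = ip at *
  generalize 1 / q = iq at *
  generalize 1 / (1 - p) = jp at *
  generalize 1 / (1 - q) = jq at *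
  linear_combination (-1 : ℝ) * hconst

/-- The slope of the plane in the direction `(1,-1)` is nonnegative. -/
theorem A1_le_A0 (hq : 0 < q) (hqp : q < p) (hpq : p + q ≤ 1) : A1 p q ≤ A0 p q := by
  have hp : 0 < p := by linarith
  have h1p : 0 < 1 - p := by linarith
  have h1q : 0 < 1 - q := by linarith
  obtain ⟨h1, h2, h3, h4, h5, h6, h7, h8, h9, h10, h11⟩ := pq_coord hq hqp hpq rfl rfl rfl rfl
  have hx1 := pair_lt hp hq hqp.le
  have hy0 : 0 < (p - q) / 2 / (1 - (p + q) / 2) := div_pos (by linarith) (by linarith)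
  have hyx : (p - q) / 2 / (1 - (p + q) / 2) ≤ (p - q) / 2 / ((p + q) / 2) :=
    div_le_div_of_nonneg_left (by linarith) (by linarith) (by linarith)
  have hs := slope_nonneg hy0 hyx hx1.2 h11 h10
  have e1 : 4 * ((p - q) / 2 / (1 - (p + q) / 2)) ^ 2 /
      ((1 - ((p - q) / 2 / (1 - (p + q) / 2)) ^ 2) *
        (-log (1 - (p + q) / 2) + ell ((p - q) / 2 / (1 - (p + q) / 2)) / 2)) = mu p q := by
    rw [← div_div, ← h5]
    exact mul_div_cancel_right₀ _ h10.ne'
  rw [e1] at hs
  unfold w' at hs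
  rw [h6, h7, h1, h2] at hs
  have k3 : (p - q) / (p * (1 - p)) = (p - q) * (1 / p + 1 / (1 - p)) := by
    have := h1p.ne'
    field_simp
    ring
  have k4 : (p - q) / (q * (1 - q)) = (p - q) * (1 / q + 1 / (1 - q)) := by
    have := h1q.ne'
    field_simp
    ring
  unfold A0 A1 lgt
  rw [k3, k4]
  linarith

/-- the tangent plane inequality: `A0 u + A1 v ≤ W(u,v) + mu (h(u) + h(v))/2` for all `u, v` -/
theorem cert (hq : 0 < q) (hqp : q < p) (hpq : p + q ≤ 1) {u v : ℝ} (hu0 : 0 < u) (hu1 : u < 1)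
    (hv0 : 0 < v) (hv1 : v < 1) :
    A0 p q * u + A1 p q * v ≤ WW u v + mu p q * ((binEntropy u + binEntropy v) / 2) := by
  rcases le_total v u with h | h
  · exact cert_le hq hqp hpq hu1 hv0 h
  · have h1 := cert_le hq hqp hpq hv1 hu0 h
    have h2 := A1_le_A0 hq hqp hpq
    have h3 : WW v u = WW u v := by
      unfold WW
      ring
    rw [h3] at h1
    nlinarith [mul_nonneg (sub_nonneg.2 h2) (sub_nonneg.2 h)]

/-- the plane touches at `(p,q)` -/
theorem plane_at (hq : 0 < q) (hqp : q < p) (hpq : p + q ≤ 1) :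
    A0 p q * p + A1 p q * q = WW p q + mu p q * ((binEntropy p + binEntropy q) / 2) := by
  have hp : 0 < p := by linarith
  have h1p : 0 < 1 - p := by linarith
  have h1q : 0 < 1 - q := by linarith
  have i1 := h_id p
  have i2 := h_id q
  have hs := s_pos hq hqp hpq
  have hsl := s_log_pos hq hqp hpq
  have hlogs : log ((1 - p) * (1 - q)) = log (1 - p) + log (1 - q) := log_mul h1p.ne' h1q.ne'
  have hmu : mu p q * (-log (1 - p) - log (1 - q)) = 2 * ((p - q) ^ 2 / ((1 - p) * (1 - q))) := by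
    have e : -log (1 - p) - log (1 - q) = -log ((1 - p) * (1 - q)) := by
      rw [hlogs]
      ring
    rw [e, mu]
    generalize -log ((1 - p) * (1 - q)) = l at *
    field_simp
  have e1 : (p - q) / (p * (1 - p)) * p - (p - q) / (q * (1 - q)) * q =
      (p - q) ^ 2 / ((1 - p) * (1 - q)) := by
    field_simp
    ring
  have e2 : binEntropy p + binEntropy q =
      (-log (1 - p) - log (1 - q)) - (p * lgt p + q * lgt q) := by linarith
  rw [e2]
  unfold A0 A1 WW
  linear_combination e1 - hmu / 2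

end

/-! ## Averaged versions -/

variable {n : ℕ}

theorem av_mono {f g : Cube n → ℝ} (h : ∀ x, f x ≤ g x) : av f ≤ av g := by
  unfold av
  have := Finset.sum_le_sum fun x (_ : x ∈ Finset.univ) => h x
  gcongr

/-- averaged tangent plane inequality, general contact point `(p,q)` -/
theorem cert_av {p q : ℝ} (hq : 0 < q) (hqp : q < p) (hpq : p + q ≤ 1) {U V : Cube n → ℝ}
    (hU : ∀ x, 0 < U x ∧ U x < 1) (hV : ∀ x, 0 < V x ∧ V x < 1) :
    A0 p q * av U + A1 p q * av V - mu p q *
      ((av (fun x => binEntropy (U x)) + av (fun x => binEntropy (V x))) / 2) ≤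
    av (fun x => WW (U x) (V x)) := by
  have h := av_mono (f := fun x => A0 p q * U x + A1 p q * V x -
    mu p q * ((binEntropy (U x) + binEntropy (V x)) / 2)) (g := fun x => WW (U x) (V x))
    fun x => by
      have := cert hq hqp hpq (hU x).1 (hU x).2 (hV x).1 (hV x).2
      linarith
  refine le_trans (le_of_eq ?_) h
  unfold av
  rw [Finset.sum_sub_distrib, Finset.sum_add_distrib, ← Finset.mul_sum, ← Finset.mul_sum,
    ← Finset.mul_sum, ← Finset.sum_div, Finset.sum_add_distrib]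
  ring

/-- the bound `M2` -/
theorem M2_le {U V : Cube n → ℝ} (hU : ∀ x, 0 < U x ∧ U x < 1) (hV : ∀ x, 0 < V x ∧ V x < 1)
    (hd : av V < av U) (hs : av U + av V ≤ 1) :
    WW (av U) (av V) + mu (av U) (av V) * ((binEntropy (av U) + binEntropy (av V)) / 2 -
      (av (fun x => binEntropy (U x)) + av (fun x => binEntropy (V x))) / 2) ≤
    av (fun x => WW (U x) (V x)) := by
  have hV0 : 0 < av V := by
    unfold av
    have : 0 < ∑ x, V x := Finset.sum_pos (fun x _ => (hV x).1) Finset.univ_nonempty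
    positivity
  have h := cert_av hV0 hd hs hU hV
  have h2 := plane_at hV0 hd hs
  linarith

end Vale.Agent.CK.Tan
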