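import Vale.Agent.CK.Trunc
import Vale.Agent.CK.Tan

/-!
# P322: the two-point inequality follows from the real inequality `TPstar`
-/

namespace Vale.Agent.CK

open Finset Real Set

variable {n : ℕ}

/-- the function `G(a, H)`, `a = E u`, `H = E h(u)` -/
noncomputable def GG (t a H : ℝ) : ℝ :=
  max (PsiT t (binEntropy a - H)) (4 * a * (1 - a) * RT t (H / (4 * a * (1 - a))))

/-- The two-point inequality for `G`, for averages at distance at most `1/2`. -/
def TPH (G : ℝ → ℝ → ℝ) : Prop := ∀ (n : ℕ) (U V : Cube n → ℝ),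
  (∀ x, 0 < U x ∧ U x < 1) → (∀ x, 0 < V x ∧ V x < 1) → |av U - av V| ≤ 1 / 2 →
  G ((av U + av V) / 2) ((av (fun x => binEntropy (U x)) + av (fun x => binEntropy (V x))) / 2) ≤
    (G (av U) (av (fun x => binEntropy (U x))) + G (av V) (av (fun x => binEntropy (V x)))) / 2 +
      av (fun x => WW (U x) (V x))

/-- the average entropy of `(1 ± x ± d)/2` -/
noncomputable def hb (x d : ℝ) : ℝ := log 2 - (Phi (x + d) + Phi (x - d)) / 2

/-- the slope of the certificate `M2` -/
noncomputable def muu (x d : ℝ) : ℝ :=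
  2 * d ^ 2 / ((((1 + x) ^ 2 - d ^ 2) / 4) * (-log (((1 + x) ^ 2 - d ^ 2) / 4)))

/-- the slope of the certificate `C1` -/
noncomputable def nuu (s : ℝ) : ℝ := 8 * s ^ 2 / ((1 - s ^ 2) * log (4 / (1 - s ^ 2)))

/-- the real inequality -/
def TPstar (t : ℝ) : Prop := ∀ x d H M : ℝ, 0 ≤ x → 0 < d → d ≤ 1 / 2 → x + d < 1 → 0 < H →
  H ≤ hb x d →
  d * (LL (x + d) - LL (x - d)) + muu x d * (hb x d - H) ≤ M →
  (∀ r, 0 < r → r < 1 → r * H ≤ d * (log 2 - Phi r) → 2 * d * LL r ≤ M) →
  (∀ s, 0 < s → s < 1 → 2 * d * LL s + nuu s * (d * (log 2 - Phi s) / s - H) ≤ M) →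
  (∀ q, 0 < q → q < 1 →
    (2 * LL q + 4 * q / (1 - q ^ 2) - Tan.mu ((1 + q) / 2) ((1 - q) / 2) / 2 * LL q) * d -
      Tan.mu ((1 + q) / 2) ((1 - q) / 2) * H ≤ M) →
  max (PsiT t (log 2 - Phi x - H)) ((1 - x ^ 2) * RT t (H / (1 - x ^ 2))) ≤
    max (PsiT t (hb x d - H)) ((1 - x ^ 2 - d ^ 2) * RT t (H / (1 - x ^ 2 - d ^ 2))) + M

theorem LL_neg' (s : ℝ) : LL (-s) = - LL s := by
  unfold LL
  rw [sub_neg_eq_add, ← sub_eq_add_neg]
  ring

theorem Phi_neg (s : ℝ) : Phi (-s) = Phi s := by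
  unfold Phi
  have h : (1 + -s) / 2 = 1 - (1 + s) / 2 := by ring
  rw [h, binEntropy_one_sub]

theorem lgt_half {r : ℝ} (h0 : -1 < r) (h1 : r < 1) : lgt ((1 + r) / 2) = LL r := by
  unfold lgt LL
  have e : 1 - (1 + r) / 2 = (1 - r) / 2 := by ring
  rw [e, log_div (by linarith) (by norm_num), log_div (by linarith) (by norm_num)]
  ring

theorem binEntropy_half (r : ℝ) : binEntropy ((1 + r) / 2) = log 2 - Phi r := by
  unfold Phi
  ring

theorem av_div (f : Cube n → ℝ) (c : ℝ) : av (fun x => f x / c) = av f / c := by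
  unfold av
  rw [← Finset.sum_div]
  ring

/-- Jensen -/
theorem av_binEntropy_le {U : Cube n → ℝ} (hU : ∀ x, 0 < U x ∧ U x < 1) :
    av (fun x => binEntropy (U x)) ≤ binEntropy (av U) := by
  have h := strictConcave_binEntropy.concaveOn.le_map_sum (t := (Finset.univ : Finset (Cube n)))
    (w := fun _ => 1 / 2 ^ n) (p := U) (fun _ _ => by positivity) (by
      rw [Finset.sum_const, Finset.card_univ]
      simp) (fun x _ => ⟨(hU x).1.le, (hU x).2.le⟩)
  simp only [smul_eq_mul] at h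
  have e1 : av (fun x => binEntropy (U x)) = ∑ i, 1 / 2 ^ n * binEntropy (U i) := by
    unfold av
    rw [Finset.sum_div]
    exact Finset.sum_congr rfl fun x _ => by ring
  have e2 : av U = ∑ i, 1 / 2 ^ n * U i := by
    unfold av
    rw [Finset.sum_div]
    exact Finset.sum_congr rfl fun x _ => by ring
  rw [e1, e2]
  exact h

theorem av_lt_one {U : Cube n → ℝ} (hU : ∀ x, 0 < U x ∧ U x < 1) : av U < 1 := by
  have h := av_pos (f := fun x => 1 - U x) fun x => by linarith [(hU x).2]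
  rw [av_sub (fun _ => 1) U, av_const] at h
  linarith

theorem mu_eq_nuu {r : ℝ} (hr0 : 0 < r) (hr1 : r < 1) :
    Tan.mu ((1 + r) / 2) ((1 - r) / 2) = nuu r := by
  unfold Tan.mu nuu
  have h1 : 0 < 1 - r ^ 2 := by nlinarith
  have e1 : (1 - (1 + r) / 2) * (1 - (1 - r) / 2) = (1 - r ^ 2) / 4 := by ring
  have e2 : log (4 / (1 - r ^ 2)) = -log ((1 - r ^ 2) / 4) := by
    rw [← log_inv, inv_div]
  have e3 : (1 + r) / 2 - (1 - r) / 2 = r := by ring
  rw [e1, e2, e3]
  generalize -log ((1 - r ^ 2) / 4) = l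
  rcases eq_or_ne l 0 with h | h
  · rw [h]; simp
  · field_simp
    ring

/-- the certificate `C1` at `(1 ± r)/2`, averaged -/
theorem C1_line {U V : Cube n → ℝ} (hU : ∀ x, 0 < U x ∧ U x < 1) (hV : ∀ x, 0 < V x ∧ V x < 1)
    {d H r : ℝ} (hd : d = av U - av V)
    (hH : H = (av (fun x => binEntropy (U x)) + av (fun x => binEntropy (V x))) / 2)
    (hr0 : 0 < r) (hr1 : r < 1) :
    (2 * LL r + 4 * r / (1 - r ^ 2) - Tan.mu ((1 + r) / 2) ((1 - r) / 2) / 2 * LL r) * d -
      Tan.mu ((1 + r) / 2) ((1 - r) / 2) * H ≤ av (fun x => WW (U x) (V x)) ∧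
    2 * d * LL r + nuu r * (d * (log 2 - Phi r) / r - H) ≤ av (fun x => WW (U x) (V x)) ∧
    0 ≤ nuu r := by
  have hmn := mu_eq_nuu hr0 hr1
  set p := (1 + r) / 2 with hp
  set q := (1 - r) / 2 with hq
  have hq0 : 0 < q := by rw [hq]; linarith
  have hqp : q < p := by rw [hp, hq]; linarith
  have hpq : p + q ≤ 1 := by rw [hp, hq]; linarith
  have c1 := Tan.cert_av hq0 hqp hpq hU hV
  have c2 := Tan.plane_at hq0 hqp hpq
  have c3 := Tan.mu_nonneg hq0 hqp hpq
  have e1 : lgt p = LL r := lgt_half (by linarith) hr1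
  have e2 : lgt q = - LL r := by
    have : q = (1 + -r) / 2 := by rw [hq]; ring
    rw [this, lgt_half (by linarith) (by linarith), LL_neg']
  have e3 : binEntropy p = log 2 - Phi r := binEntropy_half r
  have e4 : binEntropy q = log 2 - Phi r := by
    have : q = (1 + -r) / 2 := by rw [hq]; ring
    rw [this, binEntropy_half, Phi_neg]
  have e5 : p - q = r := by rw [hp, hq]; ring
  have e6 : Tan.A1 p q = - Tan.A0 p q := by
    unfold Tan.A0 Tan.A1
    rw [e1, e2]
    have e7 : p * (1 - p) = q * (1 - q) := by rw [hp, hq]; ring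
    rw [e7]
    ring
  have e10 : Tan.A0 p q = 2 * LL r + 4 * r / (1 - r ^ 2) - Tan.mu p q / 2 * LL r := by
    unfold Tan.A0
    rw [e1, e2, e5]
    have e7 : r / (p * (1 - p)) = 4 * r / (1 - r ^ 2) := by
      have h1 : 0 < 1 - r ^ 2 := by nlinarith
      have : p * (1 - p) = (1 - r ^ 2) / 4 := by rw [hp]; ring
      rw [this]
      field_simp
    rw [e7]
    ring
  have e8 : WW p q = 2 * r * LL r := by
    unfold WW
    rw [e1, e2, e5]
    ring
  rw [e6, e8, e3, e4] at c2
  have c4 : Tan.A0 p q * r = 2 * r * LL r + Tan.mu p q * (log 2 - Phi r) := by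
    have e9 : Tan.A0 p q * r = Tan.A0 p q * p + -Tan.A0 p q * q := by
      have : Tan.A0 p q * r = Tan.A0 p q * (p - q) := by rw [e5]
      rw [this]
      ring
    rw [e9]
    linarith
  rw [e6, ← hH] at c1
  have c5 : Tan.A0 p q * av U + -Tan.A0 p q * av V = Tan.A0 p q * d := by rw [hd]; ring
  rw [c5] at c1
  refine ⟨by rw [← e10]; exact c1, ?_, by rw [← hmn]; exact c3⟩
  refine le_trans (le_of_eq ?_) c1
  have c6 : Tan.A0 p q = 2 * LL r + Tan.mu p q * (log 2 - Phi r) / r := by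
    field_simp
    linarith
  rw [c6, ← hmn]
  ring

theorem C1_av {U V : Cube n → ℝ} (hU : ∀ x, 0 < U x ∧ U x < 1) (hV : ∀ x, 0 < V x ∧ V x < 1)
    {d H r : ℝ} (hd : d = av U - av V)
    (hH : H = (av (fun x => binEntropy (U x)) + av (fun x => binEntropy (V x))) / 2)
    (hr0 : 0 < r) (hr1 : r < 1) (h : r * H ≤ d * (log 2 - Phi r)) :
    2 * d * LL r ≤ av (fun x => WW (U x) (V x)) := by
  obtain ⟨-, h2, h3⟩ := C1_line hU hV hd hH hr0 hr1
  have h4 : H ≤ d * (log 2 - Phi r) / r := by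
    rw [le_div_iff₀ hr0]
    linarith
  have h5 : 0 ≤ nuu r * (d * (log 2 - Phi r) / r - H) := mul_nonneg h3 (by linarith)
  linarith

/-- the certificate `M2` in the coordinates `x, d` -/
theorem M2_av {U V : Cube n → ℝ} (hU : ∀ x, 0 < U x ∧ U x < 1) (hV : ∀ x, 0 < V x ∧ V x < 1)
    {x d H : ℝ} (h0 : 0 ≤ x) (hd : 0 < d) (h1 : x + d < 1) (ha : av U = (1 - x + d) / 2)
    (hb' : av V = (1 - x - d) / 2)
    (hH : H = (av (fun x => binEntropy (U x)) + av (fun x => binEntropy (V x))) / 2) :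
    (binEntropy (av U) + binEntropy (av V)) / 2 = hb x d ∧
    d * (LL (x + d) - LL (x - d)) + muu x d * (hb x d - H) ≤ av (fun x => WW (U x) (V x)) := by
  have e1 : av U = (1 + -(x - d)) / 2 := by rw [ha]; ring
  have e2 : av V = (1 + -(x + d)) / 2 := by rw [hb']; ring
  have e3 : (binEntropy (av U) + binEntropy (av V)) / 2 = hb x d := by
    rw [e1, e2, binEntropy_half, binEntropy_half, Phi_neg, Phi_neg]
    unfold hb
    ring
  refine ⟨e3, ?_⟩
  have h := Tan.M2_le hU hV (by rw [ha, hb']; linarith) (by rw [ha, hb']; linarith)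
  rw [e3, ← hH] at h
  have e4 : WW (av U) (av V) = d * (LL (x + d) - LL (x - d)) := by
    unfold WW
    rw [e1, e2, lgt_half (by linarith) (by linarith), lgt_half (by linarith) (by linarith),
      LL_neg', LL_neg']
    ring
  have e5 : Tan.mu (av U) (av V) = muu x d := by
    unfold Tan.mu muu
    have e6 : (1 - av U) * (1 - av V) = ((1 + x) ^ 2 - d ^ 2) / 4 := by rw [ha, hb']; ring
    have e7 : av U - av V = d := by rw [ha, hb']; ring
    rw [e6, e7]
  rw [e4, e5] at h
  exact h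

theorem max_avg_le {a b c d : ℝ} : max ((a + c) / 2) ((b + d) / 2) ≤ (max a b + max c d) / 2 := by
  apply max_le
  · linarith [le_max_left a b, le_max_left c d]
  · linarith [le_max_right a b, le_max_right c d]

/-- convexity of the two branches of `G` -/
theorem GG_convex {t : ℝ} (ht0 : 0 < t) (ht1 : t < 1) {a b H K : ℝ} (ha : 0 < a ∧ a < 1)
    (hb' : 0 < b ∧ b < 1) (hH : 0 < H) (hK : 0 < K) :
    max (PsiT t ((binEntropy a + binEntropy b) / 2 - (H + K) / 2))
      ((2 * a * (1 - a) + 2 * b * (1 - b)) *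
        RT t (((H + K) / 2) / (2 * a * (1 - a) + 2 * b * (1 - b)))) ≤
    (GG t a H + GG t b K) / 2 := by
  have hma : 0 < 4 * a * (1 - a) := by
    have := mul_pos ha.1 (by linarith [ha.2] : 0 < 1 - a)
    linarith
  have hmb : 0 < 4 * b * (1 - b) := by
    have := mul_pos hb'.1 (by linarith [hb'.2] : 0 < 1 - b)
    linarith
  have h1 : PsiT t ((binEntropy a + binEntropy b) / 2 - (H + K) / 2) ≤
      (PsiT t (binEntropy a - H) + PsiT t (binEntropy b - K)) / 2 := by
    have := (PsiT_convexOn ht0 ht1).2 (Set.mem_univ (binEntropy a - H))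
      (Set.mem_univ (binEntropy b - K)) (by norm_num : (0 : ℝ) ≤ 1 / 2)
      (by norm_num : (0 : ℝ) ≤ 1 / 2) (by norm_num)
    simp only [smul_eq_mul] at this
    have e : (1 : ℝ) / 2 * (binEntropy a - H) + 1 / 2 * (binEntropy b - K) =
        (binEntropy a + binEntropy b) / 2 - (H + K) / 2 := by ring
    rw [e] at this
    linarith
  have h2 := persp_RT_convex ht0 ht1 hma hmb hH hK
  have e : (4 * a * (1 - a) + 4 * b * (1 - b)) / 2 = 2 * a * (1 - a) + 2 * b * (1 - b) := by ring
  rw [e] at h2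
  refine le_trans (max_le_max h1 h2) ?_
  unfold GG
  exact max_avg_le

theorem GG_one_sub (t a H : ℝ) : GG t (1 - a) H = GG t a H := by
  unfold GG
  have e : 4 * (1 - a) * (1 - (1 - a)) = 4 * a * (1 - a) := by ring
  rw [binEntropy_one_sub, e]

/-- the main case `av V < av U`, `av U + av V ≤ 1` -/
theorem TPH_main {t : ℝ} (ht0 : 0 < t) (ht1 : t < 1) (h : TPstar t) {U V : Cube n → ℝ}
    (hU : ∀ x, 0 < U x ∧ U x < 1) (hV : ∀ x, 0 < V x ∧ V x < 1) (hd : av U - av V ≤ 1 / 2)
    (hlt : av V < av U) (hs : av U + av V ≤ 1) :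
    GG t ((av U + av V) / 2)
      ((av (fun x => binEntropy (U x)) + av (fun x => binEntropy (V x))) / 2) ≤
    (GG t (av U) (av (fun x => binEntropy (U x))) +
      GG t (av V) (av (fun x => binEntropy (V x)))) / 2 + av (fun x => WW (U x) (V x)) := by
  obtain ⟨x, hx⟩ : ∃ x, x = 1 - (av U + av V) := ⟨_, rfl⟩
  obtain ⟨d, hdd⟩ : ∃ d, d = av U - av V := ⟨_, rfl⟩
  have hU0 : 0 < av U := av_pos fun x => (hU x).1
  have hV0 : 0 < av V := av_pos fun x => (hV x).1
  have hU1 := av_lt_one hU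
  have hV1 := av_lt_one hV
  have ha : av U = (1 - x + d) / 2 := by rw [hx, hdd]; ring
  have hb' : av V = (1 - x - d) / 2 := by rw [hx, hdd]; ring
  have hH1 : 0 < av (fun x => binEntropy (U x)) :=
    av_pos fun x => binEntropy_pos (hU x).1 (hU x).2
  have hH2 : 0 < av (fun x => binEntropy (V x)) :=
    av_pos fun x => binEntropy_pos (hV x).1 (hV x).2
  have hx0 : 0 ≤ x := by rw [hx]; linarith
  have hd0 : 0 < d := by rw [hdd]; linarith
  have hd2 : d ≤ 1 / 2 := by rw [hdd]; exact hd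
  have hxd : x + d < 1 := by
    have : 0 < (1 - x - d) / 2 := by rw [← hb']; exact hV0
    linarith
  obtain ⟨e1, hM2⟩ := M2_av hU hV hx0 hd0 hxd ha hb' rfl
  have hMb := fun r hr0 hr1 hr => C1_av hU hV hdd rfl (r := r) hr0 hr1 hr
  have hle := GG_convex ht0 ht1 ⟨hU0, hU1⟩ ⟨hV0, hV1⟩ hH1 hH2
  have j1 := av_binEntropy_le hU
  have j2 := av_binEntropy_le hV
  have key := h x d ((av (fun x => binEntropy (U x)) + av (fun x => binEntropy (V x))) / 2)
    (av (fun x => WW (U x) (V x))) hx0 hd0 hd2 hxd (by linarith) (by rw [← e1]; linarith) hM2 hMb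
    (fun s hs0 hs1 => (C1_line hU hV hdd rfl (r := s) hs0 hs1).2.1)
    (fun s hs0 hs1 => (C1_line hU hV hdd rfl (r := s) hs0 hs1).1)
  have e2 : binEntropy ((av U + av V) / 2) = log 2 - Phi x := by
    have : (av U + av V) / 2 = (1 + -x) / 2 := by rw [hx]; ring
    rw [this, binEntropy_half, Phi_neg]
  have e3 : 4 * ((av U + av V) / 2) * (1 - (av U + av V) / 2) = 1 - x ^ 2 := by rw [hx]; ring
  have e4 : 2 * av U * (1 - av U) + 2 * av V * (1 - av V) = 1 - x ^ 2 - d ^ 2 := by
    rw [ha, hb']; ring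
  rw [e1, e4] at hle
  have e5 : GG t ((av U + av V) / 2)
      ((av (fun x => binEntropy (U x)) + av (fun x => binEntropy (V x))) / 2) =
      max (PsiT t (log 2 - Phi x -
        (av (fun x => binEntropy (U x)) + av (fun x => binEntropy (V x))) / 2))
        ((1 - x ^ 2) * RT t ((av (fun x => binEntropy (U x)) +
          av (fun x => binEntropy (V x))) / 2 / (1 - x ^ 2))) := by
    unfold GG
    rw [e2, e3]
  rw [e5]
  linarith

theorem TPH_swap {t : ℝ} (ht0 : 0 < t) (ht1 : t < 1) (h : TPstar t) {U V : Cube n → ℝ}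
    (hU : ∀ x, 0 < U x ∧ U x < 1) (hV : ∀ x, 0 < V x ∧ V x < 1) (hd : |av U - av V| ≤ 1 / 2)
    (hs : av U + av V ≤ 1) :
    GG t ((av U + av V) / 2)
      ((av (fun x => binEntropy (U x)) + av (fun x => binEntropy (V x))) / 2) ≤
    (GG t (av U) (av (fun x => binEntropy (U x))) +
      GG t (av V) (av (fun x => binEntropy (V x)))) / 2 + av (fun x => WW (U x) (V x)) := by
  obtain ⟨h1, h2⟩ := abs_le.1 hd
  rcases lt_trichotomy (av V) (av U) with h3 | h3 | h3
  · exact TPH_main ht0 ht1 h hU hV h2 h3 hs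
  · -- equal averages: convexity
    have hU0 : 0 < av U := av_pos fun x => (hU x).1
    have hU1 := av_lt_one hU
    have hH1 : 0 < av (fun x => binEntropy (U x)) :=
      av_pos fun x => binEntropy_pos (hU x).1 (hU x).2
    have hH2 : 0 < av (fun x => binEntropy (V x)) :=
      av_pos fun x => binEntropy_pos (hV x).1 (hV x).2
    have hle := GG_convex ht0 ht1 ⟨hU0, hU1⟩ ⟨hU0, hU1⟩ hH1 hH2
    have hW : 0 ≤ av (fun x => WW (U x) (V x)) := av_nonneg fun x => WW_nonneg (hU x) (hV x)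
    have e1 : (av U + av U) / 2 = av U := by ring
    have e2 : (binEntropy (av U) + binEntropy (av U)) / 2 = binEntropy (av U) := by ring
    have e3 : 2 * av U * (1 - av U) + 2 * av U * (1 - av U) = 4 * av U * (1 - av U) := by ring
    rw [e2, e3] at hle
    rw [h3, e1]
    have e4 : GG t (av U)
      ((av (fun x => binEntropy (U x)) + av (fun x => binEntropy (V x))) / 2) =
      max (PsiT t (binEntropy (av U) -
        (av (fun x => binEntropy (U x)) + av (fun x => binEntropy (V x))) / 2))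
        (4 * av U * (1 - av U) * RT t ((av (fun x => binEntropy (U x)) +
          av (fun x => binEntropy (V x))) / 2 / (4 * av U * (1 - av U)))) := rfl
    rw [e4]
    linarith
  · have h4 := TPH_main ht0 ht1 h hV hU (by linarith) h3 (by linarith)
    have e1 : (fun x => WW (V x) (U x)) = fun x => WW (U x) (V x) :=
      funext fun x => WW_symm _ _
    rw [e1, add_comm (av V), add_comm (av (fun x => binEntropy (V x))),
      add_comm (GG t (av V) _)] at h4
    exact h4

theorem av_one_sub (f : Cube n → ℝ) : av (fun x => 1 - f x) = 1 - av f := by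
  rw [av_sub (fun _ => 1) f, av_const]

/-- **Reduction**: `TPstar t` implies the two-point inequality for `G`. -/
theorem TPH_of_TPstar {t : ℝ} (ht0 : 0 < t) (ht1 : t < 1) (h : TPstar t) : TPH (GG t) := by
  intro n U V hU hV hd
  rcases le_or_gt (av U + av V) 1 with hs | hs
  · exact TPH_swap ht0 ht1 h hU hV hd hs
  · have hU' : ∀ x, 0 < 1 - U x ∧ 1 - U x < 1 := fun x =>
      ⟨by linarith [(hU x).2], by linarith [(hU x).1]⟩
    have hV' : ∀ x, 0 < 1 - V x ∧ 1 - V x < 1 := fun x =>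
      ⟨by linarith [(hV x).2], by linarith [(hV x).1]⟩
    have h1 := TPH_swap ht0 ht1 h hU' hV' (by
      rw [av_one_sub, av_one_sub]
      have : 1 - av U - (1 - av V) = -(av U - av V) := by ring
      rw [this, abs_neg]
      exact hd) (by rw [av_one_sub, av_one_sub]; linarith)
    have e1 : (fun x => WW (1 - U x) (1 - V x)) = fun x => WW (U x) (V x) := by
      funext x
      unfold WW lgt
      have a1 : 1 - (1 - U x) = U x := by ring
      have a2 : 1 - (1 - V x) = V x := by ring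
      rw [a1, a2]
      ring
    have e2 : (1 - av U + (1 - av V)) / 2 = 1 - (av U + av V) / 2 := by ring
    simp only [binEntropy_one_sub] at h1
    rw [av_one_sub, av_one_sub, e1, e2, GG_one_sub, GG_one_sub, GG_one_sub] at h1
    exact h1

end Vale.Agent.CK
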