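import Vale.Agent.CK.G1Chk
import Vale.Agent.CK.Red

/-!
# P322, part G1: real values of the expressions of `G1Ex`
-/

namespace Vale.Agent.CK.G1

open IA Real

noncomputable def rphiU (u : ℝ) : ℝ :=
  1 / 2 + u * (1 / 12 + u * (1 / 30 + u * (1 / 56 + u * (1 / (90 * (1 - u))))))
noncomputable def rphiL (u : ℝ) : ℝ := 1 / 2 + u * (1 / 12 + u * (1 / 30 + u * (1 / 56)))
noncomputable def rLhL (u : ℝ) : ℝ := 2 + u * (2 / 3 + u * (2 / 5 + u * (2 / 7)))

theorem val_add (a b : Ex) (p q r : ℝ) : val (add a b) p q r = val a p q r + val b p q r := rfl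
theorem val_sub (a b : Ex) (p q r : ℝ) : val (sub a b) p q r = val a p q r - val b p q r := rfl
theorem val_mul (a b : Ex) (p q r : ℝ) : val (mul a b) p q r = val a p q r * val b p q r := rfl
theorem val_inv (a : Ex) (p q r : ℝ) : val (inv a) p q r = (val a p q r)⁻¹ := rfl
theorem val_log (a : Ex) (p q r : ℝ) : val (Ex.log a) p q r = Real.log (val a p q r) := rfl
theorem val_k (m n : ℕ) (p q r : ℝ) : val (k m n) p q r = (m : ℝ) / (n : ℝ) := rfl
theorem val_one (p q r : ℝ) : val one p q r = 1 := by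
  show ((1 : ℕ) : ℝ) / ((1 : ℕ) : ℝ) = 1
  norm_num
theorem val_X (p q r : ℝ) : val X p q r = p := rfl
theorem val_Y (p q r : ℝ) : val Y p q r = q := rfl

theorem val_uu (p q r : ℝ) : val uu p q r = q ^ 2 := by
  rw [uu, val_mul, val_Y]; ring
theorem val_cc (p q r : ℝ) : val cc p q r = p / (2 - p) := by
  rw [cc, val_mul, val_inv, val_sub, val_X, val_k]; norm_num [div_eq_mul_inv]
theorem val_vv (p q r : ℝ) : val vv p q r = (p / (2 - p) * q) ^ 2 := by
  rw [vv, val_mul, val_mul, val_cc, val_uu]; ring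
theorem val_phiU (u : Ex) (p q r : ℝ) : val (phiU u) p q r = rphiU (val u p q r) := by
  simp only [phiU, val_add, val_mul, val_k, val_inv, val_sub, val_one, rphiU]
  push_cast
  ring
theorem val_phiL (u : Ex) (p q r : ℝ) : val (phiL u) p q r = rphiL (val u p q r) := by
  simp only [phiL, val_add, val_mul, val_k, rphiL]
  push_cast
  ring
theorem val_LhL (u : Ex) (p q r : ℝ) : val (LhL u) p q r = rLhL (val u p q r) := by
  simp only [LhL, val_add, val_mul, val_k, rLhL]
  push_cast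
  ring
theorem Phi_logs {a : ℝ} (h0 : -1 < a) (h1 : a < 1) :
    Phi a = ((1 + a) * log (1 + a) + (1 - a) * log (1 - a)) / 2 := by
  have h2 : 0 < 1 + a := by linarith
  have h3 : 0 < 1 - a := by linarith
  unfold Phi binEntropy
  have e1 : 1 - (1 + a) / 2 = (1 - a) / 2 := by ring
  rw [e1, inv_div, inv_div, log_div (by norm_num) h2.ne', log_div (by norm_num) h3.ne']
  ring
theorem val_ent (a : Ex) (p q r : ℝ) (h0 : -1 < val a p q r) (h1 : val a p q r < 1) :
    val (ent a) p q r = Phi (val a p q r) := by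
  simp only [ent, val_add, val_mul, val_k, val_sub, val_one, val_log]
  rw [Phi_logs h0 h1]
  push_cast
  ring
theorem val_wE (a : Ex) (p q r : ℝ) : val (wE a) p q r = wf (val a p q r) := by
  simp only [wE, val_add, val_mul, val_k, val_sub, val_one, val_log, wf, LL]
  push_cast
  ring
theorem val_phiE (p q r : ℝ) (h0 : 0 < q) (h1 : q < 1) : val phiE p q r = Phi q / q ^ 2 := by
  rw [phiE, val_mul, val_inv, val_uu, val_ent _ _ _ _ (by rw [val_Y]; linarith) (by rwa [val_Y]),
    val_Y]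
  rfl
theorem val_LhE (p q r : ℝ) : val LhE p q r = LL q / q := by
  simp only [LhE, val_add, val_mul, val_sub, val_one, val_log, val_Y, LL, val_inv]
  rfl
theorem val_phiT (p q r : ℝ) : val phiT p q r = 69315 / 100000 / q ^ 2 := by
  simp only [phiT, val_mul, val_k, val_inv, val_uu]
  push_cast
  rfl
theorem val_phiC (p q r : ℝ) : val phiC p q r = 679 / 1000 / q ^ 2 := by
  simp only [phiC, val_mul, val_k, val_inv, val_uu]
  push_cast
  rfl
theorem val_sg (p q r : ℝ) : val sg p q r = 1 - p * (1 - q ^ 2) / 4 := by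
  simp only [sg, val_mul, val_k, val_sub, val_one, val_X, val_uu]
  push_cast
  ring
theorem val_muP (p q r : ℝ) : val muP p q r = 2 / ((1 - p * (1 - q ^ 2) / 4) *
    (1 - (p * (1 - p * (1 - q ^ 2) / 4)) * (1 / 2 + (p * (1 - p * (1 - q ^ 2) / 4)) * (1 / 6 +
      (p * (1 - p * (1 - q ^ 2) / 4)) * (1 / 12 + (p * (1 - p * (1 - q ^ 2) / 4)) * (1 / 20)))))) := by
  simp only [muP, sgm, val_mul, val_k, val_sub, val_one, val_X, val_sg, val_add, val_inv]
  push_cast
  simp only [div_one]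
  rfl
theorem val_ss (p q r : ℝ) : val ss p q r = ((2 - p) ^ 2 - p ^ 2 * q ^ 2) / 4 := by
  simp only [ss, val_mul, val_k, val_sub, val_X, val_uu]
  push_cast
  ring
theorem val_muE (p q r : ℝ) : val muE p q r = 2 * p / ((((2 - p) ^ 2 - p ^ 2 * q ^ 2) / 4) *
    (-log (((2 - p) ^ 2 - p ^ 2 * q ^ 2) / 4))) := by
  simp only [muE, val_mul, val_k, val_sub, val_X, val_ss, val_log, val_inv]
  push_cast
  simp only [div_one, zero_sub]
  rfl
theorem val_Jh (ph : Ex) (p q r : ℝ) : val (Jh ph) p q r =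
    val ph p q r / 2 + p / (2 - p) / 2 * rphiU ((p / (2 - p) * q) ^ 2) := by
  simp only [Jh, val_mul, val_k, val_add, val_cc, val_phiU, val_vv]
  push_cast
  ring
theorem val_Jlow (ph : Ex) (p q r : ℝ) : val (Jlow ph) p q r =
    p * q ^ 2 * (val ph p q r / 2 + p / (2 - p) / 2 * rphiL ((p / (2 - p) * q) ^ 2)) := by
  simp only [Jlow, val_mul, val_k, val_add, val_cc, val_phiL, val_vv, val_X, val_uu]
  push_cast
  ring
theorem val_EA (ph lh mu : Ex) (p q r : ℝ) : val (EA ph lh mu) p q r =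
    val lh p q r + p / (2 - p) * rLhL ((p / (2 - p) * q) ^ 2) + val mu p q r * (2069 / 10000) -
      val (Jh ph) p q r * (96 / 10 + (p * q ^ 2 * val (Jh ph) p q r) * (53 / 10 +
        (p * q ^ 2 * val (Jh ph) p q r) * (105 / 10))) := by
  simp only [EA, val_mul, val_k, val_add, val_cc, val_LhL, val_vv, val_X, val_uu, val_sub]
  push_cast
  ring
theorem val_Out (p q r : ℝ) : val Out p q r = p * q - 1 / 2 := by
  simp only [Out, val_mul, val_k, val_X, val_Y, val_sub]
  push_cast
  ring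
theorem val_PhiX (p q r : ℝ) (h0 : 0 < p) (h1 : p < 2) : val PhiX p q r = Phi (1 - p) := by
  simp only [PhiX, val_mul, val_k, val_X, val_sub, val_add, val_log]
  rw [Phi_logs (by linarith) (by linarith)]
  push_cast
  have e1 : 1 + (1 - p) = 2 - p := by ring
  have e2 : 1 - (1 - p) = p := by ring
  rw [e1, e2]
  norm_num
  ring
theorem val_Hup (pl : Ex) (p q r : ℝ) (h0 : 0 < p) (h1 : p < 2) : val (Hup pl) p q r =
    log 2 - Phi (1 - p) - val (Jlow pl) p q r - 2069 / 10000 := by
  simp only [Hup, val_k, val_sub, val_log, lg2, val_PhiX p q r h0 h1]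
  norm_num
theorem val_EB (pu pl : Ex) (a b : ℕ) (p q r : ℝ) (h0 : -1 < (a : ℝ) / b * q)
    (h1 : (a : ℝ) / b * q < 1) : val (EB pu pl a b) p q r =
    2 * ((a : ℝ) / b) * rLhL (((a : ℝ) / b * q) ^ 2) +
      ((a : ℝ) / b) ^ 2 * (8 / ((1 - ((a : ℝ) / b * q) ^ 2) *
        (log 4 - log (1 - ((a : ℝ) / b * q) ^ 2)))) *
        ((log 2 - Phi ((a : ℝ) / b * q)) / ((a : ℝ) / b) - val (Hup pl) p q r / p) -
      11048 / 1000 * val (Jh pu) p q r := by
  have e : val (ent (mul (k a b) Y)) p q r = Phi ((a : ℝ) / b * q) := by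
    rw [val_ent _ _ _ _ (by rw [val_mul, val_k, val_Y]; exact h0)
      (by rw [val_mul, val_k, val_Y]; exact h1), val_mul, val_k, val_Y]
  simp only [EB, val_mul, val_k, val_add, val_LhL, val_X, val_sub, val_inv, val_one, e, val_Y,
    val_log, lg2]
  have e2 : ∀ z : ℝ, z * z = z ^ 2 := fun z => by ring
  simp only [e2]
  push_cast
  simp only [div_eq_mul_inv, inv_one, mul_one]
theorem val_Vd (pl : Ex) (p q r : ℝ) : val (Vd pl) p q r = - val (Hup pl) p q r := by
  simp only [Vd, val_k, val_sub]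
  push_cast
  ring
theorem val_JD (p q r : ℝ) (h0 : -1 < p) (h1 : p < 1) :
    val JD p q r = Phi p - Phi (31 / 50) := by
  have e : val qs p q r = 31 / 50 := by
    rw [qs, val_k]; norm_num
  rw [JD, val_sub, val_ent _ _ _ _ (by rwa [val_X]) (by rwa [val_X]),
    val_ent _ _ _ _ (by rw [e]; norm_num) (by rw [e]; norm_num), e, val_X]
theorem val_ED (p q r : ℝ) (h0 : -1 < p) (h1 : p < 1) : val ED p q r =
    (Phi p - Phi (31 / 50)) * (96 / 10 + (Phi p - Phi (31 / 50)) * (53 / 10 +
      (Phi p - Phi (31 / 50)) * (105 / 10))) - (wf p - wf (31 / 50)) := by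
  have e : val qs p q r = 31 / 50 := by
    rw [qs, val_k]; norm_num
  simp only [ED, val_mul, val_k, val_add, val_sub, val_JD p q r h0 h1, val_wE, e, val_X]
  push_cast
  ring

end Vale.Agent.CK.G1
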