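import Vale.Agent.CK.Red

/-!
# P322: the `RT` half of `TPstar` for `r ≥ 9/10`
-/

namespace Vale.Agent.CK

open Real Set

/-- `η(r) = log 2 - Phi r` in terms of `LL` -/
theorem G2hi_eta_eq {r : ℝ} (h0 : -1 < r) (h1 : r < 1) :
    log 2 - Phi r = log (2 / (1 + r)) + (1 - r) / 2 * LL r := by
  rw [← binEntropy_half, binEntropy_eq_negMulLog_add_negMulLog_one_sub]
  unfold negMulLog LL
  have e : 1 - (1 + r) / 2 = (1 - r) / 2 := by ring
  rw [e, log_div (by linarith) (by norm_num), log_div (by linarith) (by norm_num),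
    log_div (by norm_num) (by linarith)]
  ring

/-- `η(q) ≤ (1 - q²) L(q)/(2 q)` -/
theorem G2hi_eta_le {q : ℝ} (h0 : 0 < q) (h1 : q < 1) :
    (log 2 - Phi q) * (2 * q) ≤ (1 - q ^ 2) * LL q := by
  set p := (1 - q) / 2 with hp
  have hp0 : 0 < p := by rw [hp]; linarith
  have hp1 : p < 1 / 2 := by rw [hp]; linarith
  have hq : q = 1 - 2 * p := by rw [hp]; ring
  have h1p : 0 < 1 - p := by linarith
  have ha : 0 ≤ p / (1 - p) := by positivity
  have hb' : 0 ≤ (1 - 2 * p) / (1 - p) := div_nonneg (by linarith) h1p.le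
  have hab : p / (1 - p) + (1 - 2 * p) / (1 - p) = 1 := by field_simp; ring
  have hcc := strictConcaveOn_log_Ioi.concaveOn.2
  have hc := hcc (mem_Ioi.2 hp0) (mem_Ioi.2 one_pos) ha hb' hab
  have e1 : (p / (1 - p)) • p + ((1 - 2 * p) / (1 - p)) • (1 : ℝ) = 1 - p := by
    simp only [smul_eq_mul]
    field_simp
    ring
  rw [e1] at hc
  simp only [smul_eq_mul, log_one, mul_zero, add_zero] at hc
  have hc2 : p * log p ≤ (1 - p) * log (1 - p) := by
    have := mul_le_mul_of_nonneg_left hc h1p.le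
    have e2 : (1 - p) * (p / (1 - p) * log p) = p * log p := by
      field_simp
    rw [e2] at this
    exact this
  rw [← binEntropy_half, binEntropy_eq_negMulLog_add_negMulLog_one_sub]
  have e3 : (1 + q) / 2 = 1 - p := by rw [hp]; ring
  have e4 : LL q = log (1 - p) - log p := by
    have h5 := lgt_half (r := q) (by linarith) h1
    rw [← h5, e3]
    unfold lgt
    rw [sub_sub_cancel]
  rw [e3, e4, sub_sub_cancel]
  unfold negMulLog
  have e5 : 1 - q ^ 2 = 4 * p * (1 - p) := by rw [hq]; ring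
  rw [e5, hq]
  nlinarith [hc2]

/-- `S(q) = L(q) η(q) / q` is decreasing -/
theorem S_anti : AntitoneOn (fun q : ℝ => LL q * (log 2 - Phi q) / q) (Ioo 0 1) := by
  have hd : ∀ q ∈ Ioo (0 : ℝ) 1, HasDerivAt (fun q : ℝ => LL q * (log 2 - Phi q) / q)
      (((2 / (1 - q ^ 2) * (log 2 - Phi q) + LL q * (-(LL q / 2))) * q -
        LL q * (log 2 - Phi q) * 1) / q ^ 2) q := by
    intro q hq
    have e1 := LL_hasDerivAt (r := q) (by linarith [hq.1]) hq.2
    have e2 := (Phi_hasDerivAt (s := q) (by linarith [hq.1]) hq.2).const_sub (log 2)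
    exact (e1.mul e2).div (hasDerivAt_id q) hq.1.ne'
  refine antitoneOn_of_deriv_nonpos (convex_Ioo 0 1)
    (fun q hq => (hd q hq).continuousAt.continuousWithinAt) ?_ ?_
  · rw [interior_Ioo]
    exact fun q hq => (hd q hq).differentiableAt.differentiableWithinAt
  · rw [interior_Ioo]
    intro q hq
    rw [(hd q hq).deriv]
    have h0 := hq.1
    have h1 := hq.2
    have hL := two_mul_le_LL h0.le h1
    have hη := G2hi_eta_le h0 h1
    have hη0 : 0 < log 2 - Phi q := by linarith [(Phi_mem h0 h1).2]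
    have hs : 0 < 1 - q ^ 2 := by nlinarith
    have hL0 : 0 < LL q := LL_pos h0 h1
    apply div_nonpos_of_nonpos_of_nonneg _ (by positivity)
    set η := log 2 - Phi q with hηdef
    set l := LL q with hl
    have e1 : (2 / (1 - q ^ 2) * η + l * (-(l / 2))) * q - l * η * 1 =
        (4 * q * η * (2 * q - (1 - q ^ 2) * l) - 2 * q ^ 2 * (1 - q ^ 2) * l ^ 2) /
          (4 * q * (1 - q ^ 2)) := by
      field_simp
      ring
    rw [e1]
    apply div_nonpos_of_nonpos_of_nonneg _ (by positivity)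
    rcases le_or_gt (2 * q - (1 - q ^ 2) * l) 0 with hD | hD
    · have : 4 * q * η * (2 * q - (1 - q ^ 2) * l) ≤ 0 :=
        mul_nonpos_of_nonneg_of_nonpos (by positivity) hD
      have h6 : 0 ≤ 2 * q ^ 2 * (1 - q ^ 2) * l ^ 2 := by positivity
      linarith
    · have h3 : 4 * q * η * (2 * q - (1 - q ^ 2) * l) ≤
          2 * ((1 - q ^ 2) * l) * (2 * q - (1 - q ^ 2) * l) := by
        have := mul_le_mul_of_nonneg_right hη hD.le
        nlinarith
      have h4 : 2 * ((1 - q ^ 2) * l) * (2 * q - (1 - q ^ 2) * l) -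
          2 * q ^ 2 * (1 - q ^ 2) * l ^ 2 = 2 * (1 - q ^ 2) * l * (2 * q - l) := by ring
      have h5 : 2 * (1 - q ^ 2) * l * (2 * q - l) ≤ 0 :=
        mul_nonpos_of_nonneg_of_nonpos (by positivity) (by linarith)
      linarith

theorem G2hi_log54 : (0.223 : ℝ) ≤ log (5 / 4) := by
  have h := Real.abs_log_sub_add_sum_range_le (x := 1 / 5) (by norm_num [abs_of_pos]) 5
  rw [abs_le] at h
  have e : log (1 - 1 / 5 : ℝ) = - log (5 / 4) := by
    rw [← log_inv]
    norm_num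
  rw [e] at h
  have h2 := h.2
  norm_num [Finset.sum_range_succ, abs_of_pos] at h2
  linarith

/-- two terms of the logarithm -/
theorem G2hi_log_bounds {z : ℝ} (h0 : 0 ≤ z) (h1 : z ≤ 0.102) :
    -z - z ^ 2 / 2 - 1.12 * z ^ 3 ≤ log (1 - z) ∧ log (1 - z) ≤ -z - z ^ 2 / 2 + 1.12 * z ^ 3 := by
  have h := Real.abs_log_sub_add_sum_range_le (x := z) (by rw [abs_of_nonneg h0]; linarith) 2
  rw [abs_of_nonneg h0] at h
  have h2 : z ^ (2 + 1) / (1 - z) ≤ 1.12 * z ^ 3 := by
    rw [div_le_iff₀ (by linarith)]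
    have : 0 ≤ z ^ 3 := by positivity
    nlinarith
  have h3 := h.trans h2
  rw [abs_le] at h3
  simp only [Finset.sum_range_succ, Finset.sum_range_zero] at h3
  norm_num at h3
  constructor <;> linarith [h3.1, h3.2]

theorem G2hi_LL_ge {r : ℝ} (h0 : 9 / 10 ≤ r) (h1 : r < 1) : 2.93 ≤ LL r := by
  have h2 : log 19 ≤ LL r := by
    unfold LL
    rw [← log_div (by linarith) (by linarith)]
    apply log_le_log (by norm_num)
    rw [le_div_iff₀ (by linarith)]
    linarith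
  have h3 : log 19 = 4 * log 2 + log (19 / 16) := by
    rw [show (4 : ℝ) * log 2 = log (2 ^ 4) by rw [log_pow]; norm_num,
      ← log_mul (by norm_num) (by norm_num)]
    norm_num
  have h4 := Real.one_sub_inv_le_log_of_pos (show (0 : ℝ) < 19 / 16 by norm_num)
  have h5 := Real.log_two_gt_d9
  norm_num at h4
  linarith

theorem G2hi_arith {s l : ℝ} (hs0 : 0 < s) (hs1 : s ≤ 0.3163) (hl0 : 0 ≤ l)
    (hlub : s * l ≤ 0.1633 * s + 0.3125) :
    2 * (1 - 0.64 * s) * s * (0.5264 + (0.69315 - s ^ 2 / 2 + 2 * l) / 2) ≤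
      0.32 * (1 + (1.139 - 0.32 * s - (0.32 * s) ^ 2 / 2 - 1.12 * (0.32 * s) ^ 3 + l)) := by
  rcases lt_or_ge (2 * s - 1.28 * s ^ 2 - 0.32) 0 with hc | hc
  · have h9 : s ≤ 0.19 := by
      by_contra h
      push Not at h
      nlinarith
    have h1 : 0 ≤ (0.32 - 2 * s + 1.28 * s ^ 2) * l := mul_nonneg (by linarith) hl0
    have h2 : s ^ 2 ≤ 0.0361 := by nlinarith
    have h3 : s ^ 3 ≤ 0.007 := by
      have : s ^ 3 = s * s ^ 2 := by ring
      nlinarith
    have h4 : 0 ≤ s ^ 3 := by positivity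
    have h5 : 0 ≤ s ^ 4 := by positivity
    nlinarith
  · obtain ⟨t, ht⟩ : ∃ t, t = 0.3163 - s := ⟨_, rfl⟩
    have hs : s = 0.3163 - t := by linarith
    have ht0 : 0 ≤ t := by linarith
    have ht1 : t ≤ 0.1363 := by nlinarith
    have h11 := mul_le_mul_of_nonneg_left hlub hc
    have h2 : t ^ 2 ≤ 0.1363 * t := by nlinarith
    have h3 : t ^ 3 ≤ 0.0186 * t := by
      have : t ^ 3 = t * t ^ 2 := by ring
      nlinarith
    have h4 : t ^ 4 ≤ 0.0026 * t := by
      have : t ^ 4 = t * t ^ 3 := by ring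
      nlinarith
    have h5 : 0 ≤ t ^ 5 := by positivity
    have hD : 0 ≤ s * (0.32 * (1 + (1.139 - 0.32 * s - (0.32 * s) ^ 2 / 2 -
        1.12 * (0.32 * s) ^ 3)) - 2 * (1 - 0.64 * s) * s * (0.5264 + (0.69315 - s ^ 2 / 2) / 2)) -
        (2 * s - 1.28 * s ^ 2 - 0.32) * (0.1633 * s + 0.3125) := by
      rw [hs]
      have e : (0.3163 - t) * (0.32 * (1 + (1.139 - 0.32 * (0.3163 - t) - (0.32 * (0.3163 - t)) ^ 2 / 2 -
        1.12 * (0.32 * (0.3163 - t)) ^ 3)) - 2 * (1 - 0.64 * (0.3163 - t)) * (0.3163 - t) * (0.5264 + (0.69315 - (0.3163 - t) ^ 2 / 2) / 2)) -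
        (2 * (0.3163 - t) - 1.28 * (0.3163 - t) ^ 2 - 0.32) * (0.1633 * (0.3163 - t) + 0.3125) ≥
        0.003 + 0.572 * t - 0.341 * t ^ 2 - 1.61 * t ^ 3 - 0.02 * t ^ 4 + 0.31 * t ^ 5 := by
        ring_nf
        nlinarith [pow_nonneg ht0 2, pow_nonneg ht0 3, pow_nonneg ht0 4]
      nlinarith
    have hs' : 0 ≤ s * (0.32 * (1 + (1.139 - 0.32 * s - (0.32 * s) ^ 2 / 2 - 1.12 * (0.32 * s) ^ 3 + l)) -
      2 * (1 - 0.64 * s) * s * (0.5264 + (0.69315 - s ^ 2 / 2 + 2 * l) / 2)) := by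
      nlinarith
    have := nonneg_of_mul_nonneg_right hs' hs0
    linarith

theorem G2hi_quot_le {v : ℝ} (h0 : 0 ≤ v) (h1 : v ≤ 0.1001) : 4 / (2 - v) ≤ 2 + 1.0532 * v := by
  rw [div_le_iff₀ (by linarith)]
  nlinarith

theorem G2hi_Q_le {v L η : ℝ} (h0 : 0 < v) (h1 : v ≤ 0.1001) (hL : 2.93 ≤ L)
    (hη : η ≤ v / (2 - v) + v / 2 * L) :
    2 * (1 - v) * L + (4 + 8 * ((1 - v) / ((1 - (1 - v) ^ 2) * L))) * η ≤
      2 * L + 2.6827 + 1.0532 * v := by
  have hL0 : 0 < L := by linarith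
  have h2 : 0 < 2 - v := by linarith
  have e : 1 - (1 - v) ^ 2 = v * (2 - v) := by ring
  rw [e]
  have h3 : 0 ≤ 4 + 8 * ((1 - v) / (v * (2 - v) * L)) := by
    have : 0 ≤ (1 - v) / (v * (2 - v) * L) := div_nonneg (by linarith) (by positivity)
    linarith
  have h4 := mul_le_mul_of_nonneg_left hη h3
  have h5 : (4 + 8 * ((1 - v) / (v * (2 - v) * L))) * (v / (2 - v) + v / 2 * L) =
      4 / (2 - v) + 2 * v * L + 8 * (1 - v) / ((2 - v) ^ 2 * L) := by
    field_simp
    ring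
  have h6 : 8 * (1 - v) / ((2 - v) ^ 2 * L) ≤ 0.6827 := by
    rw [div_le_iff₀ (by positivity)]
    have h7 : (1 - v) * 4 ≤ (2 - v) ^ 2 := by nlinarith
    nlinarith [mul_pos h2 h2]
  have h7 := G2hi_quot_le h0.le h1
  linarith

/-- the explicit certificate parameter for `r ≥ 9/10`, `δ ≥ 1/2` -/
theorem G2hi_exists_rho {r : ℝ} (h0 : 9 / 10 ≤ r) (h1 : r < 1) :
    ∃ ρ, 0 < ρ ∧ ρ < 1 ∧ 2 * ρ * (log 2 - Phi r) ≤ log 2 - Phi ρ ∧
      wf r + lam r * (log 2 - Phi r) ≤ 4 * LL ρ := by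
  obtain ⟨s, hs⟩ : ∃ s, s = sqrt (1 - r) := ⟨_, rfl⟩
  have hs2 : s ^ 2 = 1 - r := by
    rw [hs]
    exact Real.sq_sqrt (by linarith)
  have hs0 : 0 < s := by
    rw [hs]
    exact Real.sqrt_pos.2 (by linarith)
  have hs1 : s ≤ 0.3163 := by
    rw [hs]
    apply Real.sqrt_le_iff.2
    constructor
    · norm_num
    · linarith
  clear hs
  have hr : r = 1 - s ^ 2 := by linarith
  have hL := G2hi_LL_ge h0 h1
  have hlr : LL r = log (2 - s ^ 2) - 2 * log s := by
    unfold LL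
    rw [hr]
    have e1 : 1 + (1 - s ^ 2) = 2 - s ^ 2 := by ring
    have e2 : 1 - (1 - s ^ 2) = s ^ 2 := by ring
    rw [e1, e2, log_pow]
    norm_num
  have hss : s ^ 2 ≤ 0.1001 := by nlinarith
  have hρ0 : (0 : ℝ) < 1 - 0.64 * s := by linarith
  have hlρ : LL (1 - 0.64 * s) = log 2 + log (1 - 0.32 * s) - log 0.64 - log s := by
    unfold LL
    have e1 : 1 + (1 - 0.64 * s) = 2 * (1 - 0.32 * s) := by ring
    have e2 : 1 - (1 - 0.64 * s) = 0.64 * s := by ring
    rw [e1, e2, log_mul (by norm_num) (by linarith), log_mul (by norm_num) hs0.ne']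
    ring
  have h64 : log (0.64 : ℝ) = - (2 * log (5 / 4)) := by
    have e : (0.64 : ℝ) = (4 / 5) ^ 2 := by norm_num
    have e2 : log (4 / 5 : ℝ) = - log (5 / 4) := by
      rw [← log_inv]
      norm_num
    rw [e, log_pow, e2]
    push_cast
    ring
  have hl54 := G2hi_log54
  have hl2 := Real.log_two_gt_d9
  have hl2' := Real.log_two_lt_d9
  have hz := G2hi_log_bounds (z := 0.32 * s) (by positivity) (by linarith)
  have hl2s : log (2 - s ^ 2) = log 2 + log (1 - s ^ 2 / 2) := by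
    rw [← log_mul (by norm_num) (by linarith)]
    congr 1
    ring
  have hl2s' : log (1 - s ^ 2 / 2) ≤ - (s ^ 2 / 2) := by
    have := Real.log_le_sub_one_of_pos (show 0 < 1 - s ^ 2 / 2 by linarith)
    linarith
  have hη : log 2 - Phi r = log (2 / (1 + r)) + (1 - r) / 2 * LL r := G2hi_eta_eq (by linarith) h1
  have hη1 : log (2 / (1 + r)) ≤ s ^ 2 / (2 - s ^ 2) := by
    have := Real.log_le_sub_one_of_pos (show 0 < 2 / (1 + r) by positivity)
    have e : 2 / (1 + r) - 1 = s ^ 2 / (2 - s ^ 2) := by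
      rw [hr]
      have h2 : 1 + (1 - s ^ 2) = 2 - s ^ 2 := by ring
      rw [h2]
      have h' : 2 - s ^ 2 ≠ 0 := by linarith
      field_simp
      ring
    linarith
  have h4 : log 2 - Phi r ≤ s ^ 2 / (2 - s ^ 2) + s ^ 2 / 2 * LL r := by
    rw [hη]
    have : (1 - r) = s ^ 2 := by linarith
    rw [this]
    linarith
  refine ⟨1 - 0.64 * s, hρ0, by linarith, ?_, ?_⟩
  · -- (ii)
    have hηρ := G2hi_eta_eq (r := 1 - 0.64 * s) (by linarith) (by linarith)
    have e1 : log (2 / (1 + (1 - 0.64 * s))) = - log (1 - 0.32 * s) := by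
      rw [← log_inv]
      congr 1
      have h6 : 1 - 0.32 * s ≠ 0 := by linarith
      have h7 : 1 + (1 - 0.64 * s) ≠ 0 := by linarith
      rw [inv_eq_one_div, div_eq_div_iff h7 h6]
      ring
    rw [e1] at hηρ
    have e2 : 1 - (1 - 0.64 * s) = 0.64 * s := by ring
    rw [e2] at hηρ
    have h3 : s * (0.32 * (1 + LL (1 - 0.64 * s))) ≤ log 2 - Phi (1 - 0.64 * s) := by
      have := Real.log_le_sub_one_of_pos (show 0 < 1 - 0.32 * s by linarith)
      have e3 : s * (0.32 * (1 + LL (1 - 0.64 * s))) =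
        0.32 * s + 0.64 * s / 2 * LL (1 - 0.64 * s) := by ring
      rw [hηρ, e3]
      linarith
    have h5 : s ^ 2 / (2 - s ^ 2) ≤ s ^ 2 * 0.5264 := by
      rw [div_le_iff₀ (by linarith)]
      have : 1 ≤ 0.5264 * (2 - s ^ 2) := by linarith
      have h6 : 0 ≤ s ^ 2 := by positivity
      calc s ^ 2 = s ^ 2 * 1 := by ring
        _ ≤ s ^ 2 * (0.5264 * (2 - s ^ 2)) := mul_le_mul_of_nonneg_left this h6
        _ = s ^ 2 * 0.5264 * (2 - s ^ 2) := by ring
    have h6 : 2 * (1 - 0.64 * s) * (log 2 - Phi r) ≤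
        2 * (1 - 0.64 * s) * (s ^ 2 * 0.5264 + s ^ 2 / 2 * LL r) :=
      mul_le_mul_of_nonneg_left (by linarith) (by linarith)
    refine h6.trans (le_trans ?_ h3)
    have h7 : 2 * (1 - 0.64 * s) * s * (0.5264 + LL r / 2) ≤ 0.32 * (1 + LL (1 - 0.64 * s)) := by
      obtain ⟨l, hl⟩ : ∃ l, l = - log s := ⟨_, rfl⟩
      have hl0 : 0 ≤ l := by
        rw [hl]
        have := Real.log_nonpos hs0.le (by linarith)
        linarith
      have hlub : s * l ≤ 0.1633 * s + 0.3125 := by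
        have h8 := Real.log_le_sub_one_of_pos (show 0 < 0.3125 / s by positivity)
        rw [log_div (by norm_num) hs0.ne'] at h8
        have h9 : log (0.3125 : ℝ) = - (2 * log 2) + log (5 / 4) := by
          have : (0.3125 : ℝ) = (5 / 4) / 2 ^ 2 := by norm_num
          rw [this, log_div (by norm_num) (by norm_num), log_pow]
          push_cast
          ring
        rw [h9] at h8
        have h10 : l ≤ 0.1633 + 0.3125 / s := by linarith
        have h11 := mul_le_mul_of_nonneg_left h10 hs0.le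
        have h12 : s * (0.1633 + 0.3125 / s) = 0.1633 * s + 0.3125 := by
          field_simp
        linarith
      have hA : LL r ≤ 0.69315 - s ^ 2 / 2 + 2 * l := by
        rw [hlr, hl2s]
        linarith
      have hB : 1.139 - 0.32 * s - (0.32 * s) ^ 2 / 2 - 1.12 * (0.32 * s) ^ 3 + l ≤
          LL (1 - 0.64 * s) := by
        rw [hlρ, h64]
        linarith [hz.1]
      have hC : 2 * (1 - 0.64 * s) * s * (0.5264 + LL r / 2) ≤
          2 * (1 - 0.64 * s) * s * (0.5264 + (0.69315 - s ^ 2 / 2 + 2 * l) / 2) :=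
        mul_le_mul_of_nonneg_left (by linarith) (by positivity)
      have hD := G2hi_arith hs0 hs1 hl0 hlub
      linarith [hC, hD]
    have h8 := mul_le_mul_of_nonneg_left h7 hs0.le
    have e3 : s * (2 * (1 - 0.64 * s) * s * (0.5264 + LL r / 2)) =
      2 * (1 - 0.64 * s) * (s ^ 2 * 0.5264 + s ^ 2 / 2 * LL r) := by ring
    rw [e3] at h8
    exact h8
  · -- (i)
    have h5 := G2hi_Q_le (v := s ^ 2) (L := LL r) (η := log 2 - Phi r) (by positivity) hss hL h4
    have e : wf r + lam r * (log 2 - Phi r) = 2 * (1 - s ^ 2) * LL r +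
        (4 + 8 * ((1 - s ^ 2) / ((1 - (1 - s ^ 2) ^ 2) * LL r))) * (log 2 - Phi r) := by
      unfold wf lam
      rw [← hr]
    rw [e]
    refine h5.trans ?_
    rw [hlρ, h64, hlr, hl2s]
    have h6 : 0 ≤ s ^ 3 := by positivity
    have h7 : s ^ 3 ≤ 0.0317 := by
      have h10 : s ^ 3 = s * s ^ 2 := by ring
      rw [h10]
      calc s * s ^ 2 ≤ 0.3163 * 0.1001 := mul_le_mul hs1 hss (by positivity) (by norm_num)
        _ ≤ 0.0317 := by norm_num
    have h8 : (0.32 * s) ^ 3 ≤ 0.0011 := by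
      have : (0.32 * s) ^ 3 = 0.032768 * s ^ 3 := by ring
      linarith
    have h9 : (0.32 * s) ^ 2 / 2 ≤ 0.0052 := by
      have : (0.32 * s) ^ 2 / 2 = 0.0512 * s ^ 2 := by ring
      linarith
    linarith [hz.1]

/-- the `RT` half of `TPstar` for `r ≥ 9/10` -/
theorem G2hi {x d r M : ℝ} (hx : 0 ≤ x) (hd : 0 < d) (hd2 : d ≤ 1 / 2) (hxd : x + d < 1)
    (hr0 : 9 / 10 ≤ r) (hr1 : r < 1)
    (hMb : ∀ q, 0 < q → q < 1 → q * ((1 - x ^ 2) * (log 2 - Phi r)) ≤ d * (log 2 - Phi q) →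
      2 * d * LL q ≤ M) :
    (1 - x ^ 2) * wf r ≤ (1 - x ^ 2 - d ^ 2) * RT (3 / 4)
      ((1 - x ^ 2) * (log 2 - Phi r) / (1 - x ^ 2 - d ^ 2)) + M := by
  have hr00 : 0 < r := by linarith
  have hm : 0 < 1 - x ^ 2 := by nlinarith
  have hm1 : 1 - x ^ 2 ≤ 1 := by nlinarith
  have hv : 0 < 1 - x ^ 2 - d ^ 2 := by nlinarith [mul_nonneg hx hd.le]
  have hη0 : 0 < log 2 - Phi r := by linarith [(Phi_mem hr00 hr1).2]
  have hH : 0 < (1 - x ^ 2) * (log 2 - Phi r) := mul_pos hm hη0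
  have h1 := persp_RT_ge (a := 3 / 4) (q := r) (by norm_num) (by linarith) hr1 hv hH
  obtain ⟨Q, hQ⟩ : ∃ Q, Q = wf r + lam r * (log 2 - Phi r) := ⟨_, rfl⟩
  have hlam := lam_pos hr00 hr1
  have hwf := wf_nonneg hr00.le hr1
  have hQ0 : 0 < Q := by
    rw [hQ]
    have : 0 < lam r * (log 2 - Phi r) := mul_pos (by linarith) hη0
    linarith
  -- it suffices to have `d² Q ≤ M`
  suffices h : d ^ 2 * Q ≤ M by
    rw [← hQ] at h1
    have e : Q * (1 - x ^ 2 - d ^ 2) - lam r * ((1 - x ^ 2) * (log 2 - Phi r)) =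
        (1 - x ^ 2) * wf r - d ^ 2 * Q := by
      rw [hQ]; ring
    rw [e] at h1
    linarith
  obtain ⟨ρ, hρ0, hρ1, hρ2, hρ3⟩ := G2hi_exists_rho hr0 hr1
  rw [← hQ] at hρ3
  set η := log 2 - Phi r with hηdef
  obtain ⟨δ, hδ⟩ : ∃ δ, δ = d / (1 - x ^ 2) := ⟨_, rfl⟩
  have hδm : d = δ * (1 - x ^ 2) := by
    rw [hδ]
    field_simp
  have hδ0 : 0 < δ := by
    rw [hδ]
    positivity
  have hdδ : d ≤ δ := by
    rw [hδm]
    nlinarith
  have hηρ0 : 0 < log 2 - Phi ρ := by linarith [(Phi_mem hρ0 hρ1).2]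
  rcases le_or_gt (ρ * η) (δ * (log 2 - Phi ρ)) with hcase | hcase
  · -- certificate `ρ`
    have h3 := hMb ρ hρ0 hρ1 (by
      have e1 : ρ * ((1 - x ^ 2) * η) = (ρ * η) * (1 - x ^ 2) := by ring
      have e2 : d * (log 2 - Phi ρ) = δ * (log 2 - Phi ρ) * (1 - x ^ 2) := by
        rw [hδm]; ring
      rw [e1, e2]
      exact mul_le_mul_of_nonneg_right hcase hm.le)
    refine le_trans ?_ h3
    have h4 : d * Q ≤ 2 * LL ρ := by
      have := mul_le_mul_of_nonneg_right hd2 hQ0.le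
      linarith
    have h5 := mul_le_mul_of_nonneg_left h4 hd.le
    have e3 : d ^ 2 * Q = d * (d * Q) := by ring
    have e4 : 2 * d * LL ρ = d * (2 * LL ρ) := by ring
    rw [e3, e4]
    exact h5
  · -- `δ < ρ η_r / η_ρ`, use `S` antitone
    obtain ⟨q, hq0, hqρ, hq⟩ : ∃ q, 0 < q ∧ q ≤ ρ ∧ q * η = δ * (log 2 - Phi q) := by
      have hcont : ContinuousOn (fun q : ℝ => q * η - δ * (log 2 - Phi q)) (Icc 0 ρ) := by
        have := Phi_continuous
        fun_prop
      have h0' : (fun q : ℝ => q * η - δ * (log 2 - Phi q)) 0 ≤ 0 := by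
        simp only [Phi_zero]
        have h5 : 0 < log 2 := log_pos (by norm_num)
        have h6 := mul_pos hδ0 h5
        linarith
      have h1' : 0 ≤ (fun q : ℝ => q * η - δ * (log 2 - Phi q)) ρ := by
        simp only
        linarith
      obtain ⟨q, hq, hqe⟩ := intermediate_value_Icc hρ0.le hcont ⟨h0', h1'⟩
      simp only at hqe
      refine ⟨q, ?_, hq.2, by linarith⟩
      rcases eq_or_lt_of_le hq.1 with h | h
      · exfalso
        rw [← h, Phi_zero] at hqe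
        have h5 : 0 < log 2 := log_pos (by norm_num)
        have h6 := mul_pos hδ0 h5
        linarith
      · exact h
    have hq1 : q < 1 := hqρ.trans_lt hρ1
    have hηq0 : 0 < log 2 - Phi q := by linarith [(Phi_mem hq0 hq1).2]
    have h3 := hMb q hq0 hq1 (by
      rw [hδm]
      have : q * ((1 - x ^ 2) * η) = (1 - x ^ 2) * (q * η) := by ring
      rw [this, hq]
      exact le_of_eq (by ring))
    refine le_trans ?_ h3
    -- `S q ≥ S ρ ≥ Q η / 2`
    have hS := S_anti ⟨hq0, hq1⟩ ⟨hρ0, hρ1⟩ hqρ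
    simp only at hS
    have hS2 : Q * η / 2 ≤ LL ρ * (log 2 - Phi ρ) / ρ := by
      rw [le_div_iff₀ hρ0]
      have h5 : Q / 4 * (2 * ρ * η) ≤ LL ρ * (log 2 - Phi ρ) := by
        apply mul_le_mul (by linarith) hρ2 (by positivity)
        linarith
      linarith
    have hS3 : Q * η / 2 ≤ LL q * (log 2 - Phi q) / q := hS2.trans hS
    have hS4 : LL q * (log 2 - Phi q) / q = LL q * η / δ := by
      rw [div_eq_div_iff hq0.ne' hδ0.ne']
      have : LL q * (log 2 - Phi q) * δ = LL q * (δ * (log 2 - Phi q)) := by ring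
      rw [this, ← hq]
      ring
    rw [hS4, le_div_iff₀ hδ0] at hS3
    have hS5 : Q * δ ≤ 2 * LL q := by
      have h6 : (Q * δ - 2 * LL q) * η ≤ 0 := by linarith
      by_contra h7
      push Not at h7
      have h8 : 0 < (Q * δ - 2 * LL q) * η := mul_pos (by linarith) hη0
      linarith
    have h8 : d * Q ≤ 2 * LL q := by
      have := mul_le_mul_of_nonneg_right hdδ hQ0.le
      linarith
    have h9 := mul_le_mul_of_nonneg_left h8 hd.le
    have e3 : d ^ 2 * Q = d * (d * Q) := by ring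
    have e4 : 2 * d * LL q = d * (2 * LL q) := by ring
    rw [e3, e4]
    exact h9

end Vale.Agent.CK
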