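import Vale.Agent.CK.G2hi
import Vale.Agent.CK.Final

/-!
# P322: `PartG2` on `[9/10, 1)`
-/

namespace Vale.Agent.CK

open Real

theorem partG2_hi : PartG2 (Set.Ico (9 / 10) 1) := by
  intro x d r M hx hd hd2 hxd hr _ hMb _
  exact (G2hi hx hd hd2 hxd hr.1 hr.2 hMb).trans (add_le_add_left (le_max_right _ _) M)

end Vale.Agent.CK
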