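import Vale.Agent.CK.G2zone
import Vale.Agent.CK.Final

/-!
# P322: the `G2` part for `r ∈ [3/4, 9/10]`
-/

namespace Vale.Agent.CK.G2m

open Real Set Vale.Agent.CK.IA

/-! ### the tail `x ≥ 23/25` -/

theorem eta_quarter : log 2 / 2 ≤ log 2 - Phi (1 / 4) := by
  have hc : check [Ex.sub (eEt (Ex.k 1 4)) (Ex.mul (Ex.k 1 2) (Ex.log (Ex.k 2 1)))] (Tr.l 0) Z0 =
      true := by decide +kernel
  have hv := pos_of_check hc
  have e1 := val_eEt (Ex.k 1 4) 0 0 0 (by norm_num [val]) (by norm_num [val])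
  simp only [val, e1] at hv
  norm_num at hv
  linarith

theorem tail_num : wf (9 / 10) + 8 * (log 2 - Phi (9 / 10)) ≤ 2 * (-log (8 / 100) + 92 / 100) := by
  have hc : check [Ex.sub (Ex.sub (Ex.mul (Ex.k 2 1) (Ex.sub (Ex.k 92 100) (Ex.log (Ex.k 8 100))))
      (eW (Ex.k 9 10))) (Ex.mul (Ex.k 8 1) (eEt (Ex.k 9 10)))] (Tr.l 0) Z0 = true := by
    decide +kernel
  have hv := pos_of_check hc
  have e1 := val_eEt (Ex.k 9 10) 0 0 0 (by norm_num [val]) (by norm_num [val])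
  simp only [val, e1, val_eW] at hv
  norm_num at hv ⊢
  linarith

theorem lam_ge_eight {r : ℝ} (h0 : 0 < r) (h1 : r < 1) : 8 ≤ lam r := by
  unfold lam
  have h3 := LL_le_aux h0.le h1
  have h4 := LL_pos h0 h1
  have h6 : 0 < (1 - r ^ 2) * LL r := mul_pos (one_sub_sq_pos (by linarith) h1) h4
  have h7 : (1 : ℝ) / 2 ≤ r / ((1 - r ^ 2) * LL r) := by
    rw [le_div_iff₀ h6]; linarith
  linarith

theorem w8_mono {r : ℝ} (h0 : 0 < r) (h1 : r ≤ 9 / 10) :
    wf r + 8 * (log 2 - Phi r) ≤ wf (9 / 10) + 8 * (log 2 - Phi (9 / 10)) := by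
  have h2 := wf_ge_tangent (r := r) (s := 9 / 10) h0 (by linarith) (by norm_num) (by norm_num)
  have h3 := lam_ge_eight h0 (by linarith : r < 1)
  have h4 := Phi_anti h0.le h1 (by norm_num)
  nlinarith

theorem binEntropy_ge_line {t p : ℝ} (ht0 : 0 ≤ t) (htp : t ≤ p) (hp0 : 0 < p) (hp1 : p ≤ 1) :
    t / p * binEntropy p ≤ binEntropy t := by
  have hc := strictConcave_binEntropy.concaveOn
  have h := hc.2 (show p ∈ Icc (0 : ℝ) 1 from ⟨hp0.le, hp1⟩)
    (show (0 : ℝ) ∈ Icc (0 : ℝ) 1 from ⟨le_rfl, zero_le_one⟩)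
    (div_nonneg ht0 hp0.le) (sub_nonneg.2 ((div_le_one hp0).2 htp)) (by ring)
  simp only [smul_eq_mul, binEntropy_zero, mul_zero, add_zero] at h
  rw [div_mul_cancel₀ _ hp0.ne'] at h
  exact h

theorem hb_ge {x d : ℝ} (hd0 : 0 < d) (hxd : x + d < 1) (hx0 : 0 ≤ x) :
    binEntropy (1 - x) / 2 ≤ hb x d := by
  have h1 : log 2 - Phi (x + d) = binEntropy ((1 - x - d) / 2) := by
    unfold Phi
    rw [show (1 - x - d) / 2 = 1 - (1 + (x + d)) / 2 by ring, binEntropy_one_sub]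
    ring
  have h2 : log 2 - Phi (x - d) = binEntropy ((1 - x + d) / 2) := by
    unfold Phi
    rw [show (1 - x + d) / 2 = 1 - (1 + (x - d)) / 2 by ring, binEntropy_one_sub]
    ring
  have h3 := binEntropy_ge_line (t := (1 - x - d) / 2) (p := 1 - x) (by linarith) (by linarith)
    (by linarith) (by linarith)
  have h4 := binEntropy_ge_line (t := (1 - x + d) / 2) (p := 1 - x) (by linarith) (by linarith)
    (by linarith) (by linarith)
  have h5 : (1 - x - d) / 2 / (1 - x) * binEntropy (1 - x) +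
      (1 - x + d) / 2 / (1 - x) * binEntropy (1 - x) = binEntropy (1 - x) := by
    have : 1 - x ≠ 0 := by linarith
    field_simp
    ring
  unfold hb
  linarith

theorem binEntropy_low {p : ℝ} (hp0 : 0 < p) (hp1 : p ≤ 8 / 100) :
    p * (-log (8 / 100) + 92 / 100) ≤ binEntropy p := by
  rw [binEntropy_eq_negMulLog_add_negMulLog_one_sub]
  unfold negMulLog
  have h1 : log p ≤ log (8 / 100) := log_le_log hp0 hp1
  have h2 : log (1 - p) ≤ -p := by
    have := log_le_sub_one_of_pos (by linarith : 0 < 1 - p)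
    linarith
  nlinarith

theorem tail {x d r : ℝ} (hx : 92 / 100 ≤ x) (hd0 : 0 < d) (hxd : x + d < 1)
    (hr0 : 3 / 4 ≤ r) (hr1 : r ≤ 9 / 10) :
    (1 - x ^ 2) * wf r ≤ PsiT (3 / 4) (hb x d - (1 - x ^ 2) * (log 2 - Phi r)) := by
  have h1 := PsiT_ge_eight (hb x d - (1 - x ^ 2) * (log 2 - Phi r))
  have h2 := hb_ge hd0 hxd (by linarith)
  have hp0 : 0 < 1 - x := by linarith
  have h3 := binEntropy_low hp0 (by linarith)
  have h4 := w8_mono (by linarith : 0 < r) hr1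
  have h5 := tail_num
  have h6 : (1 - x ^ 2) * (wf r + 8 * (log 2 - Phi r)) ≤ 8 * hb x d := by
    have hW : 0 ≤ wf r + 8 * (log 2 - Phi r) := by
      have := wf_nonneg (r := r) (by linarith) (by linarith)
      have := (Phi_mem (r := r) (by linarith) (by linarith)).2
      linarith
    calc (1 - x ^ 2) * (wf r + 8 * (log 2 - Phi r)) ≤
        (2 * (1 - x)) * (wf r + 8 * (log 2 - Phi r)) := by
          apply mul_le_mul_of_nonneg_right _ hW
          nlinarith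
      _ ≤ (2 * (1 - x)) * (2 * (-log (8 / 100) + 92 / 100)) := by
          apply mul_le_mul_of_nonneg_left (by linarith) (by linarith)
      _ = 4 * ((1 - x) * (-log (8 / 100) + 92 / 100)) := by ring
      _ ≤ 4 * binEntropy (1 - x) := by linarith
      _ ≤ 8 * hb x d := by linarith
  linarith

theorem M_nonneg {d H M : ℝ} (hd0 : 0 < d) (hd1 : d ≤ 1 / 2) (hH : H ≤ log 2)
    (hMb : ∀ q, 0 < q → q < 1 → q * H ≤ d * (log 2 - Phi q) → 2 * d * LL q ≤ M) : 0 ≤ M := by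
  have h1 := Phi_anti (r := d / 2) (s := 1 / 4) (by linarith) (by linarith) (by norm_num)
  have h2 := hMb (d / 2) (by linarith) (by linarith) (by
    have := eta_quarter
    nlinarith)
  have h3 := LL_nonneg (r := d / 2) (by linarith) (by linarith)
  nlinarith [mul_nonneg hd0.le h3]

theorem G2mid : PartG2 (Icc (3 / 4) (9 / 10)) := by
  intro x d r M hx0 hd0 hd1 hxd hr _ hMb hC1
  obtain ⟨hr0, hr1⟩ := hr
  have hx1 : x < 1 := by linarith
  have hm : 0 < 1 - x ^ 2 := by nlinarith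
  have hm1 : 1 - x ^ 2 ≤ 1 := by nlinarith [sq_nonneg x]
  have hM : 0 ≤ M := by
    refine M_nonneg hd0 hd1 ?_ hMb
    have h1 := Phi_mem (r := r) (by linarith) (by linarith)
    nlinarith [h1.1, h1.2]
  -- the slice
  obtain ⟨D0, hD00, hcase⟩ : ∃ D0 : ℝ, 0 < D0 ∧
      ((75 / 100 ≤ r ∧ r ≤ 78 / 100 ∧ D0 = 17 / 100) ∨ (78 / 100 ≤ r ∧ r ≤ 82 / 100 ∧ D0 = 26 / 100) ∨
      (82 / 100 ≤ r ∧ r ≤ 86 / 100 ∧ D0 = 36 / 100) ∨
      (86 / 100 ≤ r ∧ r ≤ 90 / 100 ∧ D0 = 44 / 100)) := by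
    rcases le_total r (78 / 100) with h | h
    · exact ⟨17 / 100, by norm_num, Or.inl ⟨by linarith, h, rfl⟩⟩
    rcases le_total r (82 / 100) with h' | h'
    · exact ⟨26 / 100, by norm_num, Or.inr (Or.inl ⟨h, h', rfl⟩)⟩
    rcases le_total r (86 / 100) with h'' | h''
    · exact ⟨36 / 100, by norm_num, Or.inr (Or.inr (Or.inl ⟨h', h'', rfl⟩))⟩
    · exact ⟨44 / 100, by norm_num, Or.inr (Or.inr (Or.inr ⟨h'', by linarith, rfl⟩))⟩
  rcases le_or_gt d (D0 * (1 - x ^ 2)) with hd | hd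
  · exact (G2_small hx0 hd0 hd1 hxd hMb hd hcase).trans (add_le_add_left (le_max_right _ _) M)
  rcases le_or_gt x (92 / 100) with hx | hx
  · obtain ⟨δ, hδ⟩ : ∃ δ, δ = d / (1 - x ^ 2) := ⟨_, rfl⟩
    have hdδ : d = (1 - x ^ 2) * δ := by rw [hδ]; field_simp
    have hδ0 : D0 ≤ δ := by
      rw [hδ, le_div_iff₀ hm]; exact hd.le
    have hδ1 : δ ≤ 2 / 3 := by
      rw [hδ, div_le_iff₀ hm]
      rcases le_total x (1 / 2) with h | h
      · nlinarith
      · nlinarith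
    refine le_trans ?_ (add_le_add_left (le_max_left _ _) M)
    rw [hdδ] at hC1 hd1 hxd ⊢
    rcases hcase with ⟨h1, h2, h3⟩ | ⟨h1, h2, h3⟩ | ⟨h1, h2, h3⟩ | ⟨h1, h2, h3⟩ <;> subst h3
    · exact zone1 hx0 hx hδ0 hδ1 h1 h2 hxd hd1 hC1
    · exact zone2 hx0 hx hδ0 hδ1 h1 h2 hxd hd1 hC1
    · exact zone3 hx0 hx hδ0 hδ1 h1 h2 hxd hd1 hC1
    · exact zone4 hx0 hx hδ0 hδ1 h1 h2 hxd hd1 hC1
  · have h1 := tail hx.le hd0 hxd hr0 hr1
    have h2 := le_max_left (PsiT (3 / 4) (hb x d - (1 - x ^ 2) * (log 2 - Phi r)))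
      ((1 - x ^ 2 - d ^ 2) * RT (3 / 4) ((1 - x ^ 2) * (log 2 - Phi r) / (1 - x ^ 2 - d ^ 2)))
    linarith

end Vale.Agent.CK.G2m
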