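import Mathlib

/-!
Kernel-checked ball arithmetic with automatic differentiation (mean value form).
A ball `⟨p, n, r⟩` encloses the real `x` when `|x * 2^40 - (p - n)| ≤ r`.
All arithmetic is on natural numbers, so that `decide +kernel` evaluates it quickly.
-/

namespace Vale.Agent.CK.IA

/-- a ball: centre `(p - n) / 2^40`, radius `r / 2^40` -/
structure B where
  p : Nat
  n : Nat
  r : Nat

/-- the scale -/
noncomputable def SC : ℝ := 1099511627776

theorem SC_pos : 0 < SC := by unfold SC; norm_num

/-- `x` is in the ball -/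
def B.mem (b : B) (x : ℝ) : Prop := |x * SC - ((b.p : ℝ) - (b.n : ℝ))| ≤ (b.r : ℝ)

def badd (a b : B) : B :=
  ⟨Nat.sub (Nat.add a.p b.p) (Nat.add a.n b.n), Nat.sub (Nat.add a.n b.n) (Nat.add a.p b.p),
    Nat.add a.r b.r⟩

def bsub (a b : B) : B :=
  ⟨Nat.sub (Nat.add a.p b.n) (Nat.add a.n b.p), Nat.sub (Nat.add a.n b.p) (Nat.add a.p b.n),
    Nat.add a.r b.r⟩

def bmul (a b : B) : B :=
  ⟨Nat.shiftRight (Nat.add (Nat.mul a.p b.p) (Nat.mul a.n b.n)) 40,
    Nat.shiftRight (Nat.add (Nat.mul a.p b.n) (Nat.mul a.n b.p)) 40,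
    Nat.add (Nat.shiftRight (Nat.add (Nat.add (Nat.mul (Nat.add a.p a.n) b.r)
      (Nat.mul (Nat.add b.p b.n) a.r)) (Nat.mul a.r b.r)) 40) 2⟩

/-- inverse of a positive ball -/
def binv (a : B) : Option B :=
  match Nat.ble (Nat.succ (Nat.add a.n a.r)) a.p with
  | true => some ⟨Nat.div 1208925819614629174706176 (Nat.sub a.p a.n), 0,
      Nat.add (Nat.div (Nat.mul 1208925819614629174706176 a.r)
        (Nat.mul (Nat.sub a.p a.n) (Nat.sub (Nat.sub a.p a.n) a.r))) 2⟩
  | false => none

/-- Horner scheme for `atanh` : `y` is the square of the argument. -/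
def hor (y : Nat) : Nat :=
  Nat.add 1099511627776 (Nat.shiftRight (Nat.mul y
  (Nat.add 366503875925 (Nat.shiftRight (Nat.mul y
  (Nat.add 219902325555 (Nat.shiftRight (Nat.mul y
  (Nat.add 157073089682 (Nat.shiftRight (Nat.mul y
  (Nat.add 122167958641 (Nat.shiftRight (Nat.mul y
  (Nat.add 99955602525 (Nat.shiftRight (Nat.mul y
  84577817521) 40))) 40))) 40))) 40))) 40))) 40)

/-- `log (m / 2^k)` scaled, where `2^k ≤ m < 2^(k+1)`; `w = 2^k` -/
def logu (m w : Nat) : Nat :=
  let s := Nat.div (Nat.mul (Nat.sub m w) 1099511627776) (Nat.add m w)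
  Nat.shiftRight (Nat.mul (Nat.mul 2 s) (hor (Nat.shiftRight (Nat.mul s s) 40))) 40

def lg1 (m : Nat) : Nat := match Nat.ble 2 m with | true => 1 | false => 0
def lg2 (m : Nat) : Nat := match Nat.ble 4 m with
  | true => Nat.add 2 (lg1 (Nat.shiftRight m 2)) | false => lg1 m
def lg4 (m : Nat) : Nat := match Nat.ble 16 m with
  | true => Nat.add 4 (lg2 (Nat.shiftRight m 4)) | false => lg2 m
def lg8 (m : Nat) : Nat := match Nat.ble 256 m with
  | true => Nat.add 8 (lg4 (Nat.shiftRight m 8)) | false => lg4 m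
def lg16 (m : Nat) : Nat := match Nat.ble 65536 m with
  | true => Nat.add 16 (lg8 (Nat.shiftRight m 16)) | false => lg8 m
/-- binary logarithm of `m < 2^64` -/
def lg32 (m : Nat) : Nat := match Nat.ble 4294967296 m with
  | true => Nat.add 32 (lg16 (Nat.shiftRight m 32)) | false => lg16 m

/-- logarithm of a positive ball, with the exponent `k` and `w = 2^k` given -/
def blog2 (a : B) (m k w : Nat) : Option B :=
  match Nat.ble w m with
  | true =>
    match Nat.ble m (Nat.mul 2 w) with
    | true =>
      some (badd ⟨Nat.add (Nat.mul (Nat.sub k 40) 762123384786) (Nat.add (logu m w) 8000),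
          Nat.mul (Nat.sub 40 k) 762123384786,
          Nat.add (Nat.div (Nat.mul 1099511627776 a.r) (Nat.sub m a.r))
          (Nat.add 8100 (Nat.mul 600 (Nat.add (Nat.sub k 40) (Nat.sub 40 k))))⟩ ⟨0, 0, 0⟩)
    | false => none
  | false => none

def blog1 (a : B) (m k : Nat) : Option B := blog2 a m k (Nat.pow 2 k)

/-- logarithm of a positive ball -/
def blog (a : B) : Option B :=
  match Nat.ble (Nat.succ (Nat.add a.n a.r)) a.p with
  | true => blog1 a (Nat.sub a.p a.n) (lg32 (Nat.sub a.p a.n))
  | false => none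


/-- expressions in three variables -/
inductive Ex where
  | x : Ex
  | y : Ex
  | z : Ex
  | k : Nat → Nat → Ex
  | add : Ex → Ex → Ex
  | sub : Ex → Ex → Ex
  | mul : Ex → Ex → Ex
  | inv : Ex → Ex
  | log : Ex → Ex

/-- value of an expression -/
noncomputable def val : Ex → ℝ → ℝ → ℝ → ℝ
  | Ex.x, a, _, _ => a
  | Ex.y, _, b, _ => b
  | Ex.z, _, _, c => c
  | Ex.k m n, _, _, _ => (m : ℝ) / (n : ℝ)
  | Ex.add e f, a, b, c => val e a b c + val f a b c
  | Ex.sub e f, a, b, c => val e a b c - val f a b c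
  | Ex.mul e f, a, b, c => val e a b c * val f a b c
  | Ex.inv e, a, b, c => (val e a b c)⁻¹
  | Ex.log e, a, b, c => Real.log (val e a b c)

/-- value at the centre, value on the box, gradient on the box -/
structure J where
  c : B
  v : B
  g1 : Option B
  g2 : Option B
  g3 : Option B

def gadd : Option B → Option B → Option B
  | none, g => g
  | some a, none => some a
  | some a, some b => some (badd a b)

def gsub : Option B → Option B → Option B
  | g, none => g
  | none, some b => some ⟨b.n, b.p, b.r⟩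
  | some a, some b => some (bsub a b)

def gneg : Option B → Option B
  | none => none
  | some b => some ⟨b.n, b.p, b.r⟩

def gmul (a : B) : Option B → Option B
  | none => none
  | some g => some (bmul a g)

def jadd (a b : J) : J := ⟨badd a.c b.c, badd a.v b.v, gadd a.g1 b.g1, gadd a.g2 b.g2, gadd a.g3 b.g3⟩
def jsub (a b : J) : J := ⟨bsub a.c b.c, bsub a.v b.v, gsub a.g1 b.g1, gsub a.g2 b.g2, gsub a.g3 b.g3⟩
def jmul (a b : J) : J := ⟨bmul a.c b.c, bmul a.v b.v, gadd (gmul a.v b.g1) (gmul b.v a.g1),
  gadd (gmul a.v b.g2) (gmul b.v a.g2), gadd (gmul a.v b.g3) (gmul b.v a.g3)⟩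
def jscale (s : B) (a : J) (c v : B) : J := ⟨c, v, gmul s a.g1, gmul s a.g2, gmul s a.g3⟩
def jnscale (s : B) (a : J) (c v : B) : J :=
  ⟨c, v, gneg (gmul s a.g1), gneg (gmul s a.g2), gneg (gmul s a.g3)⟩

def jinv (a : J) : Option J :=
  match binv a.c with
  | some ic => match binv a.v with
    | some iv => some (jnscale (bmul iv iv) a ic iv)
    | none => none
  | none => none

def jlog (a : J) : Option J :=
  match blog a.c with
  | some lc => match blog a.v with
    | some lv => match binv a.v with
      | some iv => some (jscale iv a lc lv)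
      | none => none
    | none => none
  | none => none

/-- a box: lower corner and widths, scaled by `2^40` -/
structure Bx where
  lx : Nat
  wx : Nat
  ly : Nat
  wy : Nat
  lz : Nat
  wz : Nat

/-- midpoint and radius of `[l, l + w]` -/
def mid (l w : Nat) : Nat := Nat.add l (Nat.shiftRight w 1)
def rad (w : Nat) : Nat := Nat.sub w (Nat.shiftRight w 1)

def one : B := ⟨1099511627776, 0, 0⟩

def ev : Ex → Bx → Option J
  | Ex.x, b => some ⟨⟨mid b.lx b.wx, 0, 0⟩, ⟨mid b.lx b.wx, 0, rad b.wx⟩, some one, none, none⟩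
  | Ex.y, b => some ⟨⟨mid b.ly b.wy, 0, 0⟩, ⟨mid b.ly b.wy, 0, rad b.wy⟩, none, some one, none⟩
  | Ex.z, b => some ⟨⟨mid b.lz b.wz, 0, 0⟩, ⟨mid b.lz b.wz, 0, rad b.wz⟩, none, none, some one⟩
  | Ex.k m n, _ => match n with
    | 0 => none
    | n' + 1 => some ⟨⟨Nat.div (Nat.mul m 1099511627776) (Nat.succ n'), 0, 1⟩,
        ⟨Nat.div (Nat.mul m 1099511627776) (Nat.succ n'), 0, 1⟩, none, none, none⟩
  | Ex.add e f, b => match ev e b with
    | some j => match ev f b with
      | some l => some (jadd j l)
      | none => none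
    | none => none
  | Ex.sub e f, b => match ev e b with
    | some j => match ev f b with
      | some l => some (jsub j l)
      | none => none
    | none => none
  | Ex.mul e f, b => match ev e b with
    | some j => match ev f b with
      | some l => some (jmul j l)
      | none => none
    | none => none
  | Ex.inv e, b => match ev e b with
    | some j => jinv j
    | none => none
  | Ex.log e, b => match ev e b with
    | some j => jlog j
    | none => none

def gb : Option B → Nat → Nat
  | none, _ => 0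
  | some b, r => Nat.mul (Nat.add b.p (Nat.add b.n b.r)) r

/-- positivity on the box by the mean value form -/
def posJ (j : J) (rx ry rz : Nat) : Bool :=
  Nat.ble (Nat.succ (Nat.add j.c.n (Nat.add j.c.r (Nat.succ (Nat.shiftRight
    (Nat.add (gb j.g1 rx) (Nat.add (gb j.g2 ry) (gb j.g3 rz))) 40))))) j.c.p

def chk (e : Ex) (b : Bx) : Bool :=
  match ev e b with
  | some j => posJ j (rad b.wx) (rad b.wy) (rad b.wz)
  | none => false

/-- subdivision trees; a leaf names the expression whose positivity is checked -/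
inductive Tr where
  | l : Nat → Tr
  | x : Tr → Tr → Tr
  | y : Tr → Tr → Tr
  | z : Tr → Tr → Tr

def getE : List Ex → Nat → Option Ex
  | [], _ => none
  | e :: _, 0 => some e
  | _ :: es, n + 1 => getE es n

def check (F : List Ex) : Tr → Bx → Bool
  | Tr.l i, b => match getE F i with
    | some e => chk e b
    | none => false
  | Tr.x s t, b => match check F s ⟨b.lx, Nat.shiftRight b.wx 1, b.ly, b.wy, b.lz, b.wz⟩ with
    | true => check F t ⟨Nat.add b.lx (Nat.shiftRight b.wx 1), Nat.sub b.wx (Nat.shiftRight b.wx 1),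
        b.ly, b.wy, b.lz, b.wz⟩
    | false => false
  | Tr.y s t, b => match check F s ⟨b.lx, b.wx, b.ly, Nat.shiftRight b.wy 1, b.lz, b.wz⟩ with
    | true => check F t ⟨b.lx, b.wx, Nat.add b.ly (Nat.shiftRight b.wy 1),
        Nat.sub b.wy (Nat.shiftRight b.wy 1), b.lz, b.wz⟩
    | false => false
  | Tr.z s t, b => match check F s ⟨b.lx, b.wx, b.ly, b.wy, b.lz, Nat.shiftRight b.wz 1⟩ with
    | true => check F t ⟨b.lx, b.wx, b.ly, b.wy, Nat.add b.lz (Nat.shiftRight b.wz 1),
        Nat.sub b.wz (Nat.shiftRight b.wz 1)⟩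
    | false => false

end Vale.Agent.CK.IA
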