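import Mathlib
import Vale.Agent.CK.IA

/-! Soundness of the ball arithmetic. -/

namespace Vale.Agent.CK.IA

theorem cast_sub_sub (u v : ℕ) : ((u - v : ℕ) : ℝ) - ((v - u : ℕ) : ℝ) = u - v := by
  rcases le_total u v with h | h
  · rw [Nat.sub_eq_zero_of_le h, Nat.cast_sub h]; push_cast; ring
  · rw [Nat.sub_eq_zero_of_le h, Nat.cast_sub h]; push_cast; ring

theorem badd_mem {a b : B} {x y : ℝ} (hx : a.mem x) (hy : b.mem y) : (badd a b).mem (x + y) := by
  unfold B.mem at *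
  have h1 : (badd a b).p = (a.p + b.p) - (a.n + b.n) := rfl
  have h2 : (badd a b).n = (a.n + b.n) - (a.p + b.p) := rfl
  have h3 : (badd a b).r = a.r + b.r := rfl
  rw [h1, h2, h3, cast_sub_sub]
  rw [abs_le] at *
  push_cast
  constructor <;> nlinarith [hx.1, hx.2, hy.1, hy.2]

theorem bsub_mem {a b : B} {x y : ℝ} (hx : a.mem x) (hy : b.mem y) : (bsub a b).mem (x - y) := by
  unfold B.mem at *
  have h1 : (bsub a b).p = (a.p + b.n) - (a.n + b.p) := rfl
  have h2 : (bsub a b).n = (a.n + b.p) - (a.p + b.n) := rfl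
  have h3 : (bsub a b).r = a.r + b.r := rfl
  rw [h1, h2, h3, cast_sub_sub]
  rw [abs_le] at *
  push_cast
  constructor <;> nlinarith [hx.1, hx.2, hy.1, hy.2]

theorem bneg_mem {b : B} {x : ℝ} (hx : b.mem x) : (⟨b.n, b.p, b.r⟩ : B).mem (-x) := by
  unfold B.mem at *
  simp only
  rw [abs_le] at *
  constructor <;> nlinarith [hx.1, hx.2]

theorem shift_le (n : ℕ) : ((Nat.shiftRight n 40 : ℕ) : ℝ) ≤ (n : ℝ) / SC := by
  have h : Nat.shiftRight n 40 = n / 1099511627776 := by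
    have := Nat.shiftRight_eq_div_pow n 40
    norm_num at this
    exact this
  rw [h]
  have := @Nat.cast_div_le ℝ _ _ _ n 1099511627776
  unfold SC
  exact_mod_cast this

theorem le_shift (n : ℕ) : (n : ℝ) / SC ≤ ((Nat.shiftRight n 40 : ℕ) : ℝ) + 1 := by
  have h : Nat.shiftRight n 40 = n / 1099511627776 := by
    have := Nat.shiftRight_eq_div_pow n 40
    norm_num at this
    exact this
  rw [h, div_le_iff₀ SC_pos]
  have h1 : n < 1099511627776 * (n / 1099511627776 + 1) := Nat.lt_mul_div_succ n (by norm_num)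
  have h2 : (n : ℝ) < 1099511627776 * ((n / 1099511627776 : ℕ) + 1) := by exact_mod_cast h1
  unfold SC
  linarith

theorem div_le' (n m : ℕ) : ((n / m : ℕ) : ℝ) ≤ (n : ℝ) / (m : ℝ) := Nat.cast_div_le

theorem le_div' (n m : ℕ) (hm : 0 < m) : (n : ℝ) / (m : ℝ) ≤ ((n / m : ℕ) : ℝ) + 1 := by
  have hm' : (0 : ℝ) < m := by exact_mod_cast hm
  rw [div_le_iff₀ hm']
  have h1 : n < m * (n / m + 1) := Nat.lt_mul_div_succ n hm
  have h2 : (n : ℝ) < m * ((n / m : ℕ) + 1) := by exact_mod_cast h1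
  linarith

theorem abs_mid_le (b : B) : |(b.p : ℝ) - b.n| ≤ (b.p : ℝ) + b.n := by
  have h1 : (0 : ℝ) ≤ b.p := Nat.cast_nonneg _
  have h2 : (0 : ℝ) ≤ b.n := Nat.cast_nonneg _
  rw [abs_le]; constructor <;> linarith

theorem bmul_mem {a b : B} {x y : ℝ} (hx : a.mem x) (hy : b.mem y) : (bmul a b).mem (x * y) := by
  unfold B.mem at *
  set P := a.p * b.p + a.n * b.n with hP
  set N := a.p * b.n + a.n * b.p with hN
  set Q := (a.p + a.n) * b.r + (b.p + b.n) * a.r + a.r * b.r with hQ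
  have h1 : (bmul a b).p = Nat.shiftRight P 40 := rfl
  have h2 : (bmul a b).n = Nat.shiftRight N 40 := rfl
  have h3 : (bmul a b).r = Nat.shiftRight Q 40 + 2 := rfl
  rw [h1, h2, h3]
  have hSC := SC_pos
  set e := x * SC - ((a.p : ℝ) - a.n) with he
  set f := y * SC - ((b.p : ℝ) - b.n) with hf
  have hxe : x * SC = ((a.p : ℝ) - a.n) + e := by rw [he]; ring
  have hyf : y * SC = ((b.p : ℝ) - b.n) + f := by rw [hf]; ring
  have hxy : x * y * SC = (((a.p : ℝ) - a.n) + e) * (((b.p : ℝ) - b.n) + f) / SC := by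
    rw [← hxe, ← hyf]; field_simp
  have hPN : ((a.p : ℝ) - a.n) * ((b.p : ℝ) - b.n) = (P : ℝ) - (N : ℝ) := by
    rw [hP, hN]; push_cast; ring
  have hQr : (Q : ℝ) = ((a.p : ℝ) + a.n) * b.r + ((b.p : ℝ) + b.n) * a.r + a.r * b.r := by
    rw [hQ]; push_cast; ring
  have herr : |((a.p : ℝ) - a.n) * f + ((b.p : ℝ) - b.n) * e + e * f| ≤ (Q : ℝ) := by
    rw [hQr]
    have e1 : |((a.p : ℝ) - a.n) * f| ≤ ((a.p : ℝ) + a.n) * b.r := by
      rw [abs_mul]; exact mul_le_mul (abs_mid_le a) hy (abs_nonneg _) (by positivity)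
    have e2 : |((b.p : ℝ) - b.n) * e| ≤ ((b.p : ℝ) + b.n) * a.r := by
      rw [abs_mul]; exact mul_le_mul (abs_mid_le b) hx (abs_nonneg _) (by positivity)
    have e3 : |e * f| ≤ (a.r : ℝ) * b.r := by
      rw [abs_mul]; exact mul_le_mul hx hy (abs_nonneg _) (by positivity)
    calc |((a.p : ℝ) - a.n) * f + ((b.p : ℝ) - b.n) * e + e * f|
        ≤ |((a.p : ℝ) - a.n) * f + ((b.p : ℝ) - b.n) * e| + |e * f| := abs_add_le _ _
      _ ≤ |((a.p : ℝ) - a.n) * f| + |((b.p : ℝ) - b.n) * e| + |e * f| := by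
          gcongr; exact abs_add_le _ _
      _ ≤ _ := by linarith
  have hxy2 : x * y * SC = ((P : ℝ) - N) / SC +
      (((a.p : ℝ) - a.n) * f + ((b.p : ℝ) - b.n) * e + e * f) / SC := by
    rw [hxy, ← add_div, ← hPN]; congr 1; ring
  have hb1 := shift_le P
  have hb2 := le_shift P
  have hb3 := shift_le N
  have hb4 := le_shift N
  have hb5 := le_shift Q
  have herr2 : |(((a.p : ℝ) - a.n) * f + ((b.p : ℝ) - b.n) * e + e * f) / SC| ≤ (Q : ℝ) / SC := by
    rw [abs_div, abs_of_pos hSC]; gcongr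
  rw [abs_le] at herr2 ⊢
  rw [hxy2, sub_div]
  push_cast
  constructor <;> linarith [herr2.1, herr2.2]

theorem ble_succ {a b : ℕ} (h : Nat.ble (Nat.succ a) b = true) : a < b := Nat.le_of_ble_eq_true h

theorem binv_mem {a b : B} {x : ℝ} (hx : a.mem x) (h : binv a = some b) :
    0 < x ∧ b.mem x⁻¹ := by
  unfold binv at h
  split at h
  case h_2 => exact absurd h (by simp)
  case h_1 hb =>
    have hlt : a.n + a.r < a.p := ble_succ hb
    have hM : ((a.p - a.n : ℕ) : ℝ) = (a.p : ℝ) - a.n := by rw [Nat.cast_sub (by omega)]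
    set M := a.p - a.n with hMd
    have hMr : a.r < M := by omega
    have hMr' : (a.r : ℝ) < M := by exact_mod_cast hMr
    have hr0 : (0 : ℝ) ≤ a.r := Nat.cast_nonneg _
    have hSC := SC_pos
    unfold B.mem at hx
    set e := x * SC - ((a.p : ℝ) - a.n) with he
    have hxe : x * SC = (M : ℝ) + e := by rw [he, hM]; ring
    have he1 := abs_le.1 hx
    have hpos : 0 < (M : ℝ) + e := by linarith [he1.1]
    have hx0 : 0 < x := by
      have : 0 < x * SC := by rw [hxe]; exact hpos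
      exact pos_of_mul_pos_left this hSC.le
    refine ⟨hx0, ?_⟩
    have hb' : b = ⟨1208925819614629174706176 / M, 0,
      1208925819614629174706176 * a.r / (M * (M - a.r)) + 2⟩ := (Option.some.inj h).symm
    rw [hb']
    unfold B.mem
    simp only
    have hSS : SC * SC = 1208925819614629174706176 := by unfold SC; norm_num
    have hinv : x⁻¹ * SC = SC * SC / ((M : ℝ) + e) := by
      rw [← hxe]; field_simp
    have hM0 : (0 : ℝ) < M := by linarith
    have hdiff : |SC * SC / ((M : ℝ) + e) - SC * SC / M| ≤ SC * SC * a.r / (M * (M - a.r)) := by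
      have : SC * SC / ((M : ℝ) + e) - SC * SC / M = SC * SC * (-e) / (M * (M + e)) := by
        field_simp; ring
      rw [this, abs_div, abs_mul, abs_neg, abs_of_pos (by positivity : 0 < SC * SC),
        abs_of_pos (by positivity : (0 : ℝ) < M * (M + e))]
      gcongr
      nlinarith
    have h1 := div_le' 1208925819614629174706176 M
    have h2 := le_div' 1208925819614629174706176 M (by omega)
    have h3 := le_div' (1208925819614629174706176 * a.r) (M * (M - a.r))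
      (Nat.mul_pos (by omega) (by omega))
    rw [Nat.cast_mul, Nat.cast_mul, Nat.cast_sub hMr.le] at h3
    have hc : ((1208925819614629174706176 : ℕ) : ℝ) = SC * SC := by rw [hSS]; norm_num
    rw [hc] at h1 h2 h3
    rw [hinv]
    rw [abs_le] at hdiff ⊢
    push_cast
    push_cast at h1 h2 h3
    constructor <;> linarith [hdiff.1, hdiff.2]

/-- the atanh polynomial -/
noncomputable def TT (q : ℝ) : ℝ :=
  1 + q * (1 / 3 + q * (1 / 5 + q * (1 / 7 + q * (1 / 9 + q * (1 / 11 + q * (1 / 13))))))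

theorem hor_step (y t c : ℕ) (Y τ γ : ℝ) (hy : (y : ℝ) ≤ Y) (hy2 : Y ≤ y + 2)
    (hY : Y ≤ SC / 8) (ht : (t : ℝ) ≤ τ) (ht2 : τ ≤ t + 8) (hτ : τ ≤ 3 / 2 * SC)
    (hc : (c : ℝ) ≤ γ) (hc2 : γ ≤ c + 1) :
    ((c + Nat.shiftRight (y * t) 40 : ℕ) : ℝ) ≤ γ + Y * τ / SC ∧
      γ + Y * τ / SC ≤ ((c + Nat.shiftRight (y * t) 40 : ℕ) : ℝ) + 8 := by
  have hSC := SC_pos
  have h1 := shift_le (y * t)
  have h2 := le_shift (y * t)
  have hy0 : (0 : ℝ) ≤ y := Nat.cast_nonneg _
  have ht0 : (0 : ℝ) ≤ t := Nat.cast_nonneg _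
  push_cast at h1 h2 ⊢
  have h3 : (y : ℝ) * t / SC ≤ Y * τ / SC := by gcongr; linarith
  have h4 : Y * τ / SC ≤ (y : ℝ) * t / SC + 5 := by
    rw [div_le_iff₀ hSC, add_mul, div_mul_cancel₀ _ hSC.ne']
    have e1 : Y * τ - (y : ℝ) * t = (Y - y) * τ + y * (τ - t) := by ring
    have e2 : (Y - y) * τ ≤ 2 * (3 / 2 * SC) := by
      apply mul_le_mul (by linarith) hτ (by linarith) (by norm_num)
    have e3 : (y : ℝ) * (τ - t) ≤ (SC / 8) * 8 := by
      apply mul_le_mul (by linarith) (by linarith) (by linarith) (by positivity)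
    nlinarith
  constructor <;> linarith

theorem hor_bound (y : ℕ) (q : ℝ) (hy : (y : ℝ) ≤ q * SC) (hy2 : q * SC ≤ y + 2)
    (hq : q ≤ 1 / 8) : (hor y : ℝ) ≤ TT q * SC ∧ TT q * SC ≤ (hor y : ℝ) + 8 := by
  have hSC := SC_pos
  have hy0 : (0 : ℝ) ≤ y := Nat.cast_nonneg _
  have hq0 : 0 ≤ q := by
    by_contra hneg
    push Not at hneg
    nlinarith
  have hY : q * SC ≤ SC / 8 := by nlinarith
  have b6 : (0 : ℝ) ≤ 1 / 13 := by norm_num
  -- tail values
  set u6 : ℝ := 1 / 13 with hu6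
  set u5 : ℝ := 1 / 11 + q * u6 with hu5
  set u4 : ℝ := 1 / 9 + q * u5 with hu4
  set u3 : ℝ := 1 / 7 + q * u4 with hu3
  set u2 : ℝ := 1 / 5 + q * u3 with hu2
  set u1 : ℝ := 1 / 3 + q * u2 with hu1
  have p5 : 0 ≤ u5 := by positivity
  have p4 : 0 ≤ u4 := by positivity
  have p3 : 0 ≤ u3 := by positivity
  have p2 : 0 ≤ u2 := by positivity
  have p1 : 0 ≤ u1 := by positivity
  have k5 : u5 ≤ 1 := by nlinarith
  have k4 : u4 ≤ 1 := by nlinarith
  have k3 : u3 ≤ 1 := by nlinarith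
  have k2 : u2 ≤ 1 := by nlinarith
  have k1 : u1 ≤ 1 := by nlinarith
  have hS : SC = 1099511627776 := rfl
  have s6 : ((84577817521 : ℕ) : ℝ) ≤ u6 * SC ∧ u6 * SC ≤ ((84577817521 : ℕ) : ℝ) + 8 := by
    rw [hu6, hS]; norm_num
  have st : ∀ (t c : ℕ) (u g : ℝ), (t : ℝ) ≤ u * SC → u * SC ≤ t + 8 → u ≤ 1 →
      (c : ℝ) ≤ g * SC → g * SC ≤ c + 1 →
      ((c + Nat.shiftRight (y * t) 40 : ℕ) : ℝ) ≤ (g + q * u) * SC ∧
      (g + q * u) * SC ≤ ((c + Nat.shiftRight (y * t) 40 : ℕ) : ℝ) + 8 := by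
    intro t c u g h1 h2 h3 h4 h5
    have := hor_step y t c (q * SC) (u * SC) (g * SC) hy hy2 hY h1 h2 (by nlinarith) h4 h5
    have e : g * SC + q * SC * (u * SC) / SC = (g + q * u) * SC := by field_simp
    rw [e] at this
    exact this
  have s5 := st _ 99955602525 u6 (1 / 11) s6.1 s6.2 (by rw [hu6]; norm_num)
    (by rw [hS]; norm_num) (by rw [hS]; norm_num)
  have s4 := st _ 122167958641 u5 (1 / 9) s5.1 s5.2 k5 (by rw [hS]; norm_num) (by rw [hS]; norm_num)
  have s3 := st _ 157073089682 u4 (1 / 7) s4.1 s4.2 k4 (by rw [hS]; norm_num) (by rw [hS]; norm_num)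
  have s2 := st _ 219902325555 u3 (1 / 5) s3.1 s3.2 k3 (by rw [hS]; norm_num) (by rw [hS]; norm_num)
  have s1 := st _ 366503875925 u2 (1 / 3) s2.1 s2.2 k2 (by rw [hS]; norm_num) (by rw [hS]; norm_num)
  have s0 := st _ 1099511627776 u1 1 s1.1 s1.2 k1 (by rw [hS]; norm_num) (by rw [hS]; norm_num)
  exact s0

/-- the series estimate -/
theorem atanh_bound (s : ℝ) (h0 : 0 ≤ s) (h1 : s ≤ 1 / 3) :
    2 * s * TT (s ^ 2) ≤ Real.log (1 + s) - Real.log (1 - s) ∧
      Real.log (1 + s) - Real.log (1 - s) ≤ 2 * s * TT (s ^ 2) + (3 / 20) * s ^ 15 := by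
  have hs : |s| < 1 := by rw [abs_of_nonneg h0]; linarith
  have hsum := Real.hasSum_log_sub_log_of_abs_lt_one hs
  set f : ℕ → ℝ := fun k : ℕ => (2 : ℝ) * (1 / (2 * k + 1)) * s ^ (2 * k + 1) with hf
  have hfin : ∑ k ∈ Finset.range 7, f k = 2 * s * TT (s ^ 2) := by
    simp only [Finset.sum_range_succ, Finset.sum_range_zero, hf, TT]
    push_cast
    ring
  have hnn : ∀ k, 0 ≤ f k := by intro k; simp only [hf]; positivity
  constructor
  · rw [← hfin]
    exact sum_le_hasSum _ (fun k _ => hnn k) hsum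
  · have htail := (hasSum_nat_add_iff' 7).mpr hsum
    rw [hfin] at htail
    have hgeo : HasSum (fun k : ℕ => (2 / 15) * s ^ 15 * (s ^ 2) ^ k)
        ((2 / 15) * s ^ 15 * (1 - s ^ 2)⁻¹) :=
      (hasSum_geometric_of_lt_one (by positivity) (by nlinarith)).mul_left _
    have hle := hasSum_le (fun k => ?_) htail hgeo
    · have h2 : (2 / 15) * s ^ 15 * (1 - s ^ 2)⁻¹ ≤ (3 / 20) * s ^ 15 := by
        have h3 : (1 - s ^ 2)⁻¹ ≤ 9 / 8 := by
          rw [inv_le_comm₀ (by nlinarith) (by norm_num)]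
          nlinarith
        have h4 : 0 ≤ s ^ 15 := by positivity
        nlinarith
      linarith
    · simp only [hf]
      have e1 : s ^ (2 * (k + 7) + 1) = s ^ 15 * (s ^ 2) ^ k := by
        rw [← pow_mul, ← pow_add]; congr 1; ring
      rw [e1]
      have e2 : (2 : ℝ) * (1 / (2 * ((k + 7 : ℕ) : ℝ) + 1)) ≤ 2 / 15 := by
        rw [mul_one_div, div_le_div_iff₀ (by positivity) (by norm_num)]
        push_cast
        have : (0 : ℝ) ≤ k := Nat.cast_nonneg _
        nlinarith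
      have e3 : 0 ≤ s ^ 15 * (s ^ 2) ^ k := by positivity
      nlinarith

theorem logu_bound (m w : ℕ) (hw : 0 < w) (h1 : w ≤ m) (h2 : m ≤ 2 * w) :
    (logu m w : ℝ) ≤ Real.log ((m : ℝ) / w) * SC ∧
      Real.log ((m : ℝ) / w) * SC ≤ (logu m w : ℝ) + 16000 := by
  have hSC := SC_pos
  have hS : SC = 1099511627776 := rfl
  set st : ℕ := (m - w) * 1099511627776 / (m + w) with hst
  set yy : ℕ := Nat.shiftRight (st * st) 40 with hyy
  have hl : logu m w = Nat.shiftRight (2 * st * hor yy) 40 := rfl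
  rw [hl]
  have hw' : (0 : ℝ) < w := by exact_mod_cast hw
  have hm' : (w : ℝ) ≤ m := by exact_mod_cast h1
  have hm2 : (m : ℝ) ≤ 2 * w := by exact_mod_cast h2
  set s : ℝ := ((m : ℝ) - w) / (m + w) with hs
  have hs0 : 0 ≤ s := div_nonneg (by linarith) (by linarith)
  have hs1 : s ≤ 1 / 3 := by rw [hs, div_le_iff₀ (by linarith)]; linarith
  have hlog : Real.log ((m : ℝ) / w) = Real.log (1 + s) - Real.log (1 - s) := by
    rw [← Real.log_div (by linarith) (by linarith)]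
    congr 1
    rw [hs]
    have hmw : (m : ℝ) + w ≠ 0 := by linarith
    have hw0 := hw'.ne'
    have e1 : 1 + ((m : ℝ) - w) / (m + w) = 2 * m / (m + w) := by field_simp; ring
    have e2 : 1 - ((m : ℝ) - w) / (m + w) = 2 * w / (m + w) := by field_simp; ring
    rw [e1, e2, div_div_div_cancel_right₀ hmw]
    field_simp
  have hst1 : (st : ℝ) ≤ s * SC := by
    have := div_le' ((m - w) * 1099511627776) (m + w)
    rw [hs, hS]
    rw [Nat.cast_mul, Nat.cast_sub h1] at this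
    push_cast at this
    calc (st : ℝ) ≤ _ := this
      _ = _ := by ring
  have hst2 : s * SC ≤ (st : ℝ) + 1 := by
    have := le_div' ((m - w) * 1099511627776) (m + w) (by omega)
    rw [hs, hS]
    rw [Nat.cast_mul, Nat.cast_sub h1] at this
    push_cast at this
    calc _ = ((m : ℝ) - w) * 1099511627776 / (m + w) := by ring
      _ ≤ _ := this
  have hst0 : (0 : ℝ) ≤ st := Nat.cast_nonneg _
  have hy1 : (yy : ℝ) ≤ s ^ 2 * SC := by
    have := shift_le (st * st)
    push_cast at this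
    calc (yy : ℝ) ≤ (st : ℝ) * st / SC := this
      _ ≤ (s * SC) * (s * SC) / SC := by gcongr
      _ = s ^ 2 * SC := by field_simp
  have hy2 : s ^ 2 * SC ≤ (yy : ℝ) + 2 := by
    have h3 := le_shift (st * st)
    push_cast at h3
    have h4 : s ^ 2 * SC ≤ ((st : ℝ) + 1) * (st + 1) / SC := by
      calc s ^ 2 * SC = (s * SC) * (s * SC) / SC := by field_simp
        _ ≤ _ := by gcongr
    have h5 : ((st : ℝ) + 1) * (st + 1) / SC ≤ (st : ℝ) * st / SC + 1 := by
      rw [div_add' _ _ _ hSC.ne']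
      gcongr
      have : (st : ℝ) ≤ SC / 3 := by nlinarith
      rw [hS] at this ⊢
      nlinarith
    linarith
  have hq : s ^ 2 ≤ 1 / 8 := by nlinarith
  obtain ⟨a1, a2⟩ := hor_bound yy (s ^ 2) hy1 hy2 hq
  obtain ⟨b1, b2⟩ := atanh_bound s hs0 hs1
  have hh0 : (0 : ℝ) ≤ hor yy := Nat.cast_nonneg _
  have c1 := shift_le (2 * st * hor yy)
  have c2 := le_shift (2 * st * hor yy)
  push_cast at c1 c2
  have hTT : TT (s ^ 2) ≤ 2 := by
    have hq0 : 0 ≤ s ^ 2 := by positivity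
    have key : ∀ u c : ℝ, 0 ≤ u → u ≤ 1 → 0 ≤ c → c ≤ 1 / 3 → 
        0 ≤ c + s ^ 2 * u ∧ c + s ^ 2 * u ≤ 1 := by
      intro u c hu hu1 hc0 hc
      constructor
      · positivity
      · nlinarith
    have k5 := key (1 / 13) (1 / 11) (by norm_num) (by norm_num) (by norm_num) (by norm_num)
    have k4 := key _ (1 / 9) k5.1 k5.2 (by norm_num) (by norm_num)
    have k3 := key _ (1 / 7) k4.1 k4.2 (by norm_num) (by norm_num)
    have k2 := key _ (1 / 5) k3.1 k3.2 (by norm_num) (by norm_num)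
    have k1 := key _ (1 / 3) k2.1 k2.2 (by norm_num) (by norm_num)
    unfold TT
    nlinarith [k1.1, k1.2]
  rw [hlog]
  constructor
  · calc _ ≤ 2 * (st : ℝ) * hor yy / SC := c1
      _ ≤ 2 * (s * SC) * (TT (s ^ 2) * SC) / SC := by gcongr
      _ = 2 * s * TT (s ^ 2) * SC := by field_simp
      _ ≤ _ := mul_le_mul_of_nonneg_right b1 hSC.le
  · have hT0 : 0 ≤ TT (s ^ 2) * SC := le_trans hh0 a1
    have hsS0 : 0 ≤ s * SC := mul_nonneg hs0 hSC.le
    have e2 : (hor yy : ℝ) ≤ 2 * SC :=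
      le_trans a1 (mul_le_mul_of_nonneg_right hTT hSC.le)
    have e3 : (st : ℝ) ≤ SC / 3 := by
      have : s * SC ≤ 1 / 3 * SC := mul_le_mul_of_nonneg_right hs1 hSC.le
      linarith
    have d1 : 2 * s * TT (s ^ 2) * SC ≤ 2 * (st : ℝ) * hor yy / SC + 20 := by
      have e0 : 2 * s * TT (s ^ 2) * SC = 2 * ((s * SC) * (TT (s ^ 2) * SC)) / SC := by
        field_simp
      have e1 : (s * SC) * (TT (s ^ 2) * SC) ≤ (st + 1) * (hor yy + 8) :=
        mul_le_mul hst2 a2 hT0 (by linarith)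
      have e4 : ((st : ℝ) + 1) * (hor yy + 8) = st * hor yy + 8 * st + hor yy + 8 := by ring
      have e5 : 2 * (st : ℝ) * hor yy = 2 * (st * hor yy) := by ring
      have e6 : (8 : ℝ) ≤ SC := by rw [hS]; norm_num
      rw [e0, e5, div_add' _ _ _ hSC.ne', div_le_div_iff_of_pos_right hSC]
      linarith
    have d2 : (3 / 20) * s ^ 15 * SC ≤ 11600 := by
      have h15 : s ^ 15 ≤ (1 / 3) ^ 15 := pow_le_pow_left₀ hs0 hs1 15
      have h16 : (3 / 20) * s ^ 15 * SC ≤ (3 / 20) * (1 / 3) ^ 15 * SC :=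
        mul_le_mul_of_nonneg_right (by linarith) hSC.le
      refine le_trans h16 ?_
      rw [hS]; norm_num
    have d3 : (Real.log (1 + s) - Real.log (1 - s)) * SC ≤
        (2 * s * TT (s ^ 2) + (3 / 20) * s ^ 15) * SC := mul_le_mul_of_nonneg_right b2 hSC.le
    have d4 : (2 * s * TT (s ^ 2) + (3 / 20) * s ^ 15) * SC =
      2 * s * TT (s ^ 2) * SC + (3 / 20) * s ^ 15 * SC := by ring
    linarith

end Vale.Agent.CK.IA
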