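import Mathlib
import Vale.Agent.CK.IASound

/-! Soundness of evaluation and of the subdivision check. -/

namespace Vale.Agent.CK.IA

theorem blog2_mem {a b : B} {x : ℝ} {m k : ℕ} (hx : a.mem x) (hlt : a.n + a.r < a.p)
    (hm : m = a.p - a.n) (h : blog2 a m k (Nat.pow 2 k) = some b) :
    b.mem (Real.log x) := by
  unfold blog2 at h
  split at h
  case h_2 => exact absurd h (by simp)
  case h_1 hb1 =>
  split at h
  case h_2 => exact absurd h (by simp)
  case h_1 hb2 =>
    have hw1 : 2 ^ k ≤ m := Nat.le_of_ble_eq_true hb1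
    have hw2 : m ≤ 2 * 2 ^ k := Nat.le_of_ble_eq_true hb2
    have hSC := SC_pos
    have hS : SC = 1099511627776 := rfl
    have hb := (Option.some.inj h).symm
    have hM : (m : ℝ) = (a.p : ℝ) - a.n := by rw [hm, Nat.cast_sub (by omega)]
    have hMr : a.r < m := by omega
    have hMr' : (a.r : ℝ) < m := by exact_mod_cast hMr
    have hr0 : (0 : ℝ) ≤ a.r := Nat.cast_nonneg _
    unfold B.mem at hx
    set e := x * SC - ((a.p : ℝ) - a.n) with he
    have hxe : x * SC = (m : ℝ) + e := by rw [he, hM]; ring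
    have he1 := abs_le.1 hx
    have hpos : 0 < (m : ℝ) + e := by linarith [he1.1]
    have hx0 : 0 < x := by
      have : 0 < x * SC := by rw [hxe]; exact hpos
      exact pos_of_mul_pos_left this hSC.le
    have hm0 : (0 : ℝ) < m := by linarith
    have hw0 : (0 : ℝ) < (2 : ℝ) ^ k := by positivity
    -- decomposition of the logarithm
    have hdec : Real.log x = Real.log (((m : ℝ) + e) / m) + Real.log ((m : ℝ) / ((2 ^ k : ℕ) : ℝ))
        + ((k : ℝ) - 40) * Real.log 2 := by
      have hxx : x = ((m : ℝ) + e) / m * ((m : ℝ) / 2 ^ k) * (2 ^ k / 2 ^ 40) := by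
        have : SC = 2 ^ 40 := by rw [hS]; norm_num
        rw [← hxe, this]
        field_simp
      push_cast
      conv_lhs => rw [hxx]
      rw [Real.log_mul (by positivity) (by positivity), Real.log_mul (by positivity) (by positivity),
        Real.log_div (x := (2:ℝ) ^ k) (by positivity) (by positivity), Real.log_pow, Real.log_pow]
      push_cast
      ring
    have hlu := logu_bound m (2 ^ k) (by positivity) hw1 hw2
    -- the first term
    have hq1 : Real.log (((m : ℝ) + e) / m) ≤ (a.r : ℝ) / (m - a.r) := by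
      have h1 := Real.log_le_sub_one_of_pos (div_pos hpos hm0)
      have h2 : ((m : ℝ) + e) / m - 1 = e / m := by field_simp; ring
      have h3 : e / m ≤ a.r / m := by gcongr; exact he1.2
      have h4 : (a.r : ℝ) / m ≤ a.r / (m - a.r) := by
        apply div_le_div_of_nonneg_left hr0 (by linarith) (by linarith)
      linarith
    have hq2 : -((a.r : ℝ) / (m - a.r)) ≤ Real.log (((m : ℝ) + e) / m) := by
      have h1 := Real.log_le_sub_one_of_pos (div_pos hm0 hpos)
      have h2 : (m : ℝ) / (m + e) - 1 = -e / (m + e) := by field_simp; ring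
      have h3 : -e / (m + e) ≤ a.r / (m - a.r) := by
        apply div_le_div₀ hr0 (by linarith [he1.1]) (by linarith) (by linarith [he1.1])
      have h5 : Real.log (((m : ℝ) + e) / m) = - Real.log ((m : ℝ) / (m + e)) := by
        rw [← Real.log_inv, inv_div]
      linarith
    have hdv := le_div' (1099511627776 * a.r) (m - a.r) (by omega)
    rw [Nat.cast_sub hMr.le] at hdv
    push_cast at hdv
    have hl1 := Real.log_two_gt_d9
    have hl2 := Real.log_two_lt_d9
    have hkk := cast_sub_sub k 40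
    push_cast at hkk
    have hk1 : (0 : ℝ) ≤ ((k - 40 : ℕ) : ℝ) := Nat.cast_nonneg _
    have hk2 : (0 : ℝ) ≤ ((40 - k : ℕ) : ℝ) := Nat.cast_nonneg _
    rw [hb]
    have hmem : (⟨Nat.add (Nat.mul (Nat.sub k 40) 762123384786) (Nat.add (logu m (Nat.pow 2 k)) 8000),
          Nat.mul (Nat.sub 40 k) 762123384786,
          Nat.add (Nat.div (Nat.mul 1099511627776 a.r) (Nat.sub m a.r))
          (Nat.add 8100 (Nat.mul 600 (Nat.add (Nat.sub k 40) (Nat.sub 40 k))))⟩ : B).mem
          (Real.log x) := by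
      unfold B.mem
      show |Real.log x * SC - (((((k - 40) * 762123384786) + (logu m (2 ^ k) + 8000) : ℕ) : ℝ)
        - (((40 - k) * 762123384786 : ℕ) : ℝ))| ≤
        (((1099511627776 * a.r) / (m - a.r) + (8100 + 600 * ((k - 40) + (40 - k))) : ℕ) : ℝ)
      push_cast
      rw [hdec]
      set A := Real.log (((m : ℝ) + e) / m) with hA
      set Bq := Real.log ((m : ℝ) / ((2 ^ k : ℕ) : ℝ)) with hBq
      have hA1 : A * SC ≤ 1099511627776 * a.r / (m - a.r) := by
        calc A * SC ≤ (a.r / (m - a.r)) * SC := by gcongr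
          _ = _ := by rw [hS]; ring
      have hA2 : -(1099511627776 * a.r / ((m : ℝ) - a.r)) ≤ A * SC := by
        calc -(1099511627776 * a.r / ((m : ℝ) - a.r)) = (-(a.r / (m - a.r))) * SC := by
              rw [hS]; ring
          _ ≤ _ := by gcongr
      have hlog2 : |Real.log 2 * SC - 762123384786| ≤ 600 := by
        rw [abs_le, hS]; constructor <;> linarith
      set u : ℝ := ((k - 40 : ℕ) : ℝ) with hu
      set v : ℝ := ((40 - k : ℕ) : ℝ) with hv
      have hku : (k : ℝ) - 40 = u - v := by linarith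
      rw [hku]
      have hl3 := abs_le.1 hlog2
      have hul : |(u - v) * (Real.log 2 * SC - 762123384786)| ≤ 600 * (u + v) := by
        rw [abs_mul, mul_comm (600 : ℝ)]
        apply mul_le_mul _ hlog2 (abs_nonneg _) (by linarith)
        rw [abs_le]; constructor <;> linarith
      have hul2 := abs_le.1 hul
      have key : (A + Bq + (u - v) * Real.log 2) * SC -
          (u * 762123384786 + ((logu m (2 ^ k) : ℝ) + 8000) - v * 762123384786) =
          A * SC + (Bq * SC - (logu m (2 ^ k) : ℝ) - 8000) +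
          (u - v) * (Real.log 2 * SC - 762123384786) := by ring
      rw [key]
      rw [abs_le]
      obtain ⟨l1, l2⟩ := hlu
      constructor <;> linarith [hul2.1, hul2.2]
    have hz : (⟨0, 0, 0⟩ : B).mem 0 := by unfold B.mem; simp
    have := badd_mem hmem hz
    rw [add_zero] at this
    exact this

theorem blog_mem {a b : B} {x : ℝ} (hx : a.mem x) (h : blog a = some b) :
    b.mem (Real.log x) := by
  unfold blog at h
  split at h
  case h_2 => exact absurd h (by simp)
  case h_1 hb => exact blog2_mem hx (ble_succ hb) rfl h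

/-- meaning of an optional gradient ball -/
def gm : Option B → ℝ → Prop
  | none, d => d = 0
  | some b, d => b.mem d

theorem gadd_mem {g h : Option B} {x y : ℝ} (hx : gm g x) (hy : gm h y) :
    gm (gadd g h) (x + y) := by
  cases g with
  | none => have : x = 0 := hx; subst this; simpa [gadd] using hy
  | some a => cases h with
    | none => have : y = 0 := hy; subst this; simpa [gadd] using hx
    | some b => exact badd_mem hx hy

theorem gneg_mem {g : Option B} {x : ℝ} (hx : gm g x) : gm (gneg g) (-x) := by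
  cases g with
  | none => have : x = 0 := hx; subst this; simp [gneg, gm]
  | some a => exact bneg_mem hx

theorem gsub_mem {g h : Option B} {x y : ℝ} (hx : gm g x) (hy : gm h y) :
    gm (gsub g h) (x - y) := by
  cases h with
  | none => have : y = 0 := hy; subst this; cases g <;> simpa [gsub] using hx
  | some b => cases g with
    | none => have : x = 0 := hx; subst this; rw [zero_sub]; exact bneg_mem (b := b) hy
    | some a => exact bsub_mem hx hy

theorem gmul_mem {a : B} {g : Option B} {x y : ℝ} (hx : a.mem x) (hy : gm g y) :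
    gm (gmul a g) (x * y) := by
  cases g with
  | none => have : y = 0 := hy; subst this; simp [gmul, gm]
  | some b => exact bmul_mem hx hy

/-- `j` describes the function `F` along the segment -/
def Sound (j : J) (F : ℝ → ℝ) (u v w : ℝ) : Prop :=
  j.c.mem (F 0) ∧ ∀ t ∈ Set.Icc (0 : ℝ) 1, j.v.mem (F t) ∧ ∃ d1 d2 d3 : ℝ,
    gm j.g1 d1 ∧ gm j.g2 d2 ∧ gm j.g3 d3 ∧ HasDerivAt F (d1 * u + d2 * v + d3 * w) t

theorem sound_add {j l : J} {F G : ℝ → ℝ} {u v w : ℝ} (hF : Sound j F u v w)
    (hG : Sound l G u v w) : Sound (jadd j l) (fun t => F t + G t) u v w := by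
  refine ⟨badd_mem hF.1 hG.1, fun t ht => ?_⟩
  obtain ⟨a1, d1, d2, d3, b1, b2, b3, c1⟩ := hF.2 t ht
  obtain ⟨a1', d1', d2', d3', b1', b2', b3', c1'⟩ := hG.2 t ht
  refine ⟨badd_mem a1 a1', d1 + d1', d2 + d2', d3 + d3', gadd_mem b1 b1', gadd_mem b2 b2',
    gadd_mem b3 b3', ?_⟩
  convert! c1.add c1' using 1
  ring

theorem sound_sub {j l : J} {F G : ℝ → ℝ} {u v w : ℝ} (hF : Sound j F u v w)
    (hG : Sound l G u v w) : Sound (jsub j l) (fun t => F t - G t) u v w := by
  refine ⟨bsub_mem hF.1 hG.1, fun t ht => ?_⟩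
  obtain ⟨a1, d1, d2, d3, b1, b2, b3, c1⟩ := hF.2 t ht
  obtain ⟨a1', d1', d2', d3', b1', b2', b3', c1'⟩ := hG.2 t ht
  refine ⟨bsub_mem a1 a1', d1 - d1', d2 - d2', d3 - d3', gsub_mem b1 b1', gsub_mem b2 b2',
    gsub_mem b3 b3', ?_⟩
  convert! c1.sub c1' using 1
  ring

theorem sound_mul {j l : J} {F G : ℝ → ℝ} {u v w : ℝ} (hF : Sound j F u v w)
    (hG : Sound l G u v w) : Sound (jmul j l) (fun t => F t * G t) u v w := by
  refine ⟨bmul_mem hF.1 hG.1, fun t ht => ?_⟩
  obtain ⟨a1, d1, d2, d3, b1, b2, b3, c1⟩ := hF.2 t ht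
  obtain ⟨a1', d1', d2', d3', b1', b2', b3', c1'⟩ := hG.2 t ht
  refine ⟨bmul_mem a1 a1', F t * d1' + G t * d1, F t * d2' + G t * d2, F t * d3' + G t * d3,
    gadd_mem (gmul_mem a1 b1') (gmul_mem a1' b1), gadd_mem (gmul_mem a1 b2') (gmul_mem a1' b2),
    gadd_mem (gmul_mem a1 b3') (gmul_mem a1' b3), ?_⟩
  convert! c1.mul c1' using 1
  ring

theorem sound_inv {j l : J} {F : ℝ → ℝ} {u v w : ℝ} (hF : Sound j F u v w)
    (h : jinv j = some l) : Sound l (fun t => (F t)⁻¹) u v w := by
  unfold jinv at h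
  split at h
  case h_2 => exact absurd h (by simp)
  case h_1 ic hic =>
  split at h
  case h_2 => exact absurd h (by simp)
  case h_1 iv hiv =>
    have hl := (Option.some.inj h).symm
    subst hl
    refine ⟨(binv_mem hF.1 hic).2, fun t ht => ?_⟩
    obtain ⟨a1, d1, d2, d3, b1, b2, b3, c1⟩ := hF.2 t ht
    obtain ⟨p1, p2⟩ := binv_mem a1 hiv
    refine ⟨p2, -((F t)⁻¹ * (F t)⁻¹ * d1), -((F t)⁻¹ * (F t)⁻¹ * d2),
      -((F t)⁻¹ * (F t)⁻¹ * d3), gneg_mem (gmul_mem (bmul_mem p2 p2) b1),
      gneg_mem (gmul_mem (bmul_mem p2 p2) b2), gneg_mem (gmul_mem (bmul_mem p2 p2) b3), ?_⟩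
    convert! c1.inv p1.ne' using 1
    field_simp
    ring

theorem sound_log {j l : J} {F : ℝ → ℝ} {u v w : ℝ} (hF : Sound j F u v w)
    (h : jlog j = some l) : Sound l (fun t => Real.log (F t)) u v w := by
  unfold jlog at h
  split at h
  case h_2 => exact absurd h (by simp)
  case h_1 lc hlc =>
  split at h
  case h_2 => exact absurd h (by simp)
  case h_1 lv hlv =>
  split at h
  case h_2 => exact absurd h (by simp)
  case h_1 iv hiv =>
    have hl := (Option.some.inj h).symm
    subst hl
    refine ⟨blog_mem hF.1 hlc, fun t ht => ?_⟩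
    obtain ⟨a1, d1, d2, d3, b1, b2, b3, c1⟩ := hF.2 t ht
    obtain ⟨p1, p2⟩ := binv_mem a1 hiv
    refine ⟨blog_mem a1 hlv, (F t)⁻¹ * d1, (F t)⁻¹ * d2, (F t)⁻¹ * d3, gmul_mem p2 b1,
      gmul_mem p2 b2, gmul_mem p2 b3, ?_⟩
    convert! c1.log p1.ne' using 1
    field_simp

/-- `x` lies in `[l, l + w]`, scaled -/
def inI (l w : ℕ) (x : ℝ) : Prop := (l : ℝ) ≤ x * SC ∧ x * SC ≤ (l : ℝ) + w

/-- the point lies in the box -/
def inBx (b : Bx) (x y z : ℝ) : Prop := inI b.lx b.wx x ∧ inI b.ly b.wy y ∧ inI b.lz b.wz z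

/-- real midpoint -/
noncomputable def mr (l w : ℕ) : ℝ := (mid l w : ℝ) / SC

theorem half_le (w : ℕ) : Nat.shiftRight w 1 ≤ w := by
  have : Nat.shiftRight w 1 = w / 2 := by
    have := Nat.shiftRight_eq_div_pow w 1
    simpa using this
  omega

theorem half_dbl (w : ℕ) : Nat.shiftRight w 1 ≤ w - Nat.shiftRight w 1 := by
  have : Nat.shiftRight w 1 = w / 2 := by
    have := Nat.shiftRight_eq_div_pow w 1
    simpa using this
  omega

theorem mid_mem (l w : ℕ) : (⟨mid l w, 0, 0⟩ : B).mem (mr l w) := by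
  unfold B.mem mr
  rw [div_mul_cancel₀ _ SC_pos.ne']
  simp

theorem seg_mem {l w : ℕ} {x : ℝ} (h : inI l w x) {t : ℝ} (ht : t ∈ Set.Icc (0 : ℝ) 1) :
    (⟨mid l w, 0, rad w⟩ : B).mem (mr l w + t * (x - mr l w)) ∧
      |(x - mr l w) * SC| ≤ (rad w : ℝ) := by
  have hSC := SC_pos
  have e1 : mr l w * SC = (mid l w : ℝ) := by unfold mr; rw [div_mul_cancel₀ _ hSC.ne']
  have hmid : mid l w = l + Nat.shiftRight w 1 := rfl
  have hrad : rad w = w - Nat.shiftRight w 1 := rfl
  have h1 := half_le w
  have h2 := half_dbl w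
  have h3 : ((rad w : ℕ) : ℝ) = (w : ℝ) - (Nat.shiftRight w 1 : ℕ) := by
    rw [hrad, Nat.cast_sub h1]
  have h4 : ((mid l w : ℕ) : ℝ) = (l : ℝ) + (Nat.shiftRight w 1 : ℕ) := by
    rw [hmid]; push_cast; ring
  have h5 : ((Nat.shiftRight w 1 : ℕ) : ℝ) ≤ (w : ℝ) - (Nat.shiftRight w 1 : ℕ) := by
    rw [← Nat.cast_sub h1]; exact_mod_cast h2
  have key : |(x - mr l w) * SC| ≤ (rad w : ℝ) := by
    rw [sub_mul, e1, abs_le, h3, h4]
    constructor <;> linarith [h.1, h.2]
  refine ⟨?_, key⟩
  unfold B.mem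
  simp only
  rw [add_mul, e1]
  have : (mid l w : ℝ) + t * (x - mr l w) * SC - ((mid l w : ℝ) - ((0 : ℕ) : ℝ)) =
      t * ((x - mr l w) * SC) := by push_cast; ring
  rw [this, abs_mul, abs_of_nonneg ht.1]
  calc t * |(x - mr l w) * SC| ≤ 1 * |(x - mr l w) * SC| := by
        gcongr; exact ht.2
    _ ≤ _ := by rw [one_mul]; exact key

theorem one_mem : one.mem 1 := by
  unfold B.mem one SC; norm_num

theorem ev_sound (b : Bx) (x y z : ℝ) (hb : inBx b x y z) : ∀ (e : Ex) (j : J),
    ev e b = some j → Sound j (fun t => val e (mr b.lx b.wx + t * (x - mr b.lx b.wx))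
      (mr b.ly b.wy + t * (y - mr b.ly b.wy)) (mr b.lz b.wz + t * (z - mr b.lz b.wz)))
      (x - mr b.lx b.wx) (y - mr b.ly b.wy) (z - mr b.lz b.wz) := by
  intro e
  induction e with
  | x =>
    intro j hj
    have := (Option.some.inj hj).symm
    subst this
    refine ⟨by simpa [val] using mid_mem _ _, fun t ht => ⟨(seg_mem hb.1 ht).1, 1, 0, 0,
      one_mem, rfl, rfl, ?_⟩⟩
    simp only [val]
    have := ((hasDerivAt_id t).mul_const (x - mr b.lx b.wx)).const_add (mr b.lx b.wx)
    simpa using this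
  | y =>
    intro j hj
    have := (Option.some.inj hj).symm
    subst this
    refine ⟨by simpa [val] using mid_mem _ _, fun t ht => ⟨(seg_mem hb.2.1 ht).1, 0, 1, 0,
      rfl, one_mem, rfl, ?_⟩⟩
    simp only [val]
    have := ((hasDerivAt_id t).mul_const (y - mr b.ly b.wy)).const_add (mr b.ly b.wy)
    simpa using this
  | z =>
    intro j hj
    have := (Option.some.inj hj).symm
    subst this
    refine ⟨by simpa [val] using mid_mem _ _, fun t ht => ⟨(seg_mem hb.2.2 ht).1, 0, 0, 1,
      rfl, rfl, one_mem, ?_⟩⟩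
    simp only [val]
    have := ((hasDerivAt_id t).mul_const (z - mr b.lz b.wz)).const_add (mr b.lz b.wz)
    simpa using this
  | k m n =>
    intro j hj
    cases n with
    | zero => exact absurd hj (by simp [ev])
    | succ n' =>
      have := (Option.some.inj hj).symm
      subst this
      have hc : (⟨m * 1099511627776 / (n' + 1), 0, 1⟩ : B).mem ((m : ℝ) / ((n' + 1 : ℕ) : ℝ)) := by
        unfold B.mem
        simp only
        have h1 := div_le' (m * 1099511627776) (n' + 1)
        have h2 := le_div' (m * 1099511627776) (n' + 1) (by omega)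
        have h3 : (m : ℝ) / ((n' + 1 : ℕ) : ℝ) * SC =
            ((m * 1099511627776 : ℕ) : ℝ) / ((n' + 1 : ℕ) : ℝ) := by
          unfold SC; push_cast; ring
        rw [h3, abs_le]
        push_cast at h1 h2 ⊢
        constructor <;> linarith
      refine ⟨hc, fun t ht => ⟨hc, 0, 0, 0, rfl, rfl, rfl, ?_⟩⟩
      simp only [val]
      simpa using hasDerivAt_const t ((m : ℝ) / ((n' + 1 : ℕ) : ℝ))
  | add e f ihe ihf =>
    intro j hj
    simp only [ev] at hj
    split at hj
    case h_2 => exact absurd hj (by simp)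
    case h_1 j1 h1 =>
    split at hj
    case h_2 => exact absurd hj (by simp)
    case h_1 j2 h2 =>
      have := (Option.some.inj hj).symm
      subst this
      exact sound_add (ihe j1 h1) (ihf j2 h2)
  | sub e f ihe ihf =>
    intro j hj
    simp only [ev] at hj
    split at hj
    case h_2 => exact absurd hj (by simp)
    case h_1 j1 h1 =>
    split at hj
    case h_2 => exact absurd hj (by simp)
    case h_1 j2 h2 =>
      have := (Option.some.inj hj).symm
      subst this
      exact sound_sub (ihe j1 h1) (ihf j2 h2)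
  | mul e f ihe ihf =>
    intro j hj
    simp only [ev] at hj
    split at hj
    case h_2 => exact absurd hj (by simp)
    case h_1 j1 h1 =>
    split at hj
    case h_2 => exact absurd hj (by simp)
    case h_1 j2 h2 =>
      have := (Option.some.inj hj).symm
      subst this
      exact sound_mul (ihe j1 h1) (ihf j2 h2)
  | inv e ihe =>
    intro j hj
    simp only [ev] at hj
    split at hj
    case h_2 => exact absurd hj (by simp)
    case h_1 j1 h1 => exact sound_inv (ihe j1 h1) hj
  | log e ihe =>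
    intro j hj
    simp only [ev] at hj
    split at hj
    case h_2 => exact absurd hj (by simp)
    case h_1 j1 h1 => exact sound_log (ihe j1 h1) hj

theorem gb_bound {g : Option B} {d u : ℝ} {r : ℕ} (hg : gm g d) (hu : |u * SC| ≤ (r : ℝ)) :
    |d * u * SC * SC| ≤ (gb g r : ℝ) := by
  cases g with
  | none => have : d = 0 := hg; subst this; simp [gb]
  | some b =>
    have hb : b.mem d := hg
    have h1 : |d * SC| ≤ ((b.p + (b.n + b.r) : ℕ) : ℝ) := by
      unfold B.mem at hb
      have h2 := abs_mid_le b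
      have h3 : d * SC = (d * SC - ((b.p : ℝ) - b.n)) + ((b.p : ℝ) - b.n) := by ring
      rw [h3]
      push_cast
      refine le_trans (abs_add_le _ _) ?_
      linarith
    have e : d * u * SC * SC = (d * SC) * (u * SC) := by ring
    rw [e, abs_mul]
    have : (gb (some b) r : ℝ) = ((b.p + (b.n + b.r) : ℕ) : ℝ) * r := by
      show (((b.p + (b.n + b.r)) * r : ℕ) : ℝ) = _
      push_cast; ring
    rw [this]
    exact mul_le_mul h1 hu (abs_nonneg _) (Nat.cast_nonneg _)

theorem chk_sound (e : Ex) (b : Bx) (h : chk e b = true) (x y z : ℝ) (hb : inBx b x y z) :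
    0 < val e x y z := by
  unfold chk at h
  split at h
  case h_2 => exact absurd h (by simp)
  case h_1 j hj =>
    have hs := ev_sound b x y z hb e j hj
    set F : ℝ → ℝ := fun t => val e (mr b.lx b.wx + t * (x - mr b.lx b.wx))
      (mr b.ly b.wy + t * (y - mr b.ly b.wy)) (mr b.lz b.wz + t * (z - mr b.lz b.wz)) with hF
    have hF1 : F 1 = val e x y z := by simp [hF]
    rw [← hF1]
    have h0 : (0 : ℝ) ∈ Set.Icc (0 : ℝ) 1 := by simp
    have hu := (seg_mem hb.1 h0).2
    have hv := (seg_mem hb.2.1 h0).2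
    have hw := (seg_mem hb.2.2 h0).2
    have hSC := SC_pos
    -- mean value theorem
    have hder : ∀ t ∈ Set.Icc (0 : ℝ) 1, ∃ D, HasDerivAt F D t ∧
        |D * SC * SC| ≤ ((gb j.g1 (rad b.wx) + (gb j.g2 (rad b.wy) + gb j.g3 (rad b.wz)) : ℕ) : ℝ) := by
      intro t ht
      obtain ⟨_, d1, d2, d3, b1, b2, b3, c1⟩ := hs.2 t ht
      refine ⟨_, c1, ?_⟩
      have e1 := gb_bound b1 hu
      have e2 := gb_bound b2 hv
      have e3 := gb_bound b3 hw
      push_cast
      have : (d1 * (x - mr b.lx b.wx) + d2 * (y - mr b.ly b.wy) + d3 * (z - mr b.lz b.wz)) * SC * SC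
        = d1 * (x - mr b.lx b.wx) * SC * SC + (d2 * (y - mr b.ly b.wy) * SC * SC +
          d3 * (z - mr b.lz b.wz) * SC * SC) := by ring
      rw [this]
      refine le_trans (abs_add_le _ _) (add_le_add e1 (le_trans (abs_add_le _ _) (add_le_add e2 e3)))
    choose! D hD hDb using hder
    have hcont : ContinuousOn F (Set.Icc 0 1) := fun t ht => (hD t ht).continuousAt.continuousWithinAt
    obtain ⟨ξ, hξ, hmv⟩ := exists_hasDerivAt_eq_slope F D (by norm_num : (0:ℝ) < 1) hcont
      (fun t ht => hD t ⟨ht.1.le, ht.2.le⟩)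
    have hmv' : F 1 = F 0 + D ξ := by rw [hmv]; ring
    have hbd := hDb ξ ⟨hξ.1.le, hξ.2.le⟩
    -- the check
    set G := gb j.g1 (rad b.wx) + (gb j.g2 (rad b.wy) + gb j.g3 (rad b.wz)) with hG
    have hp : j.c.n + (j.c.r + (Nat.shiftRight G 40 + 1)) < j.c.p := ble_succ h
    have hp' : (j.c.n : ℝ) + (j.c.r + ((Nat.shiftRight G 40 : ℕ) + 1)) < j.c.p := by
      exact_mod_cast hp
    have hsh := le_shift G
    have hD2 : |D ξ * SC| ≤ (G : ℝ) / SC := by
      rw [le_div_iff₀ hSC]
      calc |D ξ * SC| * SC = |D ξ * SC * SC| := by rw [abs_mul (D ξ * SC), abs_of_pos hSC]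
        _ ≤ _ := hbd
    have hc := hs.1
    unfold B.mem at hc
    have hc1 := (abs_le.1 hc).1
    have hD3 := (abs_le.1 hD2).1
    have : 0 < F 1 * SC := by
      rw [hmv', add_mul]
      linarith
    exact pos_of_mul_pos_left this hSC.le

theorem split_I {l w : ℕ} {x : ℝ} (h : inI l w x) :
    inI l (Nat.shiftRight w 1) x ∨ inI (Nat.add l (Nat.shiftRight w 1))
      (Nat.sub w (Nat.shiftRight w 1)) x := by
  have h1 := half_le w
  rcases le_total (x * SC) ((l : ℝ) + (Nat.shiftRight w 1 : ℕ)) with h2 | h2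
  · exact Or.inl ⟨h.1, h2⟩
  · right
    constructor
    · show (((l + Nat.shiftRight w 1 : ℕ)) : ℝ) ≤ _
      push_cast; exact h2
    · show _ ≤ ((l + Nat.shiftRight w 1 : ℕ) : ℝ) + ((w - Nat.shiftRight w 1 : ℕ) : ℝ)
      rw [Nat.cast_sub h1]; push_cast; linarith [h.2]

theorem getE_mem : ∀ (F : List Ex) (i : ℕ) (e : Ex), getE F i = some e → e ∈ F := by
  intro F
  induction F with
  | nil => intro i e h; exact absurd h (by simp [getE])
  | cons a l ih =>
    intro i e h
    cases i with
    | zero => simp only [getE, Option.some.injEq] at h; simp [h]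
    | succ n => exact List.mem_cons_of_mem _ (ih n e h)

theorem check_sound (F : List Ex) : ∀ (T : Tr) (b : Bx), check F T b = true →
    ∀ x y z : ℝ, inBx b x y z → ∃ e ∈ F, 0 < val e x y z := by
  intro T
  induction T with
  | l i =>
    intro b h x y z hb
    simp only [check] at h
    split at h
    case h_2 => exact absurd h (by simp)
    case h_1 e he => exact ⟨e, getE_mem F i e he, chk_sound e b h x y z hb⟩
  | x s t ihs iht =>
    intro b h x y z hb
    simp only [check] at h
    split at h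
    case h_2 => exact absurd h (by simp)
    case h_1 hs =>
      rcases split_I hb.1 with h1 | h1
      · exact ihs _ hs x y z ⟨h1, hb.2⟩
      · exact iht _ h x y z ⟨h1, hb.2⟩
  | y s t ihs iht =>
    intro b h x y z hb
    simp only [check] at h
    split at h
    case h_2 => exact absurd h (by simp)
    case h_1 hs =>
      rcases split_I hb.2.1 with h1 | h1
      · exact ihs _ hs x y z ⟨hb.1, h1, hb.2.2⟩
      · exact iht _ h x y z ⟨hb.1, h1, hb.2.2⟩
  | z s t ihs iht =>
    intro b h x y z hb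
    simp only [check] at h
    split at h
    case h_2 => exact absurd h (by simp)
    case h_1 hs =>
      rcases split_I hb.2.2 with h1 | h1
      · exact ihs _ hs x y z ⟨hb.1, hb.2.1, h1⟩
      · exact iht _ h x y z ⟨hb.1, hb.2.1, h1⟩

end Vale.Agent.CK.IA
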