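import Vale.Agent.CK.Trunc
import Vale.Agent.CK.IAEv

/-!
# P322: small `d / (1 - x ^ 2)`: the separated form, checked by ball arithmetic
-/

namespace Vale.Agent.CK.G2m

open Real Set Vale.Agent.CK.IA

/-! ### expressions -/

def one : Ex := Ex.k 1 1
def xlx (e : Ex) : Ex := Ex.mul e (Ex.log e)
def eL (r : Ex) : Ex := Ex.sub (Ex.log (Ex.add one r)) (Ex.log (Ex.sub one r))
def eEt (r : Ex) : Ex := Ex.sub (Ex.log (Ex.k 2 1))
  (Ex.mul (Ex.k 1 2) (Ex.add (xlx (Ex.add one r)) (xlx (Ex.sub one r))))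
def eW (r : Ex) : Ex := Ex.mul (Ex.mul (Ex.k 2 1) r) (eL r)
def eLam (r : Ex) : Ex := Ex.add (Ex.k 4 1) (Ex.mul (Ex.k 8 1)
  (Ex.mul r (Ex.inv (Ex.mul (Ex.mul (Ex.sub one r) (Ex.add one r)) (eL r)))))
def eK (r : Ex) : Ex := Ex.add (eW r) (Ex.mul (eLam r) (eEt r))

section
variable (e : Ex) (x y z : ℝ)

theorem val_one : val one x y z = 1 := by simp [one, val]

theorem val_k (m n : ℕ) : val (Ex.k m n) x y z = (m : ℝ) / n := rfl

theorem val_eL : val (eL e) x y z = LL (val e x y z) := by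
  simp [eL, val, val_one, LL]

theorem val_eEt (h0 : -1 < val e x y z) (h1 : val e x y z < 1) :
    val (eEt e) x y z = log 2 - Phi (val e x y z) := by
  have h : Phi (val e x y z) = ((1 + val e x y z) * log (1 + val e x y z) +
      (1 - val e x y z) * log (1 - val e x y z)) / 2 := by
    unfold Phi
    rw [binEntropy_eq_negMulLog_add_negMulLog_one_sub]
    unfold negMulLog
    have e1 : 1 - (1 + val e x y z) / 2 = (1 - val e x y z) / 2 := by ring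
    rw [e1, log_div (by linarith) two_ne_zero, log_div (by linarith) two_ne_zero]
    ring
  rw [h]
  simp only [eEt, val, val_one, xlx]
  norm_num
  ring

theorem val_eW : val (eW e) x y z = wf (val e x y z) := by
  simp [eW, val, val_eL, wf]

theorem val_eLam : val (eLam e) x y z = lam (val e x y z) := by
  have h : (1 - val e x y z) * (1 + val e x y z) = 1 - val e x y z ^ 2 := by ring
  simp only [eLam, val, val_one, val_eL, lam, div_eq_mul_inv, h]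
  norm_num

end

/-- `K(r) = w(r) + lam(r) * eta(r)` -/
noncomputable def KK (r : ℝ) : ℝ := wf r + lam r * (log 2 - Phi r)

theorem val_eK (e : Ex) (x y z : ℝ) (h0 : -1 < val e x y z) (h1 : val e x y z < 1) :
    val (eK e) x y z = KK (val e x y z) := by
  simp only [eK, val, val_eW, val_eLam, val_eEt e x y z h0 h1, KK]

/-! ### the separated inequality, variables `x = q`, `y = r` -/

/-- `q * eta(r) - (a/b) * eta(q)` -/
def s0 (a b : ℕ) : Ex := Ex.sub (Ex.mul Ex.x (eEt Ex.y)) (Ex.mul (Ex.k a b) (eEt Ex.x))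

def q2 : Ex := Ex.mul Ex.x Ex.x

/-- Taylor polynomial of `L(q) / (2 q)` -/
def po : Ex := Ex.add one (Ex.mul q2 (Ex.add (Ex.k 1 3) (Ex.mul q2 (Ex.add (Ex.k 1 5)
  (Ex.mul q2 (Ex.k 1 7))))))

def s2 : Ex := Ex.sub (Ex.mul (Ex.mul (Ex.k 4 1) po) (eEt Ex.x)) (Ex.mul (eEt Ex.y) (eK Ex.y))

def s1 : Ex := Ex.sub (Ex.mul (Ex.mul (Ex.k 2 1) (eL Ex.x)) (eEt Ex.x))
  (Ex.mul Ex.x (Ex.mul (eEt Ex.y) (eK Ex.y)))

theorem LL_ge_poly {q : ℝ} (h0 : 0 ≤ q) (h1 : q < 1) :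
    2 * q * (1 + q * q * (1 / 3 + q * q * (1 / 5 + q * q * (1 / 7)))) ≤ LL q := by
  have h := hasSum_log_sub_log_of_abs_lt_one (x := q) (by rw [abs_of_nonneg h0]; exact h1)
  have h2 := sum_le_hasSum (Finset.range 4) (fun i _ => by positivity) h
  simp only [Finset.sum_range_succ, Finset.sum_range_zero] at h2
  unfold LL
  refine le_trans (le_of_eq ?_) h2
  norm_num
  ring

theorem sep_of_check {a b : ℕ} {T : Tr} {B : Bx}
    (hc : check [s0 a b, s2, s1] T B = true) {q r : ℝ}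
    (hq : inI B.lx B.wx q) (hr : inI B.ly B.wy r) (hz : B.lz = 0)
    (hq0 : 0 < q) (hq1 : q < 1) (hr0 : 0 < r) (hr1 : r < 1)
    (h : q * (log 2 - Phi r) ≤ (a / b : ℝ) * (log 2 - Phi q)) :
    q * ((log 2 - Phi r) * KK r) ≤ 2 * LL q * (log 2 - Phi q) := by
  have hb' : inBx B q r 0 := by
    refine ⟨hq, hr, ?_, ?_⟩
    · rw [hz]; simp
    · rw [hz]; simp
  obtain ⟨e, he, hv⟩ := check_sound _ _ _ hc _ _ _ hb'
  simp only [List.mem_cons, List.not_mem_nil, or_false] at he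
  have hqv : val Ex.x q r 0 = q := rfl
  have hrv : val Ex.y q r 0 = r := rfl
  have e1 := val_eEt Ex.x q r 0 (by rw [hqv]; linarith) (by rw [hqv]; exact hq1)
  have e2 := val_eEt Ex.y q r 0 (by rw [hrv]; linarith) (by rw [hrv]; exact hr1)
  have e3 := val_eK Ex.y q r 0 (by rw [hrv]; linarith) (by rw [hrv]; exact hr1)
  rcases he with rfl | rfl | rfl
  · simp only [s0, val, e1, e2] at hv
    linarith
  · simp only [s2, po, q2, val, e1, e2, e3, val_one] at hv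
    have h3 := LL_ge_poly hq0.le hq1
    have h4 : 0 < log 2 - Phi q := by linarith [(Phi_mem hq0 hq1).2]
    norm_num at hv
    have h5 : (log 2 - Phi r) * KK r ≤
        4 * (1 + q * q * (1 / 3 + q * q * (1 / 5 + q * q * (1 / 7)))) * (log 2 - Phi q) := by
      linarith
    nlinarith [mul_le_mul_of_nonneg_left h5 hq0.le, mul_le_mul_of_nonneg_right h3 h4.le]
  · simp only [s1, val, e1, e2, e3, val_eL] at hv
    norm_num at hv
    linarith

theorem inI_of {l w : ℕ} {x : ℝ} {a b : ℝ} (h1 : a ≤ x) (h2 : x ≤ b)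
    (ha : (l : ℝ) ≤ a * 1099511627776) (hb : b * 1099511627776 ≤ (l : ℝ) + w) : inI l w x := by
  unfold inI SC
  constructor <;> nlinarith

set_option maxRecDepth 100000

open Tr

def tr1 : Tr :=
  (x (x (x (y (l 1) (l 1)) (x (y (l 1) (l 1)) (y (l 1) (l 1)))) (x (x (x (x (y (l 1) (l 1)) (y (l 1) (l 1))) (x (y (y (l 1) (l 1)) (l 1)) (y (x (y (y (l 1) (l 1)) (l 1)) (y (l 0) (l 1))) (l 1)))) (x (x (y (l 0) (l 1)) (l 0)) (l 0))) (l 0))) (x (l 0) (x (l 0) (l 0))))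

theorem ck1 : check [s0 17 100, s2, s1] tr1 ⟨0, 1089616023126, 824632621320, 32987547856, 0, 0⟩ = true := by
  decide +kernel

theorem sep1 {q r : ℝ} (hq0 : 0 < q) (hq1 : q ≤ 99 / 100) (hr0 : 75/100 ≤ r) (hr1 : r ≤ 78/100)
    (h : q * (log 2 - Phi r) ≤ (17 / 100) * (log 2 - Phi q)) :
    q * ((log 2 - Phi r) * KK r) ≤ 2 * LL q * (log 2 - Phi q) := by
  refine sep_of_check ck1 (inI_of hq0.le hq1 (by norm_num) (by norm_num))
    (inI_of hr0 hr1 (by norm_num) (by norm_num)) rfl hq0 (by linarith) (by linarith) (by linarith) ?_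
  norm_num at h ⊢
  exact h

def tr2 : Tr :=
  (x (x (x (y (l 1) (l 1)) (y (l 1) (l 1))) (x (x (y (l 1) (l 1)) (x (y (l 1) (l 1)) (y (l 1) (l 1)))) (x (x (y (l 1) (l 1)) (y (y (l 1) (l 1)) (l 1))) (x (y (x (y (y (l 1) (l 1)) (l 1)) (y (x (y (l 0) (l 1)) (l 0)) (l 1))) (l 1)) (y (x (y (l 0) (l 1)) (l 0)) (l 1)))))) (x (x (x (x (y (l 0) (l 0)) (l 0)) (l 0)) (l 0)) (x (l 0) (l 0))))

theorem ck2 : check [s0 26 100, s2, s1] tr2 ⟨0, 1089616023126, 857617970153, 43982664134, 0, 0⟩ = true := by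
  decide +kernel

theorem sep2 {q r : ℝ} (hq0 : 0 < q) (hq1 : q ≤ 99 / 100) (hr0 : 78/100 ≤ r) (hr1 : r ≤ 82/100)
    (h : q * (log 2 - Phi r) ≤ (26 / 100) * (log 2 - Phi q)) :
    q * ((log 2 - Phi r) * KK r) ≤ 2 * LL q * (log 2 - Phi q) := by
  refine sep_of_check ck2 (inI_of hq0.le hq1 (by norm_num) (by norm_num))
    (inI_of hr0 hr1 (by norm_num) (by norm_num)) rfl hq0 (by linarith) (by linarith) (by linarith) ?_
  norm_num at h ⊢
  exact h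

def tr3 : Tr :=
  (x (x (y (l 1) (l 1)) (x (y (l 1) (l 1)) (x (y (l 1) (l 1)) (y (l 1) (l 1))))) (x (x (x (x (y (l 1) (l 1)) (y (l 1) (l 1))) (x (y (y (l 1) (l 1)) (l 1)) (y (x (y (y (x (l 1) (y (x (l 1) (x (l 2) (l 0))) (l 1))) (l 1)) (l 1)) (y (x (y (x (y (l 0) (l 1)) (l 0)) (l 1)) (l 0)) (l 1))) (l 1)))) (x (x (y (x (y (l 0) (x (l 2) (l 0))) (l 0)) (x (y (l 1) (l 1)) (y (l 1) (l 1)))) (y (l 0) (x (y (l 0) (l 1)) (l 0)))) (l 0))) (x (l 0) (x (l 0) (l 0)))))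

theorem ck3 : check [s0 36 100, s2, s1] tr3 ⟨0, 1089616023126, 901598435264, 43982664134, 0, 0⟩ = true := by
  decide +kernel

theorem sep3 {q r : ℝ} (hq0 : 0 < q) (hq1 : q ≤ 99 / 100) (hr0 : 82/100 ≤ r) (hr1 : r ≤ 86/100)
    (h : q * (log 2 - Phi r) ≤ (36 / 100) * (log 2 - Phi q)) :
    q * ((log 2 - Phi r) * KK r) ≤ 2 * LL q * (log 2 - Phi q) := by
  refine sep_of_check ck3 (inI_of hq0.le hq1 (by norm_num) (by norm_num))
    (inI_of hr0 hr1 (by norm_num) (by norm_num)) rfl hq0 (by linarith) (by linarith) (by linarith) ?_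
  norm_num at h ⊢
  exact h

def tr4 : Tr :=
  (x (x (y (l 1) (l 1)) (x (l 1) (y (l 1) (l 1)))) (x (x (x (y (l 1) (l 1)) (y (l 1) (l 1))) (x (y (y (l 1) (l 1)) (l 1)) (y (x (x (y (l 1) (l 1)) (y (y (l 2) (l 2)) (l 2))) (x (y (x (y (y (x (l 2) (x (l 2) (l 0))) (l 2)) (l 2)) (y (x (y (l 0) (l 2)) (l 0)) (l 2))) (l 2)) (y (x (y (l 0) (x (y (l 0) (l 2)) (l 0))) (l 0)) (x (l 2) (y (l 2) (l 2)))))) (x (l 2) (y (l 2) (l 2)))))) (x (x (y (x (x (y (l 0) (x (y (l 0) (l 2)) (l 0))) (l 0)) (l 0)) (x (y (x (l 2) (y (l 0) (l 2))) (l 2)) (y (l 0) (x (y (l 0) (l 1)) (l 0))))) (l 0)) (x (l 0) (l 0)))))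

theorem ck4 : check [s0 44 100, s2, s1] tr4 ⟨0, 1089616023126, 945578900375, 43982664135, 0, 0⟩ = true := by
  decide +kernel

theorem sep4 {q r : ℝ} (hq0 : 0 < q) (hq1 : q ≤ 99 / 100) (hr0 : 86/100 ≤ r) (hr1 : r ≤ 90/100)
    (h : q * (log 2 - Phi r) ≤ (44 / 100) * (log 2 - Phi q)) :
    q * ((log 2 - Phi r) * KK r) ≤ 2 * LL q * (log 2 - Phi q) := by
  refine sep_of_check ck4 (inI_of hq0.le hq1 (by norm_num) (by norm_num))
    (inI_of hr0 hr1 (by norm_num) (by norm_num)) rfl hq0 (by linarith) (by linarith) (by linarith) ?_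
  norm_num at h ⊢
  exact h

def tr5 : Tr :=
  (x (x (l 1) (l 1)) (x (x (l 1) (x (l 1) (x (y (l 1) (l 1)) (y (l 1) (l 1))))) (x (x (x (y (l 1) (l 1)) (y (y (l 2) (l 2)) (l 2))) (x (y (x (y (x (l 2) (y (l 0) (l 2))) (l 2)) (y (l 0) (x (l 2) (y (l 0) (l 2))))) (y (l 2) (l 2))) (y (l 0) (x (y (x (l 2) (l 0)) (l 2)) (y (l 0) (x (l 2) (l 0))))))) (x (x (l 0) (l 0)) (x (l 0) (l 0))))))

theorem ck5 : check [s0 50 100, s2, s1] tr5 ⟨0, 1089616023126, 989559365486, 32987547857, 0, 0⟩ = true := by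
  decide +kernel

theorem sep5 {q r : ℝ} (hq0 : 0 < q) (hq1 : q ≤ 99 / 100) (hr0 : 90/100 ≤ r) (hr1 : r ≤ 93/100)
    (h : q * (log 2 - Phi r) ≤ (50 / 100) * (log 2 - Phi q)) :
    q * ((log 2 - Phi r) * KK r) ≤ 2 * LL q * (log 2 - Phi q) := by
  refine sep_of_check ck5 (inI_of hq0.le hq1 (by norm_num) (by norm_num))
    (inI_of hr0 hr1 (by norm_num) (by norm_num)) rfl hq0 (by linarith) (by linarith) (by linarith) ?_
  norm_num at h ⊢
  exact h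

def tr6 : Tr :=
  (x (x (x (x (x (y (l 1) (l 1)) (y (l 1) (l 1))) (x (y (l 1) (l 1)) (y (l 1) (l 1)))) (x (y (l 1) (l 1)) (y (l 1) (l 1)))) (x (x (y (l 1) (l 1)) (y (l 1) (l 1))) (x (y (l 1) (l 1)) (y (l 1) (l 1))))) (x (x (x (y (l 1) (l 1)) (y (l 1) (l 1))) (x (y (l 1) (l 1)) (y (l 1) (l 1)))) (x (x (y (l 1) (l 1)) (y (x (y (l 1) (l 1)) (y (l 2) (l 2))) (x (y (l 2) (l 2)) (y (l 2) (l 2))))) (x (y (x (y (x (y (l 0) (l 2)) (l 0)) (x (l 2) (y (x (l 2) (l 2)) (l 2)))) (y (l 0) (l 0))) (x (y (l 2) (l 2)) (y (x (y (l 2) (l 2)) (y (l 0) (x (l 0) (l 0)))) (x (l 2) (y (l 2) (l 2)))))) (x (y (l 0) (y (l 0) (x (y (l 0) (x (l 2) (l 0))) (l 0)))) (y (l 0) (x (l 0) (l 0))))))))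

theorem ck6 : check [s0 50 100, s2, s1] tr6 ⟨0, 1089616023126, 1022544714320, 43982664134, 0, 0⟩ = true := by
  decide +kernel

theorem sep6 {q r : ℝ} (hq0 : 0 < q) (hq1 : q ≤ 99 / 100) (hr0 : 93/100 ≤ r) (hr1 : r ≤ 97/100)
    (h : q * (log 2 - Phi r) ≤ (50 / 100) * (log 2 - Phi q)) :
    q * ((log 2 - Phi r) * KK r) ≤ 2 * LL q * (log 2 - Phi q) := by
  refine sep_of_check ck6 (inI_of hq0.le hq1 (by norm_num) (by norm_num))
    (inI_of hr0 hr1 (by norm_num) (by norm_num)) rfl hq0 (by linarith) (by linarith) (by linarith) ?_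
  norm_num at h ⊢
  exact h

/-- solution of `q e = D (log 2 - Phi q)` -/
theorem exists_q {D e : ℝ} (hD : 0 < D) (h : D * (log 2 - Phi (99 / 100)) ≤ (99 / 100) * e) :
    ∃ q, 0 < q ∧ q ≤ 99 / 100 ∧ q * e = D * (log 2 - Phi q) := by
  have hc : ContinuousOn (fun q : ℝ => q * e - D * (log 2 - Phi q)) (Icc 0 (99 / 100)) := by
    have := Phi_continuous
    fun_prop
  have h2 := intermediate_value_Icc (by norm_num : (0 : ℝ) ≤ 99 / 100) hc
  have hl : 0 < log 2 := log_pos (by norm_num)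
  obtain ⟨q, hq, hq2⟩ := h2 (show (0 : ℝ) ∈ _ from ⟨by simp only [Phi_zero]; nlinarith, by linarith⟩)
  simp only at hq2
  refine ⟨q, lt_of_le_of_ne hq.1 ?_, hq.2, by linarith⟩
  rintro rfl
  rw [Phi_zero] at hq2
  nlinarith

theorem eta_num : (log 2 - Phi (99 / 100)) ≤ (99 / 100) * (log 2 - Phi (97 / 100)) := by
  have hc : check [Ex.sub (Ex.mul (Ex.k 99 100) (eEt (Ex.k 97 100))) (eEt (Ex.k 99 100))] (l 0)
      ⟨0, 0, 0, 0, 0, 0⟩ = true := by decide +kernel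
  obtain ⟨e, he, hv⟩ := check_sound _ _ _ hc 0 0 0 (by
    refine ⟨⟨?_, ?_⟩, ⟨?_, ?_⟩, ⟨?_, ?_⟩⟩ <;> simp)
  simp only [List.mem_cons, List.not_mem_nil, or_false] at he
  subst he
  have e1 := val_eEt (Ex.k 97 100) 0 0 0 (by norm_num [val]) (by norm_num [val])
  have e2 := val_eEt (Ex.k 99 100) 0 0 0 (by norm_num [val]) (by norm_num [val])
  simp only [val, e1, e2] at hv
  norm_num at hv
  linarith

theorem KK_pos {r : ℝ} (h0 : 0 < r) (h1 : r < 1) : 0 < KK r := by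
  have h2 := wf_nonneg h0.le h1
  have h3 := lam_pos h0 h1
  have h4 := (Phi_mem h0 h1).2
  have : 0 < lam r * (log 2 - Phi r) := mul_pos (by linarith) (by linarith)
  unfold KK
  linarith

/-- core of the separated case -/
theorem sep_core {m d r q D M H : ℝ} (hm0 : 0 < m) (hd0 : 0 < d)
    (hr0 : 3 / 4 ≤ r) (hr1 : r < 1) (hH : H = m * (log 2 - Phi r)) (hdD : d ≤ D) (hDm : D * m ≤ d)
    (hmd : 0 < m - d ^ 2)
    (hMb : ∀ q, 0 < q → q < 1 → q * H ≤ d * (log 2 - Phi q) → 2 * d * LL q ≤ M)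
    (hq0 : 0 < q) (hq1 : q < 1) (hq : q * (log 2 - Phi r) = D * (log 2 - Phi q))
    (hsep : q * ((log 2 - Phi r) * KK r) ≤ 2 * LL q * (log 2 - Phi q)) :
    m * wf r ≤ (m - d ^ 2) * RT (3 / 4) (H / (m - d ^ 2)) + M := by
  have hr00 : 0 < r := by linarith
  have heq : 0 < log 2 - Phi q := by linarith [(Phi_mem hq0 hq1).2]
  have her : 0 < log 2 - Phi r := by linarith [(Phi_mem hr00 hr1).2]
  have hHpos : 0 < H := by rw [hH]; exact mul_pos hm0 her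
  have h1 := RT_ge_tangent (a := 3 / 4) (q := r) (by norm_num) hr0 hr1
    (H := H / (m - d ^ 2)) (div_pos hHpos hmd)
  have h2 : (m - d ^ 2) * (wf r + lam r * (log 2 - H / (m - d ^ 2) - Phi r)) ≤
      (m - d ^ 2) * RT (3 / 4) (H / (m - d ^ 2)) := mul_le_mul_of_nonneg_left h1 hmd.le
  have h3 : (m - d ^ 2) * (wf r + lam r * (log 2 - H / (m - d ^ 2) - Phi r)) =
      m * wf r - d ^ 2 * KK r := by
    unfold KK
    rw [hH]
    field_simp
    ring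
  have h4 : D * KK r ≤ 2 * LL q := by
    have : (D * KK r) * (log 2 - Phi q) ≤ 2 * LL q * (log 2 - Phi q) := by
      calc (D * KK r) * (log 2 - Phi q) = (D * (log 2 - Phi q)) * KK r := by ring
        _ = q * ((log 2 - Phi r) * KK r) := by rw [← hq]; ring
        _ ≤ _ := hsep
    exact le_of_mul_le_mul_right this heq
  have h5 := hMb q hq0 hq1 (by
    rw [hH]
    calc q * (m * (log 2 - Phi r)) = m * (q * (log 2 - Phi r)) := by ring
      _ = (D * m) * (log 2 - Phi q) := by rw [hq]; ring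
      _ ≤ d * (log 2 - Phi q) := mul_le_mul_of_nonneg_right hDm heq.le)
  have h6 : d * KK r ≤ D * KK r := mul_le_mul_of_nonneg_right hdD (KK_pos hr00 hr1).le
  nlinarith [mul_le_mul_of_nonneg_left (h6.trans h4) hd0.le]

theorem Phi_anti {r s : ℝ} (h0 : 0 ≤ r) (h : r ≤ s) (h1 : s ≤ 1) : log 2 - Phi s ≤ log 2 - Phi r := by
  have := Phi_strictMonoOn.monotoneOn ⟨h0, h.trans h1⟩ ⟨h0.trans h, h1⟩ h
  linarith

/-- common reduction: `D0` is the bound of the checked range -/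
theorem sep_all {x d r M D0 : ℝ} (hx0 : 0 ≤ x) (hd0 : 0 < d) (hd1 : d ≤ 1 / 2) (hxd : x + d < 1)
    (hr0 : 3 / 4 ≤ r) (hr1 : r ≤ 97 / 100)
    (hMb : ∀ q, 0 < q → q < 1 → q * ((1 - x ^ 2) * (log 2 - Phi r)) ≤ d * (log 2 - Phi q) →
      2 * d * LL q ≤ M)
    (hs : ∀ q, 0 < q → q ≤ 99 / 100 → q * (log 2 - Phi r) ≤ D0 * (log 2 - Phi q) →
      q * ((log 2 - Phi r) * KK r) ≤ 2 * LL q * (log 2 - Phi q))
    (hD : d ≤ D0 * (1 - x ^ 2) ∨ (D0 = 1 / 2 ∧ D0 * (1 - x ^ 2) ≤ d)) :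
    (1 - x ^ 2) * wf r ≤ ((1 - x ^ 2) - d ^ 2) *
      RT (3 / 4) ((1 - x ^ 2) * (log 2 - Phi r) / ((1 - x ^ 2) - d ^ 2)) + M := by
  have hx1 : x < 1 := by linarith
  have hm0 : 0 < 1 - x ^ 2 := by nlinarith
  have hm1 : 1 - x ^ 2 ≤ 1 := by nlinarith [sq_nonneg x]
  have hmd : 0 < (1 - x ^ 2) - d ^ 2 := by nlinarith
  have hr11 : r < 1 := by linarith
  have hr00 : 0 < r := by linarith
  have he99 : 0 < log 2 - Phi (99 / 100) := by
    linarith [(Phi_mem (r := 99 / 100) (by norm_num) (by norm_num)).2]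
  have her : (log 2 - Phi (99 / 100)) ≤ (99 / 100) * (log 2 - Phi r) := by
    have := Phi_anti hr00.le hr1 (by norm_num)
    linarith [eta_num]
  rcases hD with hD | ⟨hD, hD2⟩
  · obtain ⟨q, hq0, hq1, hq2⟩ := exists_q (D := d / (1 - x ^ 2)) (e := log 2 - Phi r)
      (by positivity) (by
        have : d / (1 - x ^ 2) ≤ 1 := by
          rw [div_le_one hm0]; nlinarith
        nlinarith)
    have h1 : d / (1 - x ^ 2) ≤ D0 := by rw [div_le_iff₀ hm0]; exact hD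
    have hq11 : q < 1 := by linarith
    have heq : 0 < log 2 - Phi q := by linarith [(Phi_mem hq0 hq11).2]
    have h2 := hs q hq0 hq1 (by rw [hq2]; exact mul_le_mul_of_nonneg_right h1 heq.le)
    exact sep_core hm0 hd0 hr0 hr11 rfl
      (by rw [le_div_iff₀ hm0]; nlinarith) (by rw [div_mul_cancel₀ _ hm0.ne']) hmd hMb hq0 hq11 hq2 h2
  · obtain ⟨q, hq0, hq1, hq2⟩ := exists_q (D := D0) (e := log 2 - Phi r)
      (by rw [hD]; norm_num) (by rw [hD]; linarith)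
    have hq11 : q < 1 := by linarith
    have h2 := hs q hq0 hq1 hq2.le
    exact sep_core hm0 hd0 hr0 hr11 rfl (by rw [hD]; exact hd1) hD2 hmd hMb hq0 hq11 hq2 h2

/-- small `d / (1 - x ^ 2)`, for `r` in `[3/4, 9/10]` -/
theorem G2_small {x d r M D0 : ℝ} (hx0 : 0 ≤ x) (hd0 : 0 < d) (hd1 : d ≤ 1 / 2) (hxd : x + d < 1)
    (hMb : ∀ q, 0 < q → q < 1 → q * ((1 - x ^ 2) * (log 2 - Phi r)) ≤ d * (log 2 - Phi q) →
      2 * d * LL q ≤ M) (hD : d ≤ D0 * (1 - x ^ 2))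
    (hr : (75 / 100 ≤ r ∧ r ≤ 78 / 100 ∧ D0 = 17 / 100) ∨ (78 / 100 ≤ r ∧ r ≤ 82 / 100 ∧ D0 = 26 / 100) ∨
      (82 / 100 ≤ r ∧ r ≤ 86 / 100 ∧ D0 = 36 / 100) ∨ (86 / 100 ≤ r ∧ r ≤ 90 / 100 ∧ D0 = 44 / 100)) :
    (1 - x ^ 2) * wf r ≤ ((1 - x ^ 2) - d ^ 2) *
      RT (3 / 4) ((1 - x ^ 2) * (log 2 - Phi r) / ((1 - x ^ 2) - d ^ 2)) + M := by
  rcases hr with ⟨h1, h2, h3⟩ | ⟨h1, h2, h3⟩ | ⟨h1, h2, h3⟩ | ⟨h1, h2, h3⟩ <;> subst h3
  · exact sep_all hx0 hd0 hd1 hxd (by linarith) (by linarith) hMb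
      (fun q h4 h5 h6 => sep1 h4 h5 h1 h2 h6) (Or.inl hD)
  · exact sep_all hx0 hd0 hd1 hxd (by linarith) (by linarith) hMb
      (fun q h4 h5 h6 => sep2 h4 h5 h1 h2 h6) (Or.inl hD)
  · exact sep_all hx0 hd0 hd1 hxd (by linarith) (by linarith) hMb
      (fun q h4 h5 h6 => sep3 h4 h5 h1 h2 h6) (Or.inl hD)
  · exact sep_all hx0 hd0 hd1 hxd (by linarith) (by linarith) hMb
      (fun q h4 h5 h6 => sep4 h4 h5 h1 h2 h6) (Or.inl hD)

/-- all `d ≤ 1/2`, for `r` in `[9/10, 97/100]` -/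
theorem G2_r {x d r M : ℝ} (hx0 : 0 ≤ x) (hd0 : 0 < d) (hd1 : d ≤ 1 / 2) (hxd : x + d < 1)
    (hMb : ∀ q, 0 < q → q < 1 → q * ((1 - x ^ 2) * (log 2 - Phi r)) ≤ d * (log 2 - Phi q) →
      2 * d * LL q ≤ M) (hr0 : 9 / 10 ≤ r) (hr1 : r ≤ 97 / 100) :
    (1 - x ^ 2) * wf r ≤ ((1 - x ^ 2) - d ^ 2) *
      RT (3 / 4) ((1 - x ^ 2) * (log 2 - Phi r) / ((1 - x ^ 2) - d ^ 2)) + M := by
  have hD : d ≤ (1 / 2) * (1 - x ^ 2) ∨ ((1 / 2 : ℝ) = 1 / 2 ∧ (1 / 2) * (1 - x ^ 2) ≤ d) := by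
    rcases le_total d ((1 / 2) * (1 - x ^ 2)) with h | h
    · exact Or.inl h
    · exact Or.inr ⟨rfl, h⟩
  rcases le_total r (93 / 100) with h | h
  · refine sep_all hx0 hd0 hd1 hxd (by linarith) (by linarith) hMb
      (fun q h4 h5 h6 => sep5 h4 h5 (by linarith) h ?_) hD
    norm_num at h6 ⊢
    exact h6
  · refine sep_all hx0 hd0 hd1 hxd (by linarith) (by linarith) hMb
      (fun q h4 h5 h6 => sep6 h4 h5 h hr1 ?_) hD
    norm_num at h6 ⊢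
    exact h6

end Vale.Agent.CK.G2m
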