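import Vale.Agent.CK.G2sep
import Vale.Agent.CK.Red

/-!
# P322: the middle zone, checked by ball arithmetic
-/

namespace Vale.Agent.CK.G2m

open Real Set Vale.Agent.CK.IA

/-! ### lines of the truncated `Psi` -/

def Z0 : Bx := ⟨0, 0, 0, 0, 0, 0⟩

theorem Z0_mem : inBx Z0 0 0 0 := by
  refine ⟨⟨?_, ?_⟩, ⟨?_, ?_⟩, ⟨?_, ?_⟩⟩ <;> simp [Z0]

theorem pos_of_check {e : Ex} (h : check [e] (Tr.l 0) Z0 = true) : 0 < val e 0 0 0 := by
  obtain ⟨f, hf, hv⟩ := check_sound _ _ _ h 0 0 0 Z0_mem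
  simp only [List.mem_cons, List.not_mem_nil, or_false] at hf
  subst hf
  exact hv

/-- the line `y ↦ (l1/l2) y - c1/c2` is below the truncated `Psi` -/
def LineS (l1 l2 c1 c2 : ℕ) : Prop :=
  ∀ y : ℝ, (l1 / l2 : ℝ) * y - (c1 / c2 : ℝ) ≤ PsiT (3 / 4) y

def ePhi (r : Ex) : Ex := Ex.sub (Ex.log (Ex.k 2 1)) (eEt r)

def eS1 (a b l1 l2 : ℕ) : Ex := Ex.sub (eLam (Ex.k a b)) (Ex.k l1 l2)
def eS2 (a b c1 c2 : ℕ) : Ex :=
  Ex.sub (Ex.k c1 c2) (Ex.sub (Ex.mul (eLam (Ex.k a b)) (ePhi (Ex.k a b))) (eW (Ex.k a b)))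

theorem lineS_of {a b l1 l2 c1 c2 : ℕ} (h0 : (0 : ℝ) < a / b) (h1 : (a / b : ℝ) ≤ 3 / 4)
    (hc1 : check [eS1 a b l1 l2] (Tr.l 0) Z0 = true)
    (hc2 : check [eS2 a b c1 c2] (Tr.l 0) Z0 = true) : LineS l1 l2 c1 c2 := by
  intro y
  have hv1 := pos_of_check hc1
  have hv2 := pos_of_check hc2
  have hk : val (Ex.k a b) 0 0 0 = (a / b : ℝ) := rfl
  have he := val_eEt (Ex.k a b) 0 0 0 (by rw [hk]; linarith) (by rw [hk]; linarith)
  have h2 : val (Ex.k 2 1) 0 0 0 = 2 := by norm_num [val]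
  simp only [eS1, val, val_eLam] at hv1
  simp only [eS2, ePhi, val, val_eLam, val_eW, he] at hv2
  norm_num at hv1 hv2
  have hl : (0 : ℝ) ≤ (l1 / l2 : ℝ) := by positivity
  have hc : (0 : ℝ) ≤ (c1 / c2 : ℝ) := by positivity
  rcases le_total y 0 with hy | hy
  · have := PsiT_nonneg (a := 3 / 4) (by norm_num) (by norm_num) y
    nlinarith
  · have h3 := PsiT_ge_tangent (a := 3 / 4) h0 h1 (by norm_num) y
    nlinarith [mul_le_mul_of_nonneg_right hv1.le hy]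

theorem LL_le_aux {r : ℝ} (h0 : 0 ≤ r) (h1 : r < 1) : (1 - r ^ 2) * LL r ≤ 2 * r := by
  have hder : ∀ x ∈ Ico (0 : ℝ) 1, HasDerivAt (fun r => 2 * r - (1 - r ^ 2) * LL r)
      (2 * x * LL x) x := by
    intro x hx
    have h2 : HasDerivAt (fun r : ℝ => 2 * r) 2 x := by
      simpa using (hasDerivAt_id x).const_mul 2
    have h3 : HasDerivAt (fun r : ℝ => 1 - r ^ 2) (-(2 * x)) x := by
      simpa using (hasDerivAt_pow 2 x).const_sub 1
    have h4 := h2.sub (h3.mul (LL_hasDerivAt (by linarith [hx.1]) hx.2))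
    convert! h4 using 1
    have := one_sub_sq_pos (by linarith [hx.1] : -1 < x) hx.2
    field_simp
    ring
  have hmono : MonotoneOn (fun r => 2 * r - (1 - r ^ 2) * LL r) (Ico 0 1) := by
    refine monotoneOn_of_deriv_nonneg (convex_Ico 0 1) ?_ ?_ ?_
    · intro x hx
      exact (hder x hx).continuousAt.continuousWithinAt
    · intro x hx
      rw [interior_Ico] at hx
      exact (hder x ⟨hx.1.le, hx.2⟩).differentiableAt.differentiableWithinAt
    · intro x hx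
      rw [interior_Ico] at hx
      rw [(hder x ⟨hx.1.le, hx.2⟩).deriv]
      have := LL_nonneg hx.1.le hx.2
      have := hx.1.le
      positivity
  have := hmono ⟨le_rfl, zero_lt_one⟩ ⟨h0, h1⟩ h0
  simp only [LL_zero] at this
  linarith

theorem Psi_ge_eight {y : ℝ} (hy : y < log 2) : 8 * y ≤ Psi y := by
  rcases le_or_gt y 0 with h | h
  · rw [Psi_of_nonpos h]; linarith
  · obtain ⟨s, hs, hs2⟩ := exists_Phi h hy
    have hw : 8 * Phi s ≤ wf s := by
      have hcont : ∀ x ∈ Ico (0 : ℝ) 1, ContinuousAt (fun s => wf s - 8 * Phi s) x := by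
        intro x hx
        exact ((wf_hasDerivAt (by linarith [hx.1]) hx.2).sub
          ((Phi_hasDerivAt (by linarith [hx.1]) hx.2).const_mul 8)).continuousAt
      have hmono : MonotoneOn (fun s => wf s - 8 * Phi s) (Icc 0 s) := by
        refine monotoneOn_of_deriv_nonneg (convex_Icc 0 s) ?_ ?_ ?_
        · intro x hx
          exact (hcont x ⟨hx.1, hx.2.trans_lt hs.2⟩).continuousWithinAt
        · intro x hx
          rw [interior_Icc] at hx
          exact ((wf_hasDerivAt (by linarith [hx.1]) (hx.2.trans hs.2)).sub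
            ((Phi_hasDerivAt (by linarith [hx.1]) (hx.2.trans hs.2)).const_mul
              8)).differentiableAt.differentiableWithinAt
        · intro x hx
          rw [interior_Icc] at hx
          have hx1 : x < 1 := hx.2.trans hs.2
          have hder : HasDerivAt (fun s => wf s - 8 * Phi s) _ x :=
            (wf_hasDerivAt (by linarith [hx.1]) hx1).sub
            ((Phi_hasDerivAt (by linarith [hx.1]) hx1).const_mul 8)
          rw [hder.deriv, wf_deriv_eq hx.1 hx1]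
          have h1 : 8 ≤ lam x := by
            unfold lam
            have h2 := two_mul_le_LL hx.1.le hx1
            have h3 := LL_pos hx.1 hx1
            have h4 : (1 - x ^ 2) * LL x ≤ 2 * x := by
              exact LL_le_aux hx.1.le hx1
            have h6 : 0 < (1 - x ^ 2) * LL x := mul_pos (one_sub_sq_pos (by linarith [hx.1]) hx1) h3
            have h7 : (1 : ℝ) / 2 ≤ x / ((1 - x ^ 2) * LL x) := by
              rw [le_div_iff₀ h6]; linarith
            linarith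
          nlinarith [LL_pos hx.1 hx1]
      have := hmono ⟨le_rfl, hs.1.le⟩ ⟨hs.1.le, le_rfl⟩ hs.1.le
      simp only [wf_zero, Phi_zero] at this
      linarith
    rw [← hs2, Psi_Phi hs.1.le hs.2]
    exact hw

theorem PsiT_ge_eight (y : ℝ) : 8 * y ≤ PsiT (3 / 4) y := by
  rcases le_or_gt y (Phi (3 / 4)) with h | h
  · rw [PsiT_of_le h]
    exact Psi_ge_eight (h.trans_lt (Phi_lt_log_two (by norm_num) (by norm_num)))
  · rw [PsiT_of_ge (by norm_num) (by norm_num) h.le]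
    have h1 := Psi_ge_eight (Phi_lt_log_two (a := 3 / 4) (by norm_num) (by norm_num))
    rw [Psi_Phi (by norm_num) (by norm_num)] at h1
    have h2 : 8 ≤ lam (3 / 4) := by
      unfold lam
      have h3 := LL_le_aux (r := 3 / 4) (by norm_num) (by norm_num)
      have h4 := LL_pos (s := 3 / 4) (by norm_num) (by norm_num)
      have h6 : 0 < (1 - (3 / 4 : ℝ) ^ 2) * LL (3 / 4) := mul_pos (by norm_num) h4
      have h7 : (1 : ℝ) / 2 ≤ (3 / 4) / ((1 - (3 / 4 : ℝ) ^ 2) * LL (3 / 4)) := by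
        rw [le_div_iff₀ h6]; linarith
      linarith
    nlinarith

theorem S0 : LineS 8 1 0 1 := by
  intro y
  have := PsiT_ge_eight y
  norm_num
  exact this

/-! ### lines `C1` -/

/-- the line with slopes `b1/b2` and `m1/m2` -/
def LineQ (d H M : ℝ) (b1 b2 m1 m2 : ℕ) : Prop := (b1 / b2 : ℝ) * d - (m1 / m2 : ℝ) * H ≤ M

def eSq (q : Ex) : Ex := Ex.mul (Ex.k 1 4) (Ex.mul (Ex.sub one q) (Ex.add one q))
def eMu (q : Ex) : Ex := Ex.mul (Ex.mul (Ex.k 2 1) (Ex.mul q q))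
  (Ex.inv (Ex.mul (eSq q) (Ex.sub (Ex.k 0 1) (Ex.log (eSq q)))))
def eBe (q : Ex) : Ex := Ex.sub (Ex.add (Ex.mul (Ex.k 2 1) (eL q))
  (Ex.mul (Ex.mul (Ex.k 4 1) q) (Ex.inv (Ex.sub one (Ex.mul q q)))))
  (Ex.mul (Ex.mul (eMu q) (Ex.k 1 2)) (eL q))

theorem val_eMu (e : Ex) (x y z : ℝ) :
    val (eMu e) x y z = Tan.mu ((1 + val e x y z) / 2) ((1 - val e x y z) / 2) := by
  unfold Tan.mu
  have h1 : (1 - (1 + val e x y z) / 2) * (1 - (1 - val e x y z) / 2) =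
      1 / 4 * ((1 - val e x y z) * (1 + val e x y z)) := by ring
  have h2 : (1 + val e x y z) / 2 - (1 - val e x y z) / 2 = val e x y z := by ring
  rw [h1, h2]
  simp only [eMu, eSq, val, val_one, div_eq_mul_inv]
  norm_num
  left
  ring

theorem lineQ_of {a b b1 b2 m1 m2 : ℕ} {d H M : ℝ} (h0 : (0 : ℝ) < a / b) (h1 : (a / b : ℝ) < 1)
    (hc1 : check [Ex.sub (eBe (Ex.k a b)) (Ex.k b1 b2)] (Tr.l 0) Z0 = true)
    (hc2 : check [Ex.sub (Ex.k m1 m2) (eMu (Ex.k a b))] (Tr.l 0) Z0 = true)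
    (hd : 0 ≤ d) (hH : 0 ≤ H)
    (hC1 : ∀ q, 0 < q → q < 1 →
      (2 * LL q + 4 * q / (1 - q ^ 2) - Tan.mu ((1 + q) / 2) ((1 - q) / 2) / 2 * LL q) * d -
      Tan.mu ((1 + q) / 2) ((1 - q) / 2) * H ≤ M) : LineQ d H M b1 b2 m1 m2 := by
  have hv1 := pos_of_check hc1
  have hv2 := pos_of_check hc2
  have hk : val (Ex.k a b) 0 0 0 = (a / b : ℝ) := rfl
  have h2 := hC1 (a / b) h0 h1
  simp only [eBe, val, val_eL, val_eMu, val_one] at hv1
  simp only [val, val_eMu] at hv2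
  have hsq : (1 : ℝ) - (a / b) * (a / b) = 1 - (a / b) ^ 2 := by ring
  rw [hsq] at hv1
  unfold LineQ
  have h3 : (b1 / b2 : ℝ) ≤ 2 * LL (a / b) + 4 * (a / b) / (1 - (a / b) ^ 2) -
      Tan.mu ((1 + (a / b : ℝ)) / 2) ((1 - (a / b : ℝ)) / 2) / 2 * LL (a / b) := by
    rw [div_eq_mul_inv (4 * (a / b : ℝ))]
    norm_num at hv1
    linarith
  have h4 := mul_le_mul_of_nonneg_right h3 hd
  have h5 := mul_le_mul_of_nonneg_right hv2.le hH
  nlinarith

/-! ### the expressions of the zone: variables `x`, `y = d / (1 - x ^ 2)`, `z = r` -/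

def em : Ex := Ex.mul (Ex.sub one Ex.x) (Ex.add one Ex.x)
def ed : Ex := Ex.mul em Ex.y
def e3 : Ex := Ex.add (xlx (Ex.add (Ex.add one Ex.x) ed))
  (Ex.add (xlx (Ex.add (Ex.sub one Ex.x) ed)) (xlx (Ex.sub (Ex.add one Ex.x) ed)))
def e4 : Ex := Ex.add (xlx (Ex.sub (Ex.sub one Ex.x) ed)) e3

def Ep (s : Ex) (l1 l2 c1 c2 b1 b2 m1 m2 : Nat) : Ex :=
  Ex.sub (Ex.sub (Ex.mul (Ex.k l1 l2) (Ex.sub (Ex.sub (Ex.log (Ex.k 2 1)) (Ex.mul (Ex.k 1 4) s))
    (Ex.mul em (eEt Ex.z)))) (Ex.k c1 c2)) (Ex.mul em (Ex.sub (Ex.add (eW Ex.z)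
    (Ex.mul (Ex.k m1 m2) (eEt Ex.z))) (Ex.mul (Ex.k b1 b2) Ex.y)))

def out1 : Ex := Ex.sub (Ex.mul (Ex.add one Ex.x) Ex.y) one
def out2 : Ex := Ex.sub (Ex.mul em Ex.y) (Ex.k 1 2)

theorem hb4 {x d : ℝ} (hx0 : 0 ≤ x) (hd0 : 0 < d) (hxd : x + d < 1) :
    4 * (log 2 - hb x d) = (1 - x - d) * log (1 - x - d) + ((1 + x + d) * log (1 + x + d) +
      ((1 - x + d) * log (1 - x + d) + (1 + x - d) * log (1 + x - d))) := by
  unfold hb
  rw [Tan.Phi_eq (r := x + d) (by linarith) hxd, Tan.Phi_eq (r := x - d) (by linarith) (by linarith)]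
  have h1 : 1 + (x + d) = 1 + x + d := by ring
  have h2 : 1 - (x + d) = 1 - x - d := by ring
  have h3 : 1 + (x - d) = 1 + x - d := by ring
  have h4 : 1 - (x - d) = 1 - x + d := by ring
  rw [h1, h2, h3, h4]
  ring

/-- what has to be shown of a value -/
def Good (x δ r M : ℝ) (e : Ex) : Prop := 0 < val e x δ r →
  (1 - x ^ 2) * wf r ≤ PsiT (3 / 4) (hb x ((1 - x ^ 2) * δ) - (1 - x ^ 2) * (log 2 - Phi r)) + M

theorem good_out1 {x δ r M : ℝ} (hx : x < 1) (h : x + (1 - x ^ 2) * δ < 1) : Good x δ r M out1 := by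
  intro hv
  exfalso
  simp only [out1, val, val_one] at hv
  have : (1 - x ^ 2) * δ = (1 - x) * ((1 + x) * δ) := by ring
  rw [this] at h
  nlinarith [mul_pos (by linarith : 0 < 1 - x) hv]

theorem good_out2 {x δ r M : ℝ} (h : (1 - x ^ 2) * δ ≤ 1 / 2) : Good x δ r M out2 := by
  intro hv
  exfalso
  simp only [out2, em, val, val_one] at hv
  norm_num at hv
  nlinarith

theorem good_aux {x δ r M S hbv l c b m' : ℝ}
    (hS : 4 * (log 2 - hbv) ≤ S) (hl : 0 ≤ l)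
    (hLS : ∀ y, l * y - c ≤ PsiT (3 / 4) y)
    (hLQ : b * ((1 - x ^ 2) * δ) - m' * ((1 - x ^ 2) * (log 2 - Phi r)) ≤ M)
    (hv : 0 < l * (log 2 - 1 / 4 * S - (1 - x) * (1 + x) * (log 2 - Phi r)) - c -
      (1 - x) * (1 + x) * (wf r + m' * (log 2 - Phi r) - b * δ)) :
    (1 - x ^ 2) * wf r ≤ PsiT (3 / 4) (hbv - (1 - x ^ 2) * (log 2 - Phi r)) + M := by
  have h1 := hLS (hbv - (1 - x ^ 2) * (log 2 - Phi r))
  have h2 : l * (log 2 - 1 / 4 * S - (1 - x) * (1 + x) * (log 2 - Phi r)) ≤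
      l * (hbv - (1 - x ^ 2) * (log 2 - Phi r)) := by
    apply mul_le_mul_of_nonneg_left _ hl
    nlinarith
  nlinarith

theorem good_full {x δ r M : ℝ} {l1 l2 c1 c2 b1 b2 m1 m2 : ℕ} (hx0 : 0 ≤ x)
    (hδ : 0 < (1 - x ^ 2) * δ) (h : x + (1 - x ^ 2) * δ < 1) (hr0 : 0 < r) (hr1 : r < 1)
    (hLS : LineS l1 l2 c1 c2)
    (hLQ : LineQ ((1 - x ^ 2) * δ) ((1 - x ^ 2) * (log 2 - Phi r)) M b1 b2 m1 m2) :
    Good x δ r M (Ep e4 l1 l2 c1 c2 b1 b2 m1 m2) := by
  intro hv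
  have hz : val Ex.z x δ r = r := rfl
  have he := val_eEt Ex.z x δ r (by rw [hz]; linarith) (by rw [hz]; exact hr1)
  simp only [Ep, e4, e3, em, ed, xlx, val, val_one, val_eW, he] at hv
  have h4 := hb4 hx0 hδ h
  have hm : (1 - x) * (1 + x) * δ = (1 - x ^ 2) * δ := by ring
  rw [hm] at hv
  refine good_aux (hbv := hb x ((1 - x ^ 2) * δ)) h4.le (by positivity) hLS hLQ ?_
  norm_num at hv ⊢
  linarith

theorem good_cut {x δ r M : ℝ} {l1 l2 c1 c2 b1 b2 m1 m2 : ℕ} (hx0 : 0 ≤ x)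
    (hδ : 0 < (1 - x ^ 2) * δ) (h : x + (1 - x ^ 2) * δ < 1) (hr0 : 0 < r) (hr1 : r < 1)
    (hLS : LineS l1 l2 c1 c2)
    (hLQ : LineQ ((1 - x ^ 2) * δ) ((1 - x ^ 2) * (log 2 - Phi r)) M b1 b2 m1 m2) :
    Good x δ r M (Ep e3 l1 l2 c1 c2 b1 b2 m1 m2) := by
  intro hv
  have hz : val Ex.z x δ r = r := rfl
  have he := val_eEt Ex.z x δ r (by rw [hz]; linarith) (by rw [hz]; exact hr1)
  simp only [Ep, e3, em, ed, xlx, val, val_one, val_eW, he] at hv
  have h4 := hb4 hx0 hδ h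
  have hm : (1 - x) * (1 + x) * δ = (1 - x ^ 2) * δ := by ring
  rw [hm] at hv
  have hu : (1 - x - (1 - x ^ 2) * δ) * log (1 - x - (1 - x ^ 2) * δ) ≤ 0 := by
    apply mul_nonpos_of_nonneg_of_nonpos (by linarith)
    exact log_nonpos (by linarith) (by linarith)
  refine good_aux (hbv := hb x ((1 - x ^ 2) * δ)) (h4.le.trans (add_le_of_nonpos_left hu))
    (by positivity) hLS hLQ ?_
  norm_num at hv ⊢
  linarith

theorem S20 : LineS 811050 100000 113 100000 :=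
  lineS_of (a := 1) (b := 5) (by norm_num) (by norm_num) (by decide +kernel) (by decide +kernel)

theorem S35 : LineS 836576 100000 1180 100000 :=
  lineS_of (a := 7) (b := 20) (by norm_num) (by norm_num) (by decide +kernel) (by decide +kernel)

theorem S50 : LineS 885460 100000 5968 100000 :=
  lineS_of (a := 1) (b := 2) (by norm_num) (by norm_num) (by decide +kernel) (by decide +kernel)

theorem S60 : LineS 941010 100000 15020 100000 :=
  lineS_of (a := 3) (b := 5) (by norm_num) (by norm_num) (by decide +kernel) (by decide +kernel)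

theorem S70 : LineS 1033021 100000 36525 100000 :=
  lineS_of (a := 7) (b := 10) (by norm_num) (by norm_num) (by decide +kernel) (by decide +kernel)

theorem S75 : LineS 1104774 100000 57639 100000 :=
  lineS_of (a := 3) (b := 4) (by norm_num) (by norm_num) (by decide +kernel) (by decide +kernel)

theorem Q30 {d H M : ℝ} (hd : 0 ≤ d) (hH : 0 ≤ H)
    (hC1 : ∀ q, 0 < q → q < 1 →
      (2 * LL q + 4 * q / (1 - q ^ 2) - Tan.mu ((1 + q) / 2) ((1 - q) / 2) / 2 * LL q) * d -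
      Tan.mu ((1 + q) / 2) ((1 - q) / 2) * H ≤ M) : LineQ d H M 239135 100000 53439 100000 :=
  lineQ_of (a := 3) (b := 10) (by norm_num) (by norm_num) (by decide +kernel)
    (by decide +kernel) hd hH hC1

theorem Q40 {d H M : ℝ} (hd : 0 ≤ d) (hH : 0 ≤ H)
    (hC1 : ∀ q, 0 < q → q < 1 →
      (2 * LL q + 4 * q / (1 - q ^ 2) - Tan.mu ((1 + q) / 2) ((1 - q) / 2) / 2 * LL q) * d -
      Tan.mu ((1 + q) / 2) ((1 - q) / 2) * H ≤ M) : LineQ d H M 318570 100000 97640 100000 :=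
  lineQ_of (a := 2) (b := 5) (by norm_num) (by norm_num) (by decide +kernel)
    (by decide +kernel) hd hH hC1

theorem Q50 {d H M : ℝ} (hd : 0 ≤ d) (hH : 0 ≤ H)
    (hC1 : ∀ q, 0 < q → q < 1 →
      (2 * LL q + 4 * q / (1 - q ^ 2) - Tan.mu ((1 + q) / 2) ((1 - q) / 2) / 2 * LL q) * d -
      Tan.mu ((1 + q) / 2) ((1 - q) / 2) * H ≤ M) : LineQ d H M 398883 100000 159302 100000 :=
  lineQ_of (a := 1) (b := 2) (by norm_num) (by norm_num) (by decide +kernel)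
    (by decide +kernel) hd hH hC1

theorem Q60 {d H M : ℝ} (hd : 0 ≤ d) (hH : 0 ≤ H)
    (hC1 : ∀ q, 0 < q → q < 1 →
      (2 * LL q + 4 * q / (1 - q ^ 2) - Tan.mu ((1 + q) / 2) ((1 - q) / 2) / 2 * LL q) * d -
      Tan.mu ((1 + q) / 2) ((1 - q) / 2) * H ≤ M) : LineQ d H M 482052 100000 245556 100000 :=
  lineQ_of (a := 3) (b := 5) (by norm_num) (by norm_num) (by decide +kernel)
    (by decide +kernel) hd hH hC1

theorem Q70 {d H M : ℝ} (hd : 0 ≤ d) (hH : 0 ≤ H)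
    (hC1 : ∀ q, 0 < q → q < 1 →
      (2 * LL q + 4 * q / (1 - q ^ 2) - Tan.mu ((1 + q) / 2) ((1 - q) / 2) / 2 * LL q) * d -
      Tan.mu ((1 + q) / 2) ((1 - q) / 2) * H ≤ M) : LineQ d H M 572275 100000 373186 100000 :=
  lineQ_of (a := 7) (b := 10) (by norm_num) (by norm_num) (by decide +kernel)
    (by decide +kernel) hd hH hC1

theorem Q80 {d H M : ℝ} (hd : 0 ≤ d) (hH : 0 ≤ H)
    (hC1 : ∀ q, 0 < q → q < 1 →
      (2 * LL q + 4 * q / (1 - q ^ 2) - Tan.mu ((1 + q) / 2) ((1 - q) / 2) / 2 * LL q) * d -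
      Tan.mu ((1 + q) / 2) ((1 - q) / 2) * H ≤ M) : LineQ d H M 679452 100000 590638 100000 :=
  lineQ_of (a := 4) (b := 5) (by norm_num) (by norm_num) (by decide +kernel)
    (by decide +kernel) hd hH hC1

end Vale.Agent.CK.G2m
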