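import Vale.Agent.CK.G2tool

/-!
# P322: the middle zone, subdivision trees
-/

namespace Vale.Agent.CK.G2m

open Real Set Vale.Agent.CK.IA

set_option maxRecDepth 100000

open Tr

def F1 : List Ex := [out1, out2, Ep e4 8 1 0 1 398883 100000 159302 100000, Ep e4 8 1 0 1 482052 100000 245556 100000, Ep e4 8 1 0 1 572275 100000 373186 100000, Ep e4 811050 100000 113 100000 239135 100000 53439 100000, Ep e4 811050 100000 113 100000 482052 100000 245556 100000, Ep e4 811050 100000 113 100000 572275 100000 373186 100000, Ep e4 836576 100000 1180 100000 398883 100000 159302 100000, Ep e4 836576 100000 1180 100000 482052 100000 245556 100000, Ep e4 885460 100000 5968 100000 239135 100000 53439 100000, Ep e4 885460 100000 5968 100000 482052 100000 245556 100000, Ep e4 941010 100000 15020 100000 398883 100000 159302 100000, Ep e4 941010 100000 15020 100000 482052 100000 245556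 100000, Ep e4 1033021 100000 36525 100000 239135 100000 53439 100000, Ep e4 1033021 100000 36525 100000 318570 100000 97640 100000, Ep e4 1033021 100000 36525 100000 398883 100000 159302 100000, Ep e4 1104774 100000 57639 100000 239135 100000 53439 100000, Ep e3 8 1 0 1 398883 100000 159302 100000, Ep e3 8 1 0 1 482052 100000 245556 100000, Ep e3 8 1 0 1 572275 100000 373186 100000, Ep e3 811050 100000 113 100000 318570 100000 97640 100000, Ep e3 811050 100000 113 100000 572275 100000 373186 100000, Ep e3 836576 100000 1180 100000 572275 100000 373186 100000, Ep e3 885460 100000 5968 100000 482052 100000 245556 100000]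

def zt1 : Tr :=
  (y (x (y (y (x (y (y (x (y (x (x (z (l 14) (l 17)) (z (l 17) (l 17))) (x (z (l 17) (l 17)) (z (l 17) (l 17)))) (x (x (z (l 17) (l 17)) (z (l 17) (l 17))) (x (z (l 17) (l 17)) (z (l 17) (l 17))))) (x (x (z (l 17) (l 17)) (l 17)) (x (l 17) (l 17)))) (x (y (x (x (z (l 17) (l 17)) (z (l 17) (l 17))) (x (z (l 17) (l 17)) (z (l 17) (l 17)))) (x (x (z (l 17) (l 17)) (z (l 17) (l 17))) (x (z (l 17) (l 17)) (l 17)))) (y (x (x (l 17) (l 17)) (x (l 17) (l 17))) (x (x (l 17) (l 17)) (x (l 17) (l 17)))))) (y (x (y (x (x (z (l 17) (l 17)) (z (l 17) (l 17))) (x (z (l 17) (l 17)) (l 17))) (x (x (z (l 17) (l 17)) (z (l 17) (l 17))) (x (z (l 17) (l 17)) (l 17)))) (y (x (x (l 17) (l 17)) (x (l 17) (l 17))) (x (x (l 17) (l 17)) (x (l 17) (l 17))))) (x (y (y (x (x (l 15) (l 15)) (x (l 15) (l 15))) (x (x (l 15) (l 15)) (x (l 15) (l 15)))) (y (x (x (l 15) (l 15)) (x (l 15)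 (l 15))) (x (x (l 15) (l 15)) (x (l 15) (l 15))))) (y (x (x (l 15) (l 15)) (x (l 15) (l 15))) (x (x (l 15) (l 15)) (x (l 15) (l 15))))))) (y (x (y (x (x (l 15) (l 15)) (l 14)) (x (x (l 14) (l 14)) (l 14))) (x (l 14) (l 14))) (x (y (x (x (l 14) (l 14)) (l 14)) (x (x (l 14) (l 14)) (l 14))) (x (l 14) (l 14))))) (x (y (y (x (y (y (x (x (l 15) (l 15)) (x (l 15) (l 15))) (x (x (l 15) (l 15)) (x (l 15) (l 15)))) (y (x (x (l 15) (l 15)) (x (l 15) (l 15))) (x (x (l 15) (l 15)) (x (l 15) (l 15))))) (y (x (x (l 15) (l 15)) (x (l 15) (l 15))) (x (x (l 15) (l 15)) (x (l 15) (l 15))))) (x (y (y (x (x (l 15) (l 15)) (x (l 15) (l 15))) (x (x (l 15) (l 15)) (x (l 15) (l 15)))) (y (x (x (l 15) (l 15)) (x (l 15) (l 15))) (x (x (l 15) (l 15)) (x (l 15) (l 15))))) (y (x (x (l 15) (l 15)) (x (l 15) (l 15))) (x (x (l 15) (l 15)) (x (l 15) (l 15)))))) (y (x (y (y (x (x (l 15) (l 15)) (x (l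 15) (l 15))) (x (x (l 15) (l 15)) (x (l 15) (l 15)))) (y (x (x (l 15) (l 15)) (x (l 15) (l 15))) (x (x (l 15) (l 15)) (x (l 15) (l 15))))) (y (x (x (l 15) (l 15)) (l 15)) (x (x (l 15) (l 15)) (l 15)))) (x (y (y (x (x (l 15) (l 15)) (x (l 15) (l 15))) (x (x (l 15) (l 15)) (x (l 15) (l 15)))) (y (x (x (l 15) (l 15)) (x (l 15) (l 15))) (x (x (l 15) (l 15)) (x (l 15) (l 15))))) (y (x (x (l 15) (l 15)) (l 15)) (x (x (l 15) (l 15)) (l 15)))))) (y (x (y (x (l 15) (l 15)) (x (l 15) (l 15))) (y (x (l 15) (l 15)) (x (l 15) (l 15)))) (x (y (x (l 15) (l 15)) (x (l 15) (l 15))) (x (l 15) (l 15)))))) (y (x (y (y (x (y (y (x (x (l 15) (l 15)) (x (l 15) (l 15))) (x (x (l 15) (l 15)) (x (l 15) (l 15)))) (y (x (x (l 15) (l 15)) (x (l 15) (l 15))) (x (x (l 15) (l 15)) (x (l 15) (l 15))))) (y (x (x (l 15) (l 15)) (l 15)) (x (x (l 15) (l 15)) (l 15)))) (x (y (y (x (x (l 15) (l 15)) (x (l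 15) (l 15))) (x (x (l 15) (l 15)) (x (l 15) (l 15)))) (y (x (x (l 15) (l 15)) (x (l 15) (l 15))) (x (x (l 15) (l 15)) (x (l 15) (l 15))))) (x (x (l 15) (l 15)) (x (l 15) (l 15))))) (y (x (y (x (x (l 15) (l 15)) (x (l 15) (l 15))) (x (x (l 15) (l 15)) (x (l 15) (l 15)))) (x (x (l 15) (l 15)) (l 16))) (x (y (x (x (l 16) (l 16)) (x (l 16) (l 16))) (x (x (l 16) (l 16)) (x (l 16) (l 16)))) (x (x (l 16) (l 16)) (l 16))))) (x (y (y (x (l 16) (l 16)) (x (l 16) (l 16))) (y (x (l 16) (l 16)) (x (l 16) (l 16)))) (y (x (l 16) (l 16)) (x (l 16) (l 16))))) (x (y (x (y (y (x (x (l 16) (l 16)) (x (l 16) (l 16))) (x (x (l 16) (l 16)) (x (l 16) (l 16)))) (y (x (x (l 16) (l 16)) (x (l 16) (l 16))) (x (x (l 16) (l 16)) (x (l 16) (l 16))))) (y (x (x (l 16) (l 16)) (l 16)) (x (x (l 16) (l 16)) (x (l 16) (l 16))))) (x (y (y (x (x (l 16) (l 16)) (x (l 16) (l 16))) (x (x (l 16) (l 16)) (x (l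 16) (l 16)))) (y (x (x (l 16) (l 16)) (x (l 16) (l 16))) (x (l 13) (l 13)))) (y (x (x (l 13) (l 13)) (x (l 13) (l 13))) (x (x (l 13) (l 13)) (l 13))))) (x (y (y (x (l 13) (l 13)) (x (l 13) (l 13))) (x (x (l 13) (l 13)) (l 13))) (y (x (l 13) (l 13)) (x (l 13) (l 13))))))) (x (y (y (x (y (x (l 10) (l 10)) (x (l 10) (l 10))) (y (x (l 10) (l 10)) (x (l 10) (l 10)))) (x (y (x (l 10) (l 10)) (x (l 10) (l 10))) (x (l 10) (l 10)))) (x (y (y (x (l 8) (l 8)) (x (l 8) (l 8))) (x (x (l 8) (l 8)) (l 12))) (y (x (l 12) (l 12)) (x (l 12) (x (l 12) (l 12)))))) (x (y (y (x (l 12) (l 12)) (x (l 12) (l 12))) (x (y (l 12) (x (l 12) (l 12))) (x (l 12) (l 12)))) (y (x (x (l 12) (l 12)) (x (l 12) (l 5))) (x (x (y (l 5) (l 5)) (l 21)) (x (l 21) (l 21))))))) (x (y (x (y (y (x (y (y (x (l 13) (l 13)) (x (l 13) (l 13))) (y (x (l 13) (l 13)) (x (l 13) (l 13)))) (y (x (x (l 13) (l 13)) (l 13)) (x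 (l 13) (l 13)))) (x (y (y (x (l 13) (l 13)) (x (l 13) (l 13))) (y (x (l 13) (l 13)) (x (l 13) (l 13)))) (y (x (l 13) (l 13)) (x (x (l 13) (l 13)) (l 13))))) (y (x (y (y (x (l 13) (l 13)) (x (l 13) (l 13))) (y (x (x (l 13) (l 13)) (x (l 13) (l 13))) (x (l 1) (y (l 11) (l 11))))) (y (x (x (l 11) (l 11)) (l 11)) (x (y (l 11) (l 11)) (x (l 11) (l 11))))) (x (l 1) (y (x (y (x (l 1) (l 6)) (l 1)) (y (l 11) (l 11))) (x (l 1) (y (x (l 1) (l 3)) (l 1))))))) (y (x (y (x (x (l 9) (l 9)) (l 11)) (x (x (l 11) (l 11)) (l 11))) (y (x (l 11) (l 11)) (x (l 11) (l 11)))) (x (y (x (x (l 11) (l 11)) (x (l 11) (l 11))) (x (y (l 11) (x (l 11) (l 11))) (y (l 11) (l 11)))) (y (x (l 11) (l 11)) (x (x (l 11) (l 11)) (x (l 11) (l 11))))))) (x (y (y (l 1) (l 1)) (l 1)) (x (y (y (x (y (x (l 1) (l 3)) (l 1)) (y (x (l 3) (l 3)) (x (l 3) (l 3)))) (l 1)) (l 1)) (y (x (y (y (x (l 3) (l 3)) (x (l 3) (l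 3))) (y (x (l 3) (l 3)) (x (l 3) (l 3)))) (y (x (l 3) (l 3)) (x (l 4) (l 4)))) (x (l 1) (y (x (y (l 4) (l 4)) (y (l 4) (x (l 4) (l 4)))) (x (l 1) (l 1)))))))) (y (x (x (y (x (x (l 2) (l 2)) (x (l 2) (l 2))) (x (y (l 11) (x (l 11) (l 11))) (y (x (l 11) (l 11)) (x (l 11) (l 11))))) (y (x (y (l 11) (l 11)) (x (l 11) (l 11))) (y (x (x (l 11) (l 11)) (x (l 11) (l 11))) (x (x (l 11) (l 11)) (x (l 19) (l 19)))))) (y (y (x (y (x (l 2) (l 18)) (x (l 24) (l 24))) (y (x (l 24) (l 24)) (x (l 24) (l 24)))) (x (y (x (l 24) (l 24)) (x (l 24) (l 24))) (y (x (l 24) (l 24)) (x (l 24) (l 24))))) (x (y (x (l 24) (l 24)) (x (l 24) (l 24))) (y (y (x (l 24) (l 24)) (x (l 24) (l 24))) (x (l 24) (l 24)))))) (x (y (x (x (y (x (l 3) (l 3)) (x (l 7) (y (l 7) (l 7)))) (y (x (l 7) (l 7)) (x (x (l 7) (l 7)) (l 23)))) (y (x (x (l 23) (l 23)) (l 23)) (x (x (l 23) (l 23)) (l 23)))) (x (x (y (x (y (x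 (l 3) (l 3)) (x (l 3) (l 3))) (y (x (l 3) (l 3)) (x (l 4) (l 20)))) (x (y (x (y (l 3) (l 4)) (z (l 22) (l 22))) (x (l 1) (l 20))) (x (l 20) (l 20)))) (y (y (x (l 22) (l 22)) (x (l 22) (l 22))) (x (l 22) (l 22)))) (y (x (l 22) (l 22)) (x (l 22) (l 22))))) (y (x (y (x (l 22) (l 22)) (x (l 22) (l 22))) (y (x (l 22) (l 22)) (l 0))) (l 0))))))

theorem zc1 : check F1 zt1 ⟨0, 1011551797065, 186916976721, 546094440168, 824632621320, 32987547856⟩ = true := by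
  decide +kernel

theorem zone1 {x δ r M : ℝ} (hx0 : 0 ≤ x) (hx1 : x ≤ 92 / 100) (hδ0 : 17 / 100 ≤ δ)
    (hδ1 : δ ≤ 2 / 3) (hr0 : 75/100 ≤ r) (hr1 : r ≤ 78/100) (h1 : x + (1 - x ^ 2) * δ < 1)
    (h2 : (1 - x ^ 2) * δ ≤ 1 / 2)
    (hC1 : ∀ q, 0 < q → q < 1 →
      (2 * LL q + 4 * q / (1 - q ^ 2) - Tan.mu ((1 + q) / 2) ((1 - q) / 2) / 2 * LL q) *
        ((1 - x ^ 2) * δ) -
      Tan.mu ((1 + q) / 2) ((1 - q) / 2) * ((1 - x ^ 2) * (log 2 - Phi r)) ≤ M) :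
    (1 - x ^ 2) * wf r ≤ PsiT (3 / 4) (hb x ((1 - x ^ 2) * δ) - (1 - x ^ 2) * (log 2 - Phi r)) + M := by
  have hm : 0 < 1 - x ^ 2 := by nlinarith
  have hx11 : x < 1 := by linarith
  have hr00 : 0 < r := by linarith
  have hr11 : r < 1 := by linarith
  have hδ : 0 < (1 - x ^ 2) * δ := mul_pos hm (by linarith)
  have hH : 0 ≤ (1 - x ^ 2) * (log 2 - Phi r) := (mul_pos hm (by linarith [(Phi_mem hr00 hr11).2])).le
  have hbx : inBx ⟨0, 1011551797065, 186916976721, 546094440168, 824632621320, 32987547856⟩ x δ r :=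
    ⟨inI_of hx0 hx1 (by norm_num) (by norm_num), inI_of hδ0 hδ1 (by norm_num) (by norm_num),
      inI_of hr0 hr1 (by norm_num) (by norm_num)⟩
  obtain ⟨e, he, hv⟩ := check_sound _ _ _ zc1 _ _ _ hbx
  have hg : ∀ e ∈ F1, Good x δ r M e := by
    unfold F1
    simp only [List.forall_mem_cons]
    refine ⟨good_out1 hx11 h1, good_out2 h2, good_full hx0 hδ h1 hr00 hr11 S0 (Q50 hδ.le hH hC1),
      good_full hx0 hδ h1 hr00 hr11 S0 (Q60 hδ.le hH hC1),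
      good_full hx0 hδ h1 hr00 hr11 S0 (Q70 hδ.le hH hC1),
      good_full hx0 hδ h1 hr00 hr11 S20 (Q30 hδ.le hH hC1),
      good_full hx0 hδ h1 hr00 hr11 S20 (Q60 hδ.le hH hC1),
      good_full hx0 hδ h1 hr00 hr11 S20 (Q70 hδ.le hH hC1),
      good_full hx0 hδ h1 hr00 hr11 S35 (Q50 hδ.le hH hC1),
      good_full hx0 hδ h1 hr00 hr11 S35 (Q60 hδ.le hH hC1),
      good_full hx0 hδ h1 hr00 hr11 S50 (Q30 hδ.le hH hC1),
      good_full hx0 hδ h1 hr00 hr11 S50 (Q60 hδ.le hH hC1),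
      good_full hx0 hδ h1 hr00 hr11 S60 (Q50 hδ.le hH hC1),
      good_full hx0 hδ h1 hr00 hr11 S60 (Q60 hδ.le hH hC1),
      good_full hx0 hδ h1 hr00 hr11 S70 (Q30 hδ.le hH hC1),
      good_full hx0 hδ h1 hr00 hr11 S70 (Q40 hδ.le hH hC1),
      good_full hx0 hδ h1 hr00 hr11 S70 (Q50 hδ.le hH hC1),
      good_full hx0 hδ h1 hr00 hr11 S75 (Q30 hδ.le hH hC1),
      good_cut hx0 hδ h1 hr00 hr11 S0 (Q50 hδ.le hH hC1),
      good_cut hx0 hδ h1 hr00 hr11 S0 (Q60 hδ.le hH hC1),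
      good_cut hx0 hδ h1 hr00 hr11 S0 (Q70 hδ.le hH hC1),
      good_cut hx0 hδ h1 hr00 hr11 S20 (Q40 hδ.le hH hC1),
      good_cut hx0 hδ h1 hr00 hr11 S20 (Q70 hδ.le hH hC1),
      good_cut hx0 hδ h1 hr00 hr11 S35 (Q70 hδ.le hH hC1),
      good_cut hx0 hδ h1 hr00 hr11 S50 (Q60 hδ.le hH hC1), ?_⟩
    intro e he
    simp at he
  exact hg e he hv

def F2 : List Ex := [out1, out2, Ep e4 8 1 0 1 239135 100000 53439 100000, Ep e4 8 1 0 1 482052 100000 245556 100000, Ep e4 8 1 0 1 572275 100000 373186 100000, Ep e4 811050 100000 113 100000 572275 100000 373186 100000, Ep e4 836576 100000 1180 100000 572275 100000 373186 100000, Ep e4 885460 100000 5968 100000 482052 100000 245556 100000, Ep e4 885460 100000 5968 100000 572275 100000 373186 100000, Ep e4 941010 100000 15020 100000 482052 100000 245556 100000, Ep e4 941010 100000 15020 100000 572275 100000 373186 100000, Ep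 e4 1033021 100000 36525 100000 398883 100000 159302 100000, Ep e4 1033021 100000 36525 100000 482052 100000 245556 100000, Ep e4 1104774 100000 57639 100000 318570 100000 97640 100000, Ep e4 1104774 100000 57639 100000 398883 100000 159302 100000, Ep e3 8 1 0 1 398883 100000 159302 100000, Ep e3 8 1 0 1 482052 100000 245556 100000, Ep e3 8 1 0 1 572275 100000 373186 100000, Ep e3 811050 100000 113 100000 318570 100000 97640 100000, Ep e3 811050 100000 113 100000 572275 100000 373186 100000, Ep e3 836576 100000 1180 100000 572275 100000 373186 100000, Ep e3 885460 100000 5968 100000 398883 100000 159302 100000, Ep e3 885460 100000 5968 100000 572275 100000 373186 100000]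

def zt2 : Tr :=
  (y (x (y (x (y (y (y (x (y (y (x (z (l 13) (l 14)) (z (l 13) (l 14))) (x (z (l 13) (l 14)) (z (l 14) (l 14)))) (x (z (x (l 14) (l 14)) (l 14)) (z (x (l 14) (l 14)) (l 14)))) (x (z (x (l 14) (l 14)) (l 14)) (x (l 14) (l 14)))) (x (y (x (z (x (l 14) (l 14)) (l 14)) (z (l 14) (l 14))) (x (z (l 14) (l 14)) (z (l 14) (l 14)))) (x (z (x (l 14) (l 14)) (l 14)) (z (l 14) (l 14))))) (x (y (y (x (z (l 14) (l 14)) (z (l 14) (l 14))) (x (z (l 14) (l 14)) (z (l 14) (l 14)))) (y (x (z (l 14) (l 14)) (z (l 14) (l 14))) (x (z (l 14) (l 14)) (z (l 14) (l 14))))) (y (x (z (l 14) (l 14)) (z (l 14) (l 14))) (x (z (l 14) (l 14)) (x (l 14) (l 14)))))) (y (x (y (y (x (z (l 14) (l 14)) (z (l 14) (l 14))) (x (z (l 14) (l 14)) (z (l 14) (l 14)))) (y (x (z (l 14) (l 14)) (z (l 14) (l 14))) (x (z (l 14) (l 14)) (z (l 14) (l 14))))) (y (x (z (l 14) (l 14)) (x (l 14) (l 14))) (x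 (z (l 14) (l 14)) (x (l 14) (l 14))))) (x (y (y (x (z (l 14) (l 14)) (z (l 14) (l 14))) (x (z (l 14) (l 14)) (z (l 14) (l 14)))) (y (x (z (l 14) (l 14)) (z (l 14) (l 14))) (x (z (l 14) (l 14)) (z (l 14) (l 14))))) (y (x (z (l 14) (l 14)) (x (l 14) (l 14))) (x (z (l 14) (l 14)) (x (l 14) (l 14))))))) (y (x (y (y (x (x (l 14) (l 14)) (l 13)) (x (x (l 13) (l 13)) (l 13))) (y (x (x (l 13) (l 13)) (l 11)) (x (x (l 11) (l 11)) (l 11)))) (y (x (l 11) (l 11)) (x (l 11) (l 11)))) (x (y (x (x (l 11) (l 11)) (x (l 11) (l 11))) (x (x (l 11) (l 11)) (x (l 11) (l 11)))) (y (x (l 11) (l 11)) (x (l 11) (l 11)))))) (x (y (y (x (y (y (x (z (l 11) (l 11)) (z (l 11) (l 11))) (x (z (l 11) (l 11)) (z (l 11) (l 11)))) (y (x (z (l 11) (l 11)) (z (l 11) (l 11))) (x (z (l 11) (l 11)) (z (l 11) (l 11))))) (y (x (z (l 11) (l 11)) (z (l 11) (l 11))) (x (z (l 11) (l 11)) (x (l 11) (l 11))))) (x (y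 (y (x (z (l 11) (l 11)) (z (l 11) (l 11))) (x (z (l 11) (l 11)) (z (l 11) (l 11)))) (y (x (z (l 11) (l 11)) (z (l 11) (l 11))) (x (z (l 11) (l 11)) (z (l 11) (l 11))))) (y (x (z (l 11) (l 11)) (x (l 11) (l 11))) (x (z (l 11) (l 9)) (x (l 9) (l 9)))))) (y (x (y (y (x (z (l 9) (l 9)) (z (l 9) (l 9))) (x (z (l 9) (l 9)) (z (l 9) (l 9)))) (y (x (z (l 9) (l 9)) (z (l 9) (l 9))) (x (z (l 9) (l 9)) (z (l 9) (l 9))))) (y (x (z (l 9) (l 9)) (x (l 9) (l 9))) (x (z (l 9) (l 9)) (x (l 9) (l 9))))) (x (y (y (x (z (l 9) (l 9)) (z (l 9) (l 9))) (x (z (l 9) (l 9)) (z (l 9) (l 9)))) (y (x (z (l 9) (l 9)) (z (l 9) (l 9))) (x (z (l 9) (l 9)) (z (l 9) (l 9))))) (y (x (x (l 9) (l 9)) (x (l 9) (l 9))) (x (x (l 9) (l 9)) (x (l 9) (l 9))))))) (y (x (y (x (x (l 9) (l 9)) (x (l 9) (l 9))) (x (x (l 9) (l 9)) (l 12))) (y (x (l 12) (l 12)) (x (l 12) (l 12)))) (x (y (x (x (l 12) (l 12)) (l 12)) (x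 (x (l 12) (l 12)) (x (l 12) (l 12)))) (x (x (l 12) (l 12)) (x (l 12) (l 12))))))) (x (y (x (y (y (x (l 12) (l 12)) (x (l 12) (l 12))) (x (l 11) (l 11))) (y (x (l 11) (l 11)) (x (l 11) (l 11)))) (x (y (x (l 9) (l 9)) (x (x (l 9) (l 9)) (x (l 9) (l 9)))) (x (y (l 9) (x (l 9) (l 9))) (y (l 9) (x (l 9) (l 9)))))) (x (y (x (y (l 9) (l 9)) (x (l 9) (l 9))) (x (x (l 9) (y (l 9) (l 9))) (x (y (l 9) (l 9)) (l 21)))) (x (y (x (l 2) (l 2)) (x (l 15) (l 15))) (y (x (y (l 15) (l 15)) (l 18)) (x (l 18) (l 18))))))) (x (y (x (y (y (x (y (y (x (z (l 7) (l 8)) (z (l 7) (l 8))) (x (z (l 8) (l 8)) (z (l 8) (l 8)))) (y (x (y (z (l 8) (l 8)) (z (l 8) (l 8))) (x (l 8) (l 8))) (x (y (y (z (l 8) (l 8)) (x (l 8) (l 8))) (y (x (l 8) (l 8)) (x (l 8) (l 8)))) (y (z (l 8) (l 8)) (z (l 8) (l 8)))))) (y (x (x (l 8) (l 8)) (x (l 8) (l 8))) (x (y (x (l 8) (l 8)) (x (l 8) (l 8))) (x (l 8) (l 8))))) (x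 (y (y (x (y (y (x (l 8) (l 8)) (x (l 8) (l 8))) (y (x (l 8) (l 8)) (x (l 8) (l 8)))) (y (x (l 8) (l 8)) (x (l 8) (l 8)))) (x (y (y (x (l 8) (l 8)) (x (l 8) (l 8))) (y (x (l 8) (l 8)) (x (l 8) (l 8)))) (y (x (l 8) (l 8)) (x (l 8) (l 8))))) (y (x (y (y (x (l 8) (l 8)) (l 1)) (l 1)) (x (l 7) (l 7))) (x (l 1) (l 1)))) (y (x (y (z (l 7) (l 8)) (z (l 8) (l 8))) (x (l 8) (l 8))) (x (y (x (l 8) (l 8)) (x (l 8) (l 8))) (x (l 8) (l 8)))))) (y (x (l 1) (x (y (y (x (l 1) (l 6)) (l 1)) (l 1)) (y (x (l 6) (l 6)) (x (l 6) (l 6))))) (x (l 1) (l 1)))) (x (y (y (x (x (l 7) (l 7)) (x (l 7) (l 7))) (x (x (l 7) (l 7)) (x (l 7) (l 7)))) (y (x (y (x (l 7) (l 7)) (x (l 7) (l 7))) (x (l 7) (l 7))) (x (y (x (l 7) (l 7)) (l 1)) (y (x (l 4) (l 4)) (x (l 4) (l 4)))))) (y (x (y (l 9) (x (l 9) (l 9))) (y (l 9) (l 10))) (x (y (x (l 10) (l 10)) (x (l 10) (l 10))) (y (x (l 10) (l 10)) (x (l 10) (l 10)))))))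 (x (l 1) (x (y (y (x (l 1) (y (x (l 1) (l 4)) (l 1))) (l 1)) (l 1)) (y (x (y (x (l 4) (l 4)) (x (l 4) (l 4))) (y (x (l 4) (l 4)) (x (l 4) (l 6)))) (x (l 1) (y (x (l 1) (y (l 6) (x (l 6) (l 6)))) (l 1))))))) (y (x (x (y (x (y (l 7) (x (l 7) (l 7))) (y (l 7) (x (l 7) (l 7)))) (x (y (x (l 7) (l 7)) (x (l 7) (l 7))) (y (x (l 7) (l 7)) (x (l 7) (l 7))))) (x (y (x (l 7) (l 7)) (x (y (l 7) (l 5)) (y (l 5) (l 17)))) (y (x (l 3) (l 4)) (x (l 17) (l 17))))) (y (x (y (x (x (l 17) (l 17)) (l 17)) (x (l 19) (l 19))) (y (x (l 19) (l 19)) (x (l 19) (l 19)))) (x (y (x (l 19) (l 19)) (x (l 19) (l 19))) (y (x (l 19) (l 19)) (x (l 19) (l 19)))))) (x (y (x (x (y (x (l 4) (l 4)) (x (y (l 4) (l 4)) (y (l 4) (x (l 4) (l 4))))) (x (x (z (y (l 4) (l 4)) (y (l 4) (l 4))) (z (l 20) (l 20))) (x (l 22) (l 22)))) (y (x (x (l 22) (l 22)) (l 22)) (x (l 22) (l 22)))) (x (x (y (x (y (x (l 4) (l 4)) (x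 (l 4) (l 4))) (y (x (l 4) (l 4)) (z (l 19) (l 20)))) (x (y (x (y (l 4) (l 1)) (y (l 4) (z (l 17) (l 17)))) (x (l 1) (l 20))) (x (l 20) (l 20)))) (y (y (x (l 20) (l 20)) (x (l 20) (l 20))) (y (x (l 20) (l 20)) (x (l 20) (l 20))))) (y (x (l 20) (l 20)) (l 0)))) (y (x (y (x (l 16) (l 16)) (x (l 16) (l 16))) (l 0)) (l 0))))))

theorem zc2 : check F2 zt2 ⟨0, 1011551797065, 285873023221, 447138393668, 857617970153, 43982664134⟩ = true := by
  decide +kernel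

theorem zone2 {x δ r M : ℝ} (hx0 : 0 ≤ x) (hx1 : x ≤ 92 / 100) (hδ0 : 26 / 100 ≤ δ)
    (hδ1 : δ ≤ 2 / 3) (hr0 : 78/100 ≤ r) (hr1 : r ≤ 82/100) (h1 : x + (1 - x ^ 2) * δ < 1)
    (h2 : (1 - x ^ 2) * δ ≤ 1 / 2)
    (hC1 : ∀ q, 0 < q → q < 1 →
      (2 * LL q + 4 * q / (1 - q ^ 2) - Tan.mu ((1 + q) / 2) ((1 - q) / 2) / 2 * LL q) *
        ((1 - x ^ 2) * δ) -
      Tan.mu ((1 + q) / 2) ((1 - q) / 2) * ((1 - x ^ 2) * (log 2 - Phi r)) ≤ M) :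
    (1 - x ^ 2) * wf r ≤ PsiT (3 / 4) (hb x ((1 - x ^ 2) * δ) - (1 - x ^ 2) * (log 2 - Phi r)) + M := by
  have hm : 0 < 1 - x ^ 2 := by nlinarith
  have hx11 : x < 1 := by linarith
  have hr00 : 0 < r := by linarith
  have hr11 : r < 1 := by linarith
  have hδ : 0 < (1 - x ^ 2) * δ := mul_pos hm (by linarith)
  have hH : 0 ≤ (1 - x ^ 2) * (log 2 - Phi r) := (mul_pos hm (by linarith [(Phi_mem hr00 hr11).2])).le
  have hbx : inBx ⟨0, 1011551797065, 285873023221, 447138393668, 857617970153, 43982664134⟩ x δ r :=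
    ⟨inI_of hx0 hx1 (by norm_num) (by norm_num), inI_of hδ0 hδ1 (by norm_num) (by norm_num),
      inI_of hr0 hr1 (by norm_num) (by norm_num)⟩
  obtain ⟨e, he, hv⟩ := check_sound _ _ _ zc2 _ _ _ hbx
  have hg : ∀ e ∈ F2, Good x δ r M e := by
    unfold F2
    simp only [List.forall_mem_cons]
    refine ⟨good_out1 hx11 h1, good_out2 h2, good_full hx0 hδ h1 hr00 hr11 S0 (Q30 hδ.le hH hC1),
      good_full hx0 hδ h1 hr00 hr11 S0 (Q60 hδ.le hH hC1),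
      good_full hx0 hδ h1 hr00 hr11 S0 (Q70 hδ.le hH hC1),
      good_full hx0 hδ h1 hr00 hr11 S20 (Q70 hδ.le hH hC1),
      good_full hx0 hδ h1 hr00 hr11 S35 (Q70 hδ.le hH hC1),
      good_full hx0 hδ h1 hr00 hr11 S50 (Q60 hδ.le hH hC1),
      good_full hx0 hδ h1 hr00 hr11 S50 (Q70 hδ.le hH hC1),
      good_full hx0 hδ h1 hr00 hr11 S60 (Q60 hδ.le hH hC1),
      good_full hx0 hδ h1 hr00 hr11 S60 (Q70 hδ.le hH hC1),
      good_full hx0 hδ h1 hr00 hr11 S70 (Q50 hδ.le hH hC1),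
      good_full hx0 hδ h1 hr00 hr11 S70 (Q60 hδ.le hH hC1),
      good_full hx0 hδ h1 hr00 hr11 S75 (Q40 hδ.le hH hC1),
      good_full hx0 hδ h1 hr00 hr11 S75 (Q50 hδ.le hH hC1),
      good_cut hx0 hδ h1 hr00 hr11 S0 (Q50 hδ.le hH hC1),
      good_cut hx0 hδ h1 hr00 hr11 S0 (Q60 hδ.le hH hC1),
      good_cut hx0 hδ h1 hr00 hr11 S0 (Q70 hδ.le hH hC1),
      good_cut hx0 hδ h1 hr00 hr11 S20 (Q40 hδ.le hH hC1),
      good_cut hx0 hδ h1 hr00 hr11 S20 (Q70 hδ.le hH hC1),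
      good_cut hx0 hδ h1 hr00 hr11 S35 (Q70 hδ.le hH hC1),
      good_cut hx0 hδ h1 hr00 hr11 S50 (Q50 hδ.le hH hC1),
      good_cut hx0 hδ h1 hr00 hr11 S50 (Q70 hδ.le hH hC1), ?_⟩
    intro e he
    simp at he
  exact hg e he hv

def F3 : List Ex := [out1, out2, Ep e4 8 1 0 1 239135 100000 53439 100000, Ep e4 8 1 0 1 482052 100000 245556 100000, Ep e4 8 1 0 1 572275 100000 373186 100000, Ep e4 8 1 0 1 679452 100000 590638 100000, Ep e4 811050 100000 113 100000 572275 100000 373186 100000, Ep e4 811050 100000 113 100000 679452 100000 590638 100000, Ep e4 836576 100000 1180 100000 482052 100000 245556 100000, Ep e4 836576 100000 1180 100000 572275 100000 373186 100000, Ep e4 836576 100000 1180 100000 679452 100000 590638 100000, Ep e4 885460 100000 5968 100000 572275 100000 373186 100000, Ep e4 885460 100000 5968 100000 679452 100000 590638 100000, Ep e4 941010 100000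 15020 100000 482052 100000 245556 100000, Ep e4 941010 100000 15020 100000 572275 100000 373186 100000, Ep e4 1033021 100000 36525 100000 482052 100000 245556 100000, Ep e4 1033021 100000 36525 100000 572275 100000 373186 100000, Ep e4 1104774 100000 57639 100000 482052 100000 245556 100000, Ep e3 8 1 0 1 239135 100000 53439 100000, Ep e3 8 1 0 1 482052 100000 245556 100000, Ep e3 8 1 0 1 572275 100000 373186 100000, Ep e3 8 1 0 1 679452 100000 590638 100000, Ep e3 836576 100000 1180 100000 482052 100000 245556 100000, Ep e3 836576 100000 1180 100000 572275 100000 373186 100000, Ep e3 836576 100000 1180 100000 679452 100000 590638 100000, Ep e3 885460 100000 5968 100000 572275 100000 373186 100000, Ep e3 885460 100000 5968 100000 679452 100000 590638 100000, Ep e3 941010 100000 15020 100000 572275 100000 373186 100000]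

def zt3 : Tr :=
  (x (y (y (x (y (y (x (y (y (x (z (l 15) (l 15)) (z (l 15) (l 15))) (x (z (l 15) (l 15)) (z (l 15) (l 15)))) (y (x (z (l 15) (l 15)) (z (l 15) (l 15))) (x (z (l 15) (l 15)) (z (l 15) (l 15))))) (y (x (z (l 15) (l 15)) (z (l 15) (l 15))) (x (z (l 15) (l 15)) (z (l 15) (l 15))))) (x (y (y (x (z (l 15) (l 15)) (z (l 15) (l 15))) (x (z (l 15) (l 15)) (z (l 15) (l 15)))) (y (x (z (l 15) (l 15)) (z (l 15) (l 15))) (x (z (l 15) (l 15)) (z (l 15) (l 15))))) (x (z (l 15) (l 15)) (z (l 15) (l 15))))) (y (x (y (x (z (l 15) (l 15)) (z (l 15) (l 15))) (x (z (l 15) (l 15)) (z (l 15) (l 15)))) (x (z (l 15) (l 15)) (z (l 15) (l 15)))) (x (y (x (z (l 15) (l 15)) (z (l 15) (l 15))) (x (z (l 15) (l 15)) (z (l 15) (l 15)))) (x (z (l 15) (l 15)) (z (l 15) (l 15)))))) (x (y (y (x (z (l 15) (l 15)) (l 17)) (x (x (l 17) (l 17)) (l 17))) (y (x (x (l 17) (l 17)) (l 17)) (x (z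 (l 17) (l 17)) (l 16)))) (y (x (x (l 16) (l 16)) (l 17)) (x (x (l 17) (l 17)) (x (l 17) (l 17)))))) (x (y (x (y (y (x (z (l 17) (l 17)) (z (l 17) (l 17))) (x (z (l 17) (l 17)) (z (l 17) (l 17)))) (y (x (z (l 17) (l 17)) (z (l 17) (l 17))) (x (z (l 17) (l 17)) (z (l 17) (l 17))))) (y (x (z (l 17) (l 17)) (z (l 17) (l 17))) (x (z (l 17) (l 17)) (z (l 17) (l 17))))) (x (y (y (x (z (l 17) (l 17)) (z (l 17) (l 17))) (x (z (l 17) (l 17)) (z (l 17) (l 17)))) (y (x (y (l 16) (l 16)) (z (l 16) (l 16))) (x (l 1) (y (l 16) (l 1))))) (y (x (z (l 14) (l 14)) (z (l 14) (l 14))) (x (y (z (l 14) (l 14)) (z (l 14) (l 14))) (z (l 14) (l 14)))))) (x (y (y (x (z (l 14) (l 14)) (l 16)) (x (x (l 16) (l 16)) (l 16))) (x (y (x (l 16) (l 16)) (x (l 16) (l 16))) (y (l 16) (x (l 16) (l 16))))) (y (x (x (l 16) (l 16)) (x (l 16) (l 16))) (x (x (l 16) (l 16)) (x (l 16) (l 16))))))) (x (y (y (x (l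 1) (y (x (y (x (l 1) (l 11)) (l 1)) (y (z (l 11) (l 11)) (x (l 11) (l 11)))) (l 1))) (l 1)) (l 1)) (y (x (y (x (y (x (l 11) (l 11)) (y (l 14) (x (l 14) (l 14)))) (y (x (l 14) (l 14)) (x (l 14) (l 14)))) (x (l 1) (y (x (l 9) (l 9)) (l 1)))) (y (x (y (l 14) (x (l 14) (l 14))) (y (l 14) (x (l 14) (l 14)))) (x (y (x (l 14) (l 14)) (x (l 14) (l 14))) (y (x (l 14) (l 14)) (x (l 14) (l 14)))))) (x (l 1) (y (x (y (x (l 1) (l 7)) (l 1)) (y (x (l 5) (l 5)) (x (l 10) (x (l 10) (l 10))))) (x (l 1) (x (l 1) (y (x (l 1) (l 5)) (l 1))))))))) (y (y (x (x (y (x (l 15) (l 15)) (x (l 15) (l 15))) (x (y (l 15) (l 15)) (y (l 15) (x (l 15) (l 15))))) (y (x (x (l 13) (x (l 13) (l 13))) (y (x (x (l 13) (l 13)) (x (l 13) (l 18))) (x (x (l 2) (l 2)) (l 22)))) (x (y (x (l 8) (x (l 8) (l 8))) (x (x (l 8) (l 8)) (x (l 8) (l 8)))) (y (x (l 23) (l 23)) (x (l 23) (l 23)))))) (x (x (x (y (x (l 8) (l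 8)) (x (l 6) (l 6))) (y (x (l 6) (l 6)) (x (l 6) (l 6)))) (x (y (x (l 6) (l 6)) (x (l 6) (l 6))) (y (x (l 6) (l 6)) (x (l 6) (l 6))))) (y (x (y (x (x (l 6) (l 6)) (l 25)) (x (x (l 25) (l 25)) (l 25))) (y (x (l 25) (l 25)) (x (l 25) (l 25)))) (x (y (x (l 27) (l 27)) (x (l 27) (l 27))) (y (x (l 27) (l 27)) (x (l 27) (l 27))))))) (x (y (x (x (y (x (l 6) (l 6)) (x (l 11) (y (l 11) (l 11)))) (y (x (l 11) (l 11)) (x (y (l 11) (l 11)) (z (l 25) (x (l 25) (l 25)))))) (y (y (x (x (l 3) (l 3)) (x (l 3) (l 20))) (x (x (l 4) (l 4)) (l 27))) (x (x (z (l 27) (l 27)) (l 27)) (l 27)))) (x (x (y (x (y (l 10) (x (l 10) (l 10))) (y (x (l 10) (l 10)) (x (l 10) (l 10)))) (x (y (x (l 10) (y (l 10) (l 12))) (x (l 1) (z (l 21) (l 21)))) (y (x (z (l 21) (l 21)) (l 24)) (l 26)))) (y (y (x (z (l 26) (l 26)) (l 26)) (x (z (l 26) (l 26)) (l 26))) (y (x (l 26) (l 26)) (x (l 26) (l 26))))) (y (x (x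 (l 26) (l 26)) (l 26)) (x (l 26) (l 26))))) (y (y (x (y (x (l 26) (l 26)) (x (l 26) (l 26))) (y (x (l 26) (l 26)) (x (l 26) (l 26)))) (x (y (x (l 26) (l 26)) (x (l 26) (l 26))) (y (x (l 26) (l 26)) (l 0)))) (x (y (x (l 19) (l 19)) (l 0)) (l 0))))))

theorem zc3 : check F3 zt3 ⟨0, 1011551797065, 395824185999, 337187230890, 901598435264, 43982664134⟩ = true := by
  decide +kernel

theorem zone3 {x δ r M : ℝ} (hx0 : 0 ≤ x) (hx1 : x ≤ 92 / 100) (hδ0 : 36 / 100 ≤ δ)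
    (hδ1 : δ ≤ 2 / 3) (hr0 : 82/100 ≤ r) (hr1 : r ≤ 86/100) (h1 : x + (1 - x ^ 2) * δ < 1)
    (h2 : (1 - x ^ 2) * δ ≤ 1 / 2)
    (hC1 : ∀ q, 0 < q → q < 1 →
      (2 * LL q + 4 * q / (1 - q ^ 2) - Tan.mu ((1 + q) / 2) ((1 - q) / 2) / 2 * LL q) *
        ((1 - x ^ 2) * δ) -
      Tan.mu ((1 + q) / 2) ((1 - q) / 2) * ((1 - x ^ 2) * (log 2 - Phi r)) ≤ M) :
    (1 - x ^ 2) * wf r ≤ PsiT (3 / 4) (hb x ((1 - x ^ 2) * δ) - (1 - x ^ 2) * (log 2 - Phi r)) + M := by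
  have hm : 0 < 1 - x ^ 2 := by nlinarith
  have hx11 : x < 1 := by linarith
  have hr00 : 0 < r := by linarith
  have hr11 : r < 1 := by linarith
  have hδ : 0 < (1 - x ^ 2) * δ := mul_pos hm (by linarith)
  have hH : 0 ≤ (1 - x ^ 2) * (log 2 - Phi r) := (mul_pos hm (by linarith [(Phi_mem hr00 hr11).2])).le
  have hbx : inBx ⟨0, 1011551797065, 395824185999, 337187230890, 901598435264, 43982664134⟩ x δ r :=
    ⟨inI_of hx0 hx1 (by norm_num) (by norm_num), inI_of hδ0 hδ1 (by norm_num) (by norm_num),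
      inI_of hr0 hr1 (by norm_num) (by norm_num)⟩
  obtain ⟨e, he, hv⟩ := check_sound _ _ _ zc3 _ _ _ hbx
  have hg : ∀ e ∈ F3, Good x δ r M e := by
    unfold F3
    simp only [List.forall_mem_cons]
    refine ⟨good_out1 hx11 h1, good_out2 h2, good_full hx0 hδ h1 hr00 hr11 S0 (Q30 hδ.le hH hC1),
      good_full hx0 hδ h1 hr00 hr11 S0 (Q60 hδ.le hH hC1),
      good_full hx0 hδ h1 hr00 hr11 S0 (Q70 hδ.le hH hC1),
      good_full hx0 hδ h1 hr00 hr11 S0 (Q80 hδ.le hH hC1),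
      good_full hx0 hδ h1 hr00 hr11 S20 (Q70 hδ.le hH hC1),
      good_full hx0 hδ h1 hr00 hr11 S20 (Q80 hδ.le hH hC1),
      good_full hx0 hδ h1 hr00 hr11 S35 (Q60 hδ.le hH hC1),
      good_full hx0 hδ h1 hr00 hr11 S35 (Q70 hδ.le hH hC1),
      good_full hx0 hδ h1 hr00 hr11 S35 (Q80 hδ.le hH hC1),
      good_full hx0 hδ h1 hr00 hr11 S50 (Q70 hδ.le hH hC1),
      good_full hx0 hδ h1 hr00 hr11 S50 (Q80 hδ.le hH hC1),
      good_full hx0 hδ h1 hr00 hr11 S60 (Q60 hδ.le hH hC1),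
      good_full hx0 hδ h1 hr00 hr11 S60 (Q70 hδ.le hH hC1),
      good_full hx0 hδ h1 hr00 hr11 S70 (Q60 hδ.le hH hC1),
      good_full hx0 hδ h1 hr00 hr11 S70 (Q70 hδ.le hH hC1),
      good_full hx0 hδ h1 hr00 hr11 S75 (Q60 hδ.le hH hC1),
      good_cut hx0 hδ h1 hr00 hr11 S0 (Q30 hδ.le hH hC1),
      good_cut hx0 hδ h1 hr00 hr11 S0 (Q60 hδ.le hH hC1),
      good_cut hx0 hδ h1 hr00 hr11 S0 (Q70 hδ.le hH hC1),
      good_cut hx0 hδ h1 hr00 hr11 S0 (Q80 hδ.le hH hC1),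
      good_cut hx0 hδ h1 hr00 hr11 S35 (Q60 hδ.le hH hC1),
      good_cut hx0 hδ h1 hr00 hr11 S35 (Q70 hδ.le hH hC1),
      good_cut hx0 hδ h1 hr00 hr11 S35 (Q80 hδ.le hH hC1),
      good_cut hx0 hδ h1 hr00 hr11 S50 (Q70 hδ.le hH hC1),
      good_cut hx0 hδ h1 hr00 hr11 S50 (Q80 hδ.le hH hC1),
      good_cut hx0 hδ h1 hr00 hr11 S60 (Q70 hδ.le hH hC1), ?_⟩
    intro e he
    simp at he
  exact hg e he hv

def F4 : List Ex := [out1, out2, Ep e4 8 1 0 1 482052 100000 245556 100000, Ep e4 8 1 0 1 679452 100000 590638 100000, Ep e4 811050 100000 113 100000 679452 100000 590638 100000, Ep e4 836576 100000 1180 100000 679452 100000 590638 100000, Ep e4 885460 100000 5968 100000 572275 100000 373186 100000, Ep e4 885460 100000 5968 100000 679452 100000 590638 100000, Ep e4 941010 100000 15020 100000 679452 100000 590638 100000, Ep e4 1033021 100000 36525 100000 572275 100000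 373186 100000, Ep e4 1033021 100000 36525 100000 679452 100000 590638 100000, Ep e3 8 1 0 1 679452 100000 590638 100000, Ep e3 811050 100000 113 100000 679452 100000 590638 100000, Ep e3 836576 100000 1180 100000 679452 100000 590638 100000, Ep e3 885460 100000 5968 100000 679452 100000 590638 100000, Ep e3 941010 100000 15020 100000 679452 100000 590638 100000]

def zt4 : Tr :=
  (x (y (x (y (y (x (y (y (x (z (l 9) (l 9)) (z (l 9) (l 9))) (x (z (l 9) (l 9)) (z (l 9) (l 9)))) (y (x (y (z (l 9) (l 9)) (z (l 9) (l 9))) (y (z (l 9) (l 9)) (z (l 9) (l 9)))) (x (y (y (z (l 9) (l 9)) (z (l 9) (l 9))) (y (z (l 9) (l 9)) (x (l 9) (l 9)))) (y (z (l 9) (l 9)) (z (l 9) (l 9)))))) (y (x (z (l 9) (l 9)) (z (l 9) (l 9))) (x (y (z (l 9) (l 9)) (z (l 9) (l 9))) (z (l 9) (l 9))))) (x (y (y (x (y (y (x (l 9) (l 9)) (x (l 9) (l 9))) (y (x (l 9) (l 9)) (x (l 9) (l 9)))) (y (x (l 9) (l 9))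 (x (l 9) (l 9)))) (x (y (y (x (l 9) (l 9)) (x (l 9) (l 9))) (y (x (l 9) (l 9)) (x (l 9) (l 9)))) (y (x (l 9) (l 9)) (x (l 9) (l 9))))) (y (x (y (y (x (l 9) (l 9)) (x (l 9) (l 9))) (y (x (l 9) (l 9)) (x (l 9) (l 9)))) (y (x (l 9) (l 9)) (x (l 9) (l 9)))) (x (y (y (x (l 9) (l 9)) (x (l 9) (l 9))) (y (x (l 9) (l 9)) (x (l 9) (l 9)))) (y (x (l 9) (l 9)) (x (l 9) (l 9)))))) (y (x (y (x (l 9) (l 9)) (x (l 9) (l 9))) (y (z (l 9) (l 9)) (z (l 9) (l 9)))) (x (y (x (l 9) (l 9)) (x (l 9) (l 9))) (y (z (l 9) (l 9)) (x (l 9) (l 9))))))) (y (x (y (y (x (y (y (x (l 9) (l 9)) (x (l 9) (l 9))) (y (x (l 9) (l 9)) (x (l 9) (l 9)))) (y (x (l 9) (l 9)) (x (l 9) (l 9)))) (x (l 1) (y (x (l 8) (l 8)) (l 1)))) (l 1)) (y (x (y (x (l 8) (l 8)) (x (l 8) (l 8))) (y (x (l 8) (l 8)) (x (l 8) (l 8)))) (x (y (x (l 8) (l 8)) (l 1)) (y (x (l 8) (l 8)) (x (l 8) (l 8)))))) (x (l 1) (y (x (l 1) (y (x (l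 1) (l 8)) (l 1))) (l 1))))) (y (x (y (x (z (l 9) (l 10)) (z (l 10) (l 10))) (x (y (z (l 10) (l 10)) (z (l 10) (l 10))) (y (z (l 10) (l 10)) (z (l 10) (l 10))))) (y (x (z (l 10) (l 10)) (x (l 10) (l 10))) (x (x (l 10) (l 10)) (x (l 10) (l 10))))) (x (y (x (y (x (l 10) (l 10)) (x (l 10) (l 10))) (y (z (l 10) (l 10)) (z (l 10) (l 10)))) (x (y (x (l 10) (l 10)) (x (l 10) (l 10))) (y (z (l 10) (l 10)) (x (l 10) (l 10))))) (x (y (y (z (l 10) (l 10)) (z (l 10) (l 10))) (y (x (l 10) (l 10)) (x (l 10) (l 10)))) (y (x (l 10) (l 10)) (x (l 10) (l 10))))))) (x (y (l 1) (l 1)) (x (y (y (x (l 1) (y (x (l 7) (l 7)) (x (l 7) (l 7)))) (l 1)) (l 1)) (y (x (y (x (l 7) (l 7)) (x (l 7) (l 7))) (y (x (l 7) (l 7)) (x (l 7) (l 7)))) (x (l 1) (y (x (y (l 7) (l 1)) (y (l 7) (x (l 7) (l 7)))) (l 1))))))) (y (x (x (y (x (y (x (l 6) (l 6)) (x (l 6) (l 6))) (y (x (l 6) (l 6)) (x (l 6) (l 6)))) (x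 (y (x (l 6) (l 6)) (x (l 6) (l 6))) (y (x (l 6) (l 6)) (x (l 6) (l 6))))) (x (y (y (x (l 6) (l 6)) (x (l 6) (l 6))) (x (y (l 6) (l 5)) (z (y (l 5) (l 7)) (y (l 7) (l 7))))) (y (x (l 7) (l 7)) (y (x (l 7) (l 7)) (x (l 14) (l 14)))))) (y (x (y (x (x (l 2) (l 2)) (x (l 2) (l 5))) (x (x (l 5) (l 5)) (x (l 11) (l 11)))) (y (y (x (l 13) (l 13)) (x (l 13) (l 13))) (x (l 13) (l 13)))) (x (y (x (x (l 13) (l 13)) (l 13)) (x (l 14) (l 14))) (y (x (l 14) (l 14)) (x (l 14) (l 14)))))) (x (y (x (x (y (x (l 7) (l 7)) (x (y (l 7) (l 7)) (y (l 7) (x (l 7) (l 7))))) (y (x (l 7) (z (l 14) (l 15))) (x (z (l 15) (l 15)) (z (l 15) (l 15))))) (y (x (y (x (l 7) (l 14)) (x (l 14) (l 14))) (x (l 14) (l 14))) (x (x (l 14) (l 14)) (l 14)))) (x (x (y (x (y (x (l 3) (l 3)) (x (l 4) (l 5))) (y (x (l 5) (l 5)) (x (l 7) (l 14)))) (x (y (x (y (l 4) (l 1)) (y (l 5) (l 15))) (x (l 1) (l 15))) (z (l 15)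 (l 15)))) (y (y (x (z (l 15) (l 15)) (l 15)) (x (l 15) (l 15))) (y (x (l 15) (l 15)) (x (l 15) (l 15))))) (y (x (l 15) (l 15)) (l 0)))) (y (x (y (x (l 12) (l 12)) (x (l 12) (l 12))) (y (x (l 12) (l 12)) (l 0))) (l 0)))))

theorem zc4 : check F4 zt4 ⟨0, 1011551797065, 483785116221, 249226300668, 945578900375, 43982664135⟩ = true := by
  decide +kernel

theorem zone4 {x δ r M : ℝ} (hx0 : 0 ≤ x) (hx1 : x ≤ 92 / 100) (hδ0 : 44 / 100 ≤ δ)
    (hδ1 : δ ≤ 2 / 3) (hr0 : 86/100 ≤ r) (hr1 : r ≤ 90/100) (h1 : x + (1 - x ^ 2) * δ < 1)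
    (h2 : (1 - x ^ 2) * δ ≤ 1 / 2)
    (hC1 : ∀ q, 0 < q → q < 1 →
      (2 * LL q + 4 * q / (1 - q ^ 2) - Tan.mu ((1 + q) / 2) ((1 - q) / 2) / 2 * LL q) *
        ((1 - x ^ 2) * δ) -
      Tan.mu ((1 + q) / 2) ((1 - q) / 2) * ((1 - x ^ 2) * (log 2 - Phi r)) ≤ M) :
    (1 - x ^ 2) * wf r ≤ PsiT (3 / 4) (hb x ((1 - x ^ 2) * δ) - (1 - x ^ 2) * (log 2 - Phi r)) + M := by
  have hm : 0 < 1 - x ^ 2 := by nlinarith
  have hx11 : x < 1 := by linarith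
  have hr00 : 0 < r := by linarith
  have hr11 : r < 1 := by linarith
  have hδ : 0 < (1 - x ^ 2) * δ := mul_pos hm (by linarith)
  have hH : 0 ≤ (1 - x ^ 2) * (log 2 - Phi r) := (mul_pos hm (by linarith [(Phi_mem hr00 hr11).2])).le
  have hbx : inBx ⟨0, 1011551797065, 483785116221, 249226300668, 945578900375, 43982664135⟩ x δ r :=
    ⟨inI_of hx0 hx1 (by norm_num) (by norm_num), inI_of hδ0 hδ1 (by norm_num) (by norm_num),
      inI_of hr0 hr1 (by norm_num) (by norm_num)⟩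
  obtain ⟨e, he, hv⟩ := check_sound _ _ _ zc4 _ _ _ hbx
  have hg : ∀ e ∈ F4, Good x δ r M e := by
    unfold F4
    simp only [List.forall_mem_cons]
    refine ⟨good_out1 hx11 h1, good_out2 h2, good_full hx0 hδ h1 hr00 hr11 S0 (Q60 hδ.le hH hC1),
      good_full hx0 hδ h1 hr00 hr11 S0 (Q80 hδ.le hH hC1),
      good_full hx0 hδ h1 hr00 hr11 S20 (Q80 hδ.le hH hC1),
      good_full hx0 hδ h1 hr00 hr11 S35 (Q80 hδ.le hH hC1),
      good_full hx0 hδ h1 hr00 hr11 S50 (Q70 hδ.le hH hC1),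
      good_full hx0 hδ h1 hr00 hr11 S50 (Q80 hδ.le hH hC1),
      good_full hx0 hδ h1 hr00 hr11 S60 (Q80 hδ.le hH hC1),
      good_full hx0 hδ h1 hr00 hr11 S70 (Q70 hδ.le hH hC1),
      good_full hx0 hδ h1 hr00 hr11 S70 (Q80 hδ.le hH hC1),
      good_cut hx0 hδ h1 hr00 hr11 S0 (Q80 hδ.le hH hC1),
      good_cut hx0 hδ h1 hr00 hr11 S20 (Q80 hδ.le hH hC1),
      good_cut hx0 hδ h1 hr00 hr11 S35 (Q80 hδ.le hH hC1),
      good_cut hx0 hδ h1 hr00 hr11 S50 (Q80 hδ.le hH hC1),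
      good_cut hx0 hδ h1 hr00 hr11 S60 (Q80 hδ.le hH hC1), ?_⟩
    intro e he
    simp at he
  exact hg e he hv

end Vale.Agent.CK.G2m
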