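import Vale.Agent.CK.Tensor

/-!
# P322: the lower bound `Mc` for `E W`
-/

namespace Vale.Agent.CK

open Finset Real

variable {n : ℕ}

theorem LL_hasDerivAt {s : ℝ} (h0 : -1 < s) (h1 : s < 1) :
    HasDerivAt LL (2 / (1 - s ^ 2)) s := by
  unfold LL
  have e1 : HasDerivAt (fun s : ℝ => 1 + s) 1 s := (hasDerivAt_id s).const_add 1
  have e2 : HasDerivAt (fun s : ℝ => 1 - s) (-1) s := (hasDerivAt_id s).const_sub 1
  have e3 := (e1.log (by linarith)).sub (e2.log (by linarith))
  have h2 : 1 + s ≠ 0 := by linarith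
  have h3 : 1 - s ≠ 0 := by linarith
  convert! e3 using 1
  have h4 : 1 - s ^ 2 ≠ 0 := by
    have : 1 - s ^ 2 = (1 + s) * (1 - s) := by ring
    rw [this]
    exact mul_ne_zero h2 h3
  field_simp
  ring

theorem LL_neg (s : ℝ) : LL (-s) = - LL s := by
  unfold LL
  rw [sub_neg_eq_add, ← sub_eq_add_neg]
  ring

theorem LL_zero : LL 0 = 0 := by
  unfold LL
  simp

/-- `w(r) = 2 r L(r)` -/
noncomputable def ww (r : ℝ) : ℝ := 2 * r * LL r

theorem ww_hasDerivAt {s : ℝ} (h0 : -1 < s) (h1 : s < 1) :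
    HasDerivAt ww (2 * LL s + 4 * s / (1 - s ^ 2)) s := by
  unfold ww
  have e1 : HasDerivAt (fun s : ℝ => 2 * s) 2 s := by
    simpa using (hasDerivAt_id s).const_mul 2
  have e2 := e1.mul (LL_hasDerivAt h0 h1)
  convert! e2 using 1
  ring

theorem one_sub_sq_pos {s : ℝ} (h0 : -1 < s) (h1 : s < 1) : 0 < 1 - s ^ 2 := by nlinarith

theorem ww_deriv_hasDerivAt {s : ℝ} (h0 : -1 < s) (h1 : s < 1) :
    HasDerivAt (fun s => 2 * LL s + 4 * s / (1 - s ^ 2)) (8 / (1 - s ^ 2) ^ 2) s := by
  have e1 := (LL_hasDerivAt h0 h1).const_mul 2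
  have e2 : HasDerivAt (fun s : ℝ => 4 * s) 4 s := by
    simpa using (hasDerivAt_id s).const_mul 4
  have e3 : HasDerivAt (fun s : ℝ => 1 - s ^ 2) (-(2 * s)) s := by
    simpa using (hasDerivAt_pow 2 s).const_sub 1
  have h := (one_sub_sq_pos h0 h1)
  have e4 := e1.add (e2.div e3 h.ne')
  convert! e4 using 1
  field_simp
  ring

/-- a function on `(-1,1)` with nonnegative second derivative is convex -/
theorem convexOn_Ioo {f f' f'' : ℝ → ℝ} (h1 : ∀ s, -1 < s → s < 1 → HasDerivAt f (f' s) s)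
    (h2 : ∀ s, -1 < s → s < 1 → HasDerivAt f' (f'' s) s) (h3 : ∀ s, -1 < s → s < 1 → 0 ≤ f'' s) :
    ConvexOn ℝ (Set.Ioo (-1) 1) f := by
  have hmono : MonotoneOn f' (Set.Ioo (-1) 1) := by
    refine monotoneOn_of_deriv_nonneg (convex_Ioo _ _) ?_ ?_ ?_
    · intro x hx
      exact (h2 x hx.1 hx.2).continuousAt.continuousWithinAt
    · intro x hx
      rw [interior_Ioo] at hx
      exact (h2 x hx.1 hx.2).differentiableAt.differentiableWithinAt
    · intro x hx
      rw [interior_Ioo] at hx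
      rw [(h2 x hx.1 hx.2).deriv]
      exact h3 x hx.1 hx.2
  refine MonotoneOn.convexOn_of_deriv (convex_Ioo _ _) ?_ ?_ ?_
  · intro x hx
    exact (h1 x hx.1 hx.2).continuousAt.continuousWithinAt
  · intro x hx
    rw [interior_Ioo] at hx
    exact (h1 x hx.1 hx.2).differentiableAt.differentiableWithinAt
  · intro x hx y hy hxy
    rw [interior_Ioo] at hx hy
    rw [(h1 x hx.1 hx.2).deriv, (h1 y hy.1 hy.2).deriv]
    exact hmono hx hy hxy

theorem convex_ww_Phi : ConvexOn ℝ (Set.Ioo (-1) 1) (fun r => ww r - 8 * Phi r) := by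
  refine convexOn_Ioo (f' := fun s => 2 * LL s + 4 * s / (1 - s ^ 2) - 8 * (LL s / 2))
    (f'' := fun s => 8 / (1 - s ^ 2) ^ 2 - 8 * (2 / (1 - s ^ 2) / 2)) ?_ ?_ ?_
  · intro s h0 h1
    exact (ww_hasDerivAt h0 h1).sub ((Phi_hasDerivAt h0 h1).const_mul 8)
  · intro s h0 h1
    exact (ww_deriv_hasDerivAt h0 h1).sub (((LL_hasDerivAt h0 h1).div_const 2).const_mul 8)
  · intro s h0 h1
    have h := one_sub_sq_pos h0 h1
    have e : 8 / (1 - s ^ 2) ^ 2 - 8 * (2 / (1 - s ^ 2) / 2) = 8 * s ^ 2 / (1 - s ^ 2) ^ 2 := by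
      field_simp
      ring
    rw [e]
    positivity

theorem convex_ww_sq : ConvexOn ℝ (Set.Ioo (-1) 1) (fun r => ww r - 4 * r ^ 2) := by
  refine convexOn_Ioo (f' := fun s => 2 * LL s + 4 * s / (1 - s ^ 2) - 4 * (2 * s))
    (f'' := fun s => 8 / (1 - s ^ 2) ^ 2 - 4 * (2 * 1)) ?_ ?_ ?_
  · intro s h0 h1
    have e : HasDerivAt (fun r : ℝ => r ^ 2) (2 * s) s := by simpa using hasDerivAt_pow 2 s
    exact (ww_hasDerivAt h0 h1).sub (e.const_mul 4)
  · intro s h0 h1
    exact (ww_deriv_hasDerivAt h0 h1).sub (((hasDerivAt_id s).const_mul 2).const_mul 4)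
  · intro s h0 h1
    have h := one_sub_sq_pos h0 h1
    have h2 : 1 - s ^ 2 ≤ 1 := by nlinarith
    rw [sub_nonneg, le_div_iff₀ (by positivity)]
    have h3 : (1 - s ^ 2) ^ 2 ≤ 1 := by nlinarith
    linarith

/-- Jensen's inequality for the perspective of a convex function. -/
theorem persp_jensen {φ : ℝ → ℝ} (hφ : ConvexOn ℝ (Set.Ioo (-1) 1) φ) (s D : Cube n → ℝ)
    (hs : ∀ x, 0 < s x) (hD : ∀ x, |D x| < 2 * s x) :
    av s * φ (av D / (2 * av s)) ≤ av (fun x => s x * φ (D x / (2 * s x))) := by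
  have hS : 0 < ∑ x, s x := Finset.sum_pos (fun x _ => hs x) Finset.univ_nonempty
  have h1 := hφ.map_sum_le (t := Finset.univ) (w := fun x => s x / ∑ y, s y)
    (p := fun x => D x / (2 * s x)) (fun x _ => by have := hs x; positivity)
    (by rw [← Finset.sum_div, div_self hS.ne']) (by
      intro x _
      have := hs x
      have h := abs_lt.1 (hD x)
      constructor
      · rw [lt_div_iff₀ (by positivity)]; linarith [h.1]
      · rw [div_lt_one (by positivity)]; exact h.2)
  simp only [smul_eq_mul] at h1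
  have e1 : ∑ x, s x / (∑ y, s y) * (D x / (2 * s x)) = av D / (2 * av s) := by
    unfold av
    have : ∀ x, s x / (∑ y, s y) * (D x / (2 * s x)) = D x / (2 * ∑ y, s y) := by
      intro x
      have := hs x
      field_simp
    simp only [this]
    rw [← Finset.sum_div]
    field_simp
  have e2 : ∑ x, s x / (∑ y, s y) * φ (D x / (2 * s x)) =
      (∑ x, s x * φ (D x / (2 * s x))) / ∑ y, s y := by
    rw [Finset.sum_div]
    refine Finset.sum_congr rfl fun x _ => ?_
    ring
  rw [e1, e2, le_div_iff₀ hS] at h1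
  unfold av
  unfold av at h1
  rw [div_mul_eq_mul_div]
  gcongr
  linarith

theorem abs_sub_lt_add {u v : ℝ} (hu : 0 < u) (hv : 0 < v) : |u - v| < 2 * ((u + v) / 2) := by
  rw [abs_lt]
  constructor <;> linarith

theorem WW_eq {u v : ℝ} (hu : 0 < u ∧ u < 1) (hv : 0 < v ∧ v < 1) :
    WW u v = (u + v) / 2 * ww ((u - v) / (2 * ((u + v) / 2))) +
      (1 - (u + v) / 2) * ww ((u - v) / (2 * (1 - (u + v) / 2))) := by
  have h1 : 0 < (u + v) := by linarith
  have h2 : 0 < (2 - u - v) := by linarith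
  have e1 : LL ((u - v) / (2 * ((u + v) / 2))) = log u - log v := by
    unfold LL
    have a1 : 1 + (u - v) / (2 * ((u + v) / 2)) = 2 * u / (u + v) := by
      field_simp; ring
    have a2 : 1 - (u - v) / (2 * ((u + v) / 2)) = 2 * v / (u + v) := by
      field_simp; ring
    rw [a1, a2, log_div (by linarith) h1.ne', log_div (by linarith) h1.ne',
      log_mul (by norm_num) hu.1.ne', log_mul (by norm_num) hv.1.ne']
    ring
  have e2 : LL ((u - v) / (2 * (1 - (u + v) / 2))) = log (1 - v) - log (1 - u) := by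
    unfold LL
    have hne : 2 * (1 - (u + v) / 2) ≠ 0 := by linarith
    have a1 : 1 + (u - v) / (2 * (1 - (u + v) / 2)) = 2 * (1 - v) / (2 - u - v) := by
      have : 2 * (1 - (u + v) / 2) = 2 - u - v := by ring
      rw [this]
      field_simp; ring
    have a2 : 1 - (u - v) / (2 * (1 - (u + v) / 2)) = 2 * (1 - u) / (2 - u - v) := by
      have : 2 * (1 - (u + v) / 2) = 2 - u - v := by ring
      rw [this]
      field_simp; ring
    rw [a1, a2, log_div (by linarith) h2.ne', log_div (by linarith) h2.ne',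
      log_mul (by norm_num) (by linarith), log_mul (by norm_num) (by linarith)]
    ring
  unfold ww
  rw [e1, e2]
  unfold WW lgt
  have hne : 1 - (u + v) / 2 ≠ 0 := by linarith
  have hne2 : (u + v) / 2 ≠ 0 := by linarith
  generalize (u + v) / 2 = s at *
  field_simp
  ring

theorem JJ_eq {u v : ℝ} (hu : 0 < u ∧ u < 1) (hv : 0 < v ∧ v < 1) :
    binEntropy ((u + v) / 2) - (binEntropy u + binEntropy v) / 2 =
      (u + v) / 2 * Phi ((u - v) / (2 * ((u + v) / 2))) +
      (1 - (u + v) / 2) * Phi ((u - v) / (2 * (1 - (u + v) / 2))) := by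
  have h1 : 0 < (u + v) := by linarith
  have h2 : 0 < (2 - u - v) := by linarith
  have hs : (u + v) / 2 ≠ 0 := by linarith
  have hs' : 1 - (u + v) / 2 ≠ 0 := by linarith
  have a1 : (1 + (u - v) / (2 * ((u + v) / 2))) / 2 = u / (u + v) := by
    field_simp; ring
  have a3 : 1 - u / (u + v) = v / (u + v) := by field_simp; ring
  have a2 : (1 + (u - v) / (2 * (1 - (u + v) / 2))) / 2 = (1 - v) / (2 - u - v) := by
    have : 2 * (1 - (u + v) / 2) = 2 - u - v := by ring
    rw [this]
    field_simp; ring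
  have a4 : 1 - (1 - v) / (2 - u - v) = (1 - u) / (2 - u - v) := by field_simp; ring
  unfold Phi
  rw [a1, a2]
  simp only [binEntropy, log_inv]
  rw [a3, a4]
  have a5 : 1 - (u + v) / 2 = (2 - u - v) / 2 := by ring
  rw [a5, log_div hu.1.ne' h1.ne', log_div hv.1.ne' h1.ne', log_div (by linarith) h2.ne',
    log_div (by linarith) h2.ne', log_div h1.ne' (by norm_num), log_div h2.ne' (by norm_num)]
  field_simp
  ring


/-- chi-square bound -/
theorem entropy_chi {a s : ℝ} (ha : 0 < a ∧ a < 1) (hs : 0 < s ∧ s < 1) :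
    binEntropy a - binEntropy s ≤ (s - a) ^ 2 / (a * (1 - a)) + (log (1 - a) - log a) * (a - s) := by
  simp only [binEntropy, log_inv]
  have h1 : log (s / a) ≤ s / a - 1 := log_le_sub_one_of_pos (div_pos hs.1 ha.1)
  have h2 : log ((1 - s) / (1 - a)) ≤ (1 - s) / (1 - a) - 1 :=
    log_le_sub_one_of_pos (div_pos (by linarith) (by linarith))
  rw [log_div hs.1.ne' ha.1.ne'] at h1
  rw [log_div (by linarith) (by linarith)] at h2
  have h3 := mul_le_mul_of_nonneg_left h1 hs.1.le
  have h4 := mul_le_mul_of_nonneg_left h2 (by linarith : (0 : ℝ) ≤ 1 - s)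
  have h5 : s * (s / a - 1) + (1 - s) * ((1 - s) / (1 - a) - 1) = (s - a) ^ 2 / (a * (1 - a)) := by
    have : a ≠ 0 := ha.1.ne'
    have : 1 - a ≠ 0 := by linarith
    field_simp
    ring
  rw [← h5]
  nlinarith

theorem Mc_arith (T T0 Ib Is A a d : ℝ) (hA : 0 < A) (hAdef : A = a * (1 - a))
    (hB : T0 + d ^ 2 * Is / A ≤ T) (hC : T0 + 8 * (Ib - Is) ≤ T) :
    T0 + 8 * d ^ 2 * Ib / (2 * (4 * a * (1 - a)) + d ^ 2) ≤ T := by
  have e : 4 * a * (1 - a) = 4 * A := by rw [hAdef]; ring
  rw [e]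
  have hden : 0 < 2 * (4 * A) + d ^ 2 := by positivity
  have hfin : 8 * d ^ 2 * Ib / (2 * (4 * A) + d ^ 2) ≤ T - T0 := by
    rw [div_le_iff₀ hden]
    have h1 : d ^ 2 * (8 * (Ib - Is)) ≤ d ^ 2 * (T - T0) :=
      mul_le_mul_of_nonneg_left (by linarith) (sq_nonneg d)
    have h2 : d ^ 2 * Is ≤ A * (T - T0) := by
      have : d ^ 2 * Is / A ≤ T - T0 := by linarith
      rw [div_le_iff₀ hA] at this
      linarith
    linarith
  linarith

theorem Mc_arith2 (T T0 Is A q d : ℝ) (hA : 0 < A) (hq0 : 0 < q) (hqA : q ≤ A)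
    (chi : Is ≤ (A - q) / A) (h : T0 - d ^ 2 / A + d ^ 2 / q ≤ T) : T0 + d ^ 2 * Is / A ≤ T := by
  have h3 : d ^ 2 * Is / A ≤ d ^ 2 * ((A - q) / A) / A := by gcongr
  have h5 : 1 / A + ((A - q) / A) / A ≤ 1 / q := by
    rw [div_div, div_add_div _ _ hA.ne' (by positivity), div_le_div_iff₀ (by positivity) hq0]
    nlinarith [mul_nonneg hA.le (sq_nonneg (A - q))]
  have h6 := mul_le_mul_of_nonneg_left h5 (sq_nonneg d)
  have e1 : d ^ 2 * (1 / A + (A - q) / A / A) = d ^ 2 / A + d ^ 2 * ((A - q) / A) / A := by ring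
  have e2 : d ^ 2 * (1 / q) = d ^ 2 / q := by ring
  rw [e1, e2] at h6
  linarith

/-- The lower bound `Mc`. -/
theorem Mc (U V : Cube n → ℝ) (hU : ∀ x, 0 < U x ∧ U x < 1) (hV : ∀ x, 0 < V x ∧ V x < 1) :
    WW (av U) (av V) + 8 * (av U - av V) ^ 2 *
      ((binEntropy (av U) + binEntropy (av V)) / 2 -
        (av (fun x => binEntropy (U x)) + av (fun x => binEntropy (V x))) / 2) /
      (2 * (4 * ((av U + av V) / 2) * (1 - (av U + av V) / 2)) + (av U - av V) ^ 2) ≤
    av (fun x => WW (U x) (V x)) := by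
  set s : Cube n → ℝ := fun x => (U x + V x) / 2 with hsdef
  set D : Cube n → ℝ := fun x => U x - V x with hDdef
  have hs : ∀ x, 0 < s x ∧ s x < 1 := fun x =>
    ⟨by have := (hU x).1; have := (hV x).1; simp only [hsdef]; linarith,
     by have := (hU x).2; have := (hV x).2; simp only [hsdef]; linarith⟩
  have hsD : ∀ x, |D x| < 2 * s x := fun x => abs_sub_lt_add (hU x).1 (hV x).1
  have hsD' : ∀ x, |D x| < 2 * (1 - s x) := fun x => by
    have := abs_sub_lt_add (sub_pos.2 (hV x).2) (sub_pos.2 (hU x).2)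
    have e : 1 - V x - (1 - U x) = D x := by simp only [hDdef]; ring
    have e2 : 2 * ((1 - V x + (1 - U x)) / 2) = 2 * (1 - s x) := by simp only [hsdef]; ring
    rw [e, e2] at this
    exact this
  have hU' : 0 < av U ∧ av U < 1 := by
    refine ⟨av_pos fun x => (hU x).1, ?_⟩
    have := av_pos (f := fun x => 1 - U x) fun x => sub_pos.2 (hU x).2
    rw [av_sub, av_const] at this
    linarith
  have hV' : 0 < av V ∧ av V < 1 := by
    refine ⟨av_pos fun x => (hV x).1, ?_⟩
    have := av_pos (f := fun x => 1 - V x) fun x => sub_pos.2 (hV x).2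
    rw [av_sub, av_const] at this
    linarith
  have hsav : av s = (av U + av V) / 2 := by
    have : s = fun x => (1 / 2) * (U x + V x) := by funext x; simp only [hsdef]; ring
    rw [this, av_mul_left, av_add]
    ring
  have hDav : av D = av U - av V := av_sub U V
  have hs1av : av (fun x => 1 - s x) = 1 - (av U + av V) / 2 := by
    rw [av_sub, av_const]
    have : av (fun x => s x) = av s := rfl
    rw [this, hsav]
  set a := (av U + av V) / 2 with ha
  set d := av U - av V with hd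
  have ha0 : 0 < a := by rw [ha]; linarith [hU'.1, hV'.1]
  have ha1 : a < 1 := by rw [ha]; linarith [hU'.2, hV'.2]
  -- general Jensen inequality
  have key : ∀ φ : ℝ → ℝ, ConvexOn ℝ (Set.Ioo (-1) 1) φ →
      a * φ (d / (2 * a)) + (1 - a) * φ (d / (2 * (1 - a))) ≤
      av (fun x => s x * φ (D x / (2 * s x)) + (1 - s x) * φ (D x / (2 * (1 - s x)))) := by
    intro φ hφ
    have h1 := persp_jensen hφ s D (fun x => (hs x).1) hsD
    have h2 := persp_jensen hφ (fun x => 1 - s x) D (fun x => sub_pos.2 (hs x).2) hsD'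
    rw [hsav, hDav] at h1
    rw [hs1av, hDav] at h2
    rw [av_add]
    linarith
  have hW0 : WW (av U) (av V) = a * ww (d / (2 * a)) + (1 - a) * ww (d / (2 * (1 - a))) := WW_eq hU' hV'
  have hJ0 : binEntropy a - (binEntropy (av U) + binEntropy (av V)) / 2 =
    a * Phi (d / (2 * a)) + (1 - a) * Phi (d / (2 * (1 - a))) := JJ_eq hU' hV'
  have hWx : ∀ x, WW (U x) (V x) = s x * ww (D x / (2 * s x)) + (1 - s x) * ww (D x / (2 * (1 - s x))) :=
    fun x => WW_eq (hU x) (hV x)
  have hJx : ∀ x, binEntropy (s x) - (binEntropy (U x) + binEntropy (V x)) / 2 =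
    s x * Phi (D x / (2 * s x)) + (1 - s x) * Phi (D x / (2 * (1 - s x))) :=
    fun x => JJ_eq (hU x) (hV x)
  set T := av (fun x => WW (U x) (V x)) with hT
  set T0 := WW (av U) (av V) with hT0
  set HU := av (fun x => binEntropy (U x)) with hHU
  set HV := av (fun x => binEntropy (V x)) with hHV
  set Hs := av (fun x => binEntropy (s x)) with hHs
  -- (J1)
  have J1 : T0 - 8 * (binEntropy a - (binEntropy (av U) + binEntropy (av V)) / 2) ≤
      T - 8 * (Hs - (HU + HV) / 2) := by
    have h := key _ convex_ww_Phi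
    have e : (fun x => s x * (ww (D x / (2 * s x)) - 8 * Phi (D x / (2 * s x))) +
        (1 - s x) * (ww (D x / (2 * (1 - s x))) - 8 * Phi (D x / (2 * (1 - s x))))) =
        fun x => WW (U x) (V x) - 8 * (binEntropy (s x) -
          (1 / 2) * (binEntropy (U x) + binEntropy (V x))) := by
      funext x
      have h2 := hJx x
      rw [hWx x]
      linarith
    rw [e, av_sub, av_mul_left, av_sub, av_mul_left, av_add] at h
    rw [hW0, hJ0]
    have e2 : T - 8 * (Hs - 1 / 2 * (HU + HV)) = T - 8 * (Hs - (HU + HV) / 2) := by ring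
    rw [← e2]
    linarith
  -- (J2)
  have hA : 0 < a * (1 - a) := mul_pos ha0 (by linarith)
  have J2 : T0 - d ^ 2 / (a * (1 - a)) ≤ T - av (fun x => D x ^ 2 / (s x * (1 - s x))) := by
    have h := key _ convex_ww_sq
    have e : (fun x => s x * (ww (D x / (2 * s x)) - 4 * (D x / (2 * s x)) ^ 2) +
        (1 - s x) * (ww (D x / (2 * (1 - s x))) - 4 * (D x / (2 * (1 - s x))) ^ 2)) =
        fun x => WW (U x) (V x) - D x ^ 2 / (s x * (1 - s x)) := by
      funext x
      rw [hWx x]
      have h1 := (hs x).1.ne'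
      have h2 : 1 - s x ≠ 0 := (sub_pos.2 (hs x).2).ne'
      field_simp
      ring
    rw [e, av_sub] at h
    rw [hW0]
    have h1 := ha0.ne'
    have h2 : 1 - a ≠ 0 := by linarith
    have e3 : a * (ww (d / (2 * a)) - 4 * (d / (2 * a)) ^ 2) +
      (1 - a) * (ww (d / (2 * (1 - a))) - 4 * (d / (2 * (1 - a))) ^ 2) =
      a * ww (d / (2 * a)) + (1 - a) * ww (d / (2 * (1 - a))) - d ^ 2 / (a * (1 - a)) := by
      field_simp
      ring
    rw [e3] at h
    exact h
  -- Cauchy-Schwarz
  set q := av (fun x => s x * (1 - s x)) with hq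
  have hq0 : 0 < q := av_pos fun x => mul_pos (hs x).1 (sub_pos.2 (hs x).2)
  have CS : d ^ 2 / q ≤ av (fun x => D x ^ 2 / (s x * (1 - s x))) := by
    have h := Finset.sq_sum_div_le_sum_sq_div (Finset.univ : Finset (Cube n)) D
      (g := fun x => s x * (1 - s x)) (fun x _ => mul_pos (hs x).1 (sub_pos.2 (hs x).2))
    have hq0' := hq0
    rw [hq] at hq0' ⊢
    rw [← hDav]
    unfold av at hq0' ⊢
    have h2 : (0 : ℝ) < 2 ^ n := by positivity
    have hs0 : 0 < ∑ x, s x * (1 - s x) := Finset.sum_pos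
      (fun x _ => mul_pos (hs x).1 (sub_pos.2 (hs x).2)) Finset.univ_nonempty
    have e : ((∑ x, D x) / 2 ^ n) ^ 2 / ((∑ x, s x * (1 - s x)) / 2 ^ n) =
        ((∑ x, D x) ^ 2 / ∑ x, s x * (1 - s x)) / 2 ^ n := by
      field_simp
    rw [e]
    gcongr
  -- chi-square
  have chi : binEntropy a - Hs ≤ (a * (1 - a) - q) / (a * (1 - a)) := by
    have h := av_mono fun x => entropy_chi ⟨ha0, ha1⟩ (hs x)
    rw [av_sub, av_const, av_add] at h
    have e1 : av (fun x => (log (1 - a) - log a) * (a - s x)) = 0 := by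
      rw [av_mul_left, av_sub, av_const]
      have : av (fun x => s x) = a := hsav
      rw [this]
      ring
    have e2 : av (fun x => (s x - a) ^ 2 / (a * (1 - a))) = (a * (1 - a) - q) / (a * (1 - a)) := by
      have : (fun x => (s x - a) ^ 2 / (a * (1 - a))) =
          fun x => (1 / (a * (1 - a))) * ((a ^ 2 + (1 - 2 * a) * s x) - s x * (1 - s x)) := by
        funext x
        ring
      rw [this, av_mul_left, av_sub, av_add, av_const, av_mul_left]
      have : av (fun x => s x) = a := hsav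
      rw [this]
      ring
    rw [e1, e2] at h
    linarith
  -- conclusion
  set Is := binEntropy a - Hs with hIs
  set A := a * (1 - a) with hAdef
  have hqA : q ≤ A := by
    have h : 0 ≤ av (fun x => (s x - a) ^ 2) := av_nonneg fun x => sq_nonneg _
    have : (fun x => (s x - a) ^ 2) = fun x => ((a ^ 2 + (1 - 2 * a) * s x) - s x * (1 - s x)) := by
        funext x
        ring
    rw [this, av_sub, av_add, av_const, av_mul_left] at h
    have : av (fun x => s x) = a := hsav
    rw [this] at h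
    rw [hAdef]
    linarith
  have hB : T0 + d ^ 2 * Is / A ≤ T := Mc_arith2 _ _ _ A q d hA hq0 hqA chi (by linarith)
  set Ib := (binEntropy (av U) + binEntropy (av V)) / 2 - (HU + HV) / 2 with hIb
  have hC : T0 + 8 * (Ib - Is) ≤ T := by
    rw [hIb, hIs]
    linarith
  exact Mc_arith T T0 Ib Is A a d hA hAdef hB hC

end Vale.Agent.CK
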