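import Vale.Agent.CK.Tensor

/-!
# P322: the function `Psi`, `Psi (Phi r) = 2 r L(r)`, and the perspective function `R`
-/

namespace Vale.Agent.CK

open Finset Real Set

/-- `w(r) = 2 r L(r)` -/
noncomputable def wf (r : ℝ) : ℝ := 2 * r * LL r

/-- `λ_r = Psi'(Phi r)` -/
noncomputable def lam (r : ℝ) : ℝ := 4 + 8 * (r / ((1 - r ^ 2) * LL r))

/-- `Psi`, extended by `0` to the left of `0` -/
noncomputable def Psi (y : ℝ) : ℝ := if 0 < y then wf (Kinv y) else 0

/-- `R(H) = Psi(log 2 - H)`; it vanishes for `H ≥ log 2` -/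
noncomputable def RR (H : ℝ) : ℝ := Psi (log 2 - H)

theorem LL_zero : LL 0 = 0 := by simp [LL]

theorem LL_hasDerivAt {r : ℝ} (h0 : -1 < r) (h1 : r < 1) :
    HasDerivAt LL (2 / (1 - r ^ 2)) r := by
  unfold LL
  have h2 : HasDerivAt (fun r : ℝ => log (1 + r)) (1 / (1 + r)) r :=
    ((hasDerivAt_id r).const_add 1).log (by simpa using (by linarith : (1 : ℝ) + r ≠ 0))
  have h3 : HasDerivAt (fun r : ℝ => log (1 - r)) (-1 / (1 - r)) r :=
    ((hasDerivAt_id r).const_sub 1).log (by simpa using (by linarith : (1 : ℝ) - r ≠ 0))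
  convert! h2.sub h3 using 1
  have e1 : (1 : ℝ) + r ≠ 0 := by linarith
  have e2 : (1 : ℝ) - r ≠ 0 := by linarith
  have e3 : (1 : ℝ) - r ^ 2 = (1 + r) * (1 - r) := by ring
  rw [e3]
  field_simp
  ring

theorem one_sub_sq_pos {r : ℝ} (h0 : -1 < r) (h1 : r < 1) : 0 < 1 - r ^ 2 := by nlinarith

/-- `L(r) ≥ 2 r` -/
theorem two_mul_le_LL {r : ℝ} (h0 : 0 ≤ r) (h1 : r < 1) : 2 * r ≤ LL r := by
  have hder : ∀ x ∈ Ico (0 : ℝ) 1, HasDerivAt (fun r => LL r - 2 * r) (2 / (1 - x ^ 2) - 2) x := by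
    intro x hx
    have h2 : HasDerivAt (fun r : ℝ => 2 * r) 2 x := by
      simpa using (hasDerivAt_id x).const_mul 2
    exact (LL_hasDerivAt (by linarith [hx.1]) hx.2).sub h2
  have hmono : MonotoneOn (fun r => LL r - 2 * r) (Ico 0 1) := by
    refine monotoneOn_of_deriv_nonneg (convex_Ico 0 1) ?_ ?_ ?_
    · intro x hx
      exact (hder x hx).continuousAt.continuousWithinAt
    · intro x hx
      rw [interior_Ico] at hx
      exact (hder x ⟨hx.1.le, hx.2⟩).differentiableAt.differentiableWithinAt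
    · intro x hx
      rw [interior_Ico] at hx
      rw [(hder x ⟨hx.1.le, hx.2⟩).deriv]
      have h2 := one_sub_sq_pos (by linarith [hx.1] : -1 < x) hx.2
      have h3 : 2 ≤ 2 / (1 - x ^ 2) := by
        rw [le_div_iff₀ h2]
        nlinarith [sq_nonneg x]
      linarith
  have := hmono ⟨le_rfl, zero_lt_one⟩ ⟨h0, h1⟩ h0
  simp only [LL_zero] at this
  linarith

theorem LL_nonneg {r : ℝ} (h0 : 0 ≤ r) (h1 : r < 1) : 0 ≤ LL r :=
  le_trans (by linarith) (two_mul_le_LL h0 h1)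

theorem wf_zero : wf 0 = 0 := by simp [wf]

theorem wf_nonneg {r : ℝ} (h0 : 0 ≤ r) (h1 : r < 1) : 0 ≤ wf r :=
  mul_nonneg (by linarith) (LL_nonneg h0 h1)

theorem wf_hasDerivAt {r : ℝ} (h0 : -1 < r) (h1 : r < 1) :
    HasDerivAt wf (2 * LL r + 2 * r * (2 / (1 - r ^ 2))) r := by
  unfold wf
  have h2 : HasDerivAt (fun r : ℝ => 2 * r) 2 r := by
    simpa using (hasDerivAt_id r).const_mul 2
  exact h2.mul (LL_hasDerivAt h0 h1)

theorem wf_deriv_eq {r : ℝ} (h0 : 0 < r) (h1 : r < 1) :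
    2 * LL r + 2 * r * (2 / (1 - r ^ 2)) = lam r * (LL r / 2) := by
  have h2 := LL_pos h0 h1
  have h3 := one_sub_sq_pos (by linarith : -1 < r) h1
  unfold lam
  field_simp
  ring

/-- `r / ((1 - r ^ 2) L(r))` is increasing -/
theorem lam_monotoneOn : MonotoneOn lam (Ioo 0 1) := by
  have hder : ∀ r ∈ Ioo (0 : ℝ) 1, HasDerivAt (fun r => r / ((1 - r ^ 2) * LL r))
      (((1 + r ^ 2) * LL r - 2 * r) / ((1 - r ^ 2) * LL r) ^ 2) r := by
    intro r hr
    have h2 := LL_pos hr.1 hr.2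
    have h3 := one_sub_sq_pos (by linarith [hr.1] : -1 < r) hr.2
    have h4 : HasDerivAt (fun r : ℝ => 1 - r ^ 2) (-(2 * r)) r := by
      have := (hasDerivAt_pow 2 r).const_sub 1
      simpa using this
    have h5 := (hasDerivAt_id r).div (h4.mul (LL_hasDerivAt (by linarith [hr.1]) hr.2))
      (mul_pos h3 h2).ne'
    convert! h5 using 1
    simp only [id, Pi.mul_apply]
    congr 1
    field_simp
    ring
  have hmono : MonotoneOn (fun r => r / ((1 - r ^ 2) * LL r)) (Ioo 0 1) := by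
    refine monotoneOn_of_deriv_nonneg (convex_Ioo 0 1) ?_ ?_ ?_
    · intro x hx
      exact (hder x hx).continuousAt.continuousWithinAt
    · intro x hx
      rw [interior_Ioo] at hx
      exact (hder x hx).differentiableAt.differentiableWithinAt
    · intro x hx
      rw [interior_Ioo] at hx
      rw [(hder x hx).deriv]
      apply div_nonneg _ (sq_nonneg _)
      have h2 := two_mul_le_LL hx.1.le hx.2
      have h3 := LL_nonneg hx.1.le hx.2
      nlinarith [mul_nonneg (sq_nonneg x) h3]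
  intro a ha b hb hab
  unfold lam
  have := hmono ha hb hab
  simp only at this
  linarith

/-- supporting lines of `Psi` -/
theorem wf_ge_tangent {r s : ℝ} (hr0 : 0 < r) (hr1 : r < 1) (hs0 : 0 ≤ s) (hs1 : s < 1) :
    wf r + lam r * (Phi s - Phi r) ≤ wf s := by
  have hcont : ∀ x ∈ Ico (0 : ℝ) 1, ContinuousAt (fun s => wf s - lam r * Phi s) x := by
    intro x hx
    exact ((wf_hasDerivAt (by linarith [hx.1]) hx.2).sub
      ((Phi_hasDerivAt (by linarith [hx.1]) hx.2).const_mul (lam r))).continuousAt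
  have hder : ∀ x ∈ Ioo (0 : ℝ) 1, HasDerivAt (fun s => wf s - lam r * Phi s)
      ((lam x - lam r) * (LL x / 2)) x := by
    intro x hx
    have h1 := (wf_hasDerivAt (by linarith [hx.1]) hx.2).sub
      ((Phi_hasDerivAt (by linarith [hx.1]) hx.2).const_mul (lam r))
    convert! h1 using 1
    rw [wf_deriv_eq hx.1 hx.2]
    ring
  have hL : ∀ x ∈ Ioo (0 : ℝ) 1, 0 ≤ LL x / 2 := fun x hx =>
    (half_pos (LL_pos hx.1 hx.2)).le
  have key : wf r - lam r * Phi r ≤ wf s - lam r * Phi s := by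
    rcases le_total s r with h | h
    · -- decreasing on `[0, r]`
      have hanti : AntitoneOn (fun s => wf s - lam r * Phi s) (Icc 0 r) := by
        refine antitoneOn_of_deriv_nonpos (convex_Icc 0 r) ?_ ?_ ?_
        · intro x hx
          exact (hcont x ⟨hx.1, hx.2.trans_lt hr1⟩).continuousWithinAt
        · intro x hx
          rw [interior_Icc] at hx
          exact (hder x ⟨hx.1, hx.2.trans hr1⟩).differentiableAt.differentiableWithinAt
        · intro x hx
          rw [interior_Icc] at hx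
          rw [(hder x ⟨hx.1, hx.2.trans hr1⟩).deriv]
          have h2 := lam_monotoneOn ⟨hx.1, hx.2.trans hr1⟩ ⟨hr0, hr1⟩ hx.2.le
          have h3 := hL x ⟨hx.1, hx.2.trans hr1⟩
          nlinarith
      exact hanti ⟨hs0, h⟩ ⟨hr0.le, le_rfl⟩ h
    · have hmono : MonotoneOn (fun s => wf s - lam r * Phi s) (Ico r 1) := by
        refine monotoneOn_of_deriv_nonneg (convex_Ico r 1) ?_ ?_ ?_
        · intro x hx
          exact (hcont x ⟨hr0.le.trans hx.1, hx.2⟩).continuousWithinAt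
        · intro x hx
          rw [interior_Ico] at hx
          exact (hder x ⟨hr0.trans hx.1, hx.2⟩).differentiableAt.differentiableWithinAt
        · intro x hx
          rw [interior_Ico] at hx
          rw [(hder x ⟨hr0.trans hx.1, hx.2⟩).deriv]
          have h2 := lam_monotoneOn ⟨hr0, hr1⟩ ⟨hr0.trans hx.1, hx.2⟩ hx.1.le
          have h3 := hL x ⟨hr0.trans hx.1, hx.2⟩
          nlinarith
      exact hmono ⟨le_rfl, hr1⟩ ⟨h, hs1⟩ h
  linarith

theorem wf_monotoneOn : MonotoneOn wf (Ico 0 1) := by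
  refine monotoneOn_of_deriv_nonneg (convex_Ico 0 1) ?_ ?_ ?_
  · intro x hx
    exact (wf_hasDerivAt (by linarith [hx.1]) hx.2).continuousAt.continuousWithinAt
  · intro x hx
    rw [interior_Ico] at hx
    exact (wf_hasDerivAt (by linarith [hx.1]) hx.2).differentiableAt.differentiableWithinAt
  · intro x hx
    rw [interior_Ico] at hx
    rw [(wf_hasDerivAt (by linarith [hx.1]) hx.2).deriv]
    have h2 := LL_nonneg hx.1.le hx.2
    have h3 := one_sub_sq_pos (by linarith [hx.1] : -1 < x) hx.2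
    have h4 : 0 ≤ 2 / (1 - x ^ 2) := by positivity
    nlinarith [mul_nonneg hx.1.le h4]

theorem Phi_mem {r : ℝ} (h0 : 0 < r) (h1 : r < 1) : 0 < Phi r ∧ Phi r < log 2 := by
  constructor
  · rw [← Phi_zero]
    exact Phi_strictMonoOn ⟨le_rfl, zero_le_one⟩ ⟨h0.le, h1.le⟩ h0
  · rw [← Phi_one]
    exact Phi_strictMonoOn ⟨h0.le, h1.le⟩ ⟨zero_le_one, le_rfl⟩ h1

theorem Kinv_Phi {r : ℝ} (h0 : 0 < r) (h1 : r < 1) : Kinv (Phi r) = r := by
  have h2 := Phi_mem h0 h1
  have h3 := Kinv_mem h2.1 h2.2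
  exact Phi_strictMonoOn.injOn ⟨h3.1.le, h3.2.le⟩ ⟨h0.le, h1.le⟩ (Phi_Kinv h2.1 h2.2)

theorem Psi_Phi {r : ℝ} (h0 : 0 ≤ r) (h1 : r < 1) : Psi (Phi r) = wf r := by
  rcases eq_or_lt_of_le h0 with h | h
  · rw [← h, Phi_zero, wf_zero]
    simp [Psi]
  · have h2 := Phi_mem h h1
    rw [Psi, if_pos h2.1, Kinv_Phi h h1]

theorem Psi_of_nonpos {y : ℝ} (h : y ≤ 0) : Psi y = 0 := by
  rw [Psi, if_neg (not_lt.2 h)]

theorem Psi_zero : Psi 0 = 0 := Psi_of_nonpos le_rfl

/-- every `y ∈ [0, log 2)` is `Phi s` -/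
theorem exists_Phi' {y : ℝ} (h0 : 0 ≤ y) (h1 : y < log 2) :
    ∃ s, 0 ≤ s ∧ s < 1 ∧ Phi s = y ∧ Psi y = wf s := by
  rcases eq_or_lt_of_le h0 with h | h
  · exact ⟨0, le_rfl, zero_lt_one, by rw [Phi_zero, h], by rw [← h, Psi_zero, wf_zero]⟩
  · have h2 := Kinv_mem h h1
    exact ⟨Kinv y, h2.1.le, h2.2, Phi_Kinv h h1, by rw [Psi, if_pos h]⟩

theorem Psi_nonneg {y : ℝ} (h1 : y < log 2) : 0 ≤ Psi y := by
  rcases le_or_gt y 0 with h | h
  · rw [Psi_of_nonpos h]
  · obtain ⟨s, hs0, hs1, _, hs⟩ := exists_Phi' h.le h1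
    rw [hs]
    exact wf_nonneg hs0 hs1

theorem Psi_mono {x y : ℝ} (hxy : x ≤ y) (hy : y < log 2) : Psi x ≤ Psi y := by
  rcases le_or_gt x 0 with h | h
  · rw [Psi_of_nonpos h]
    exact Psi_nonneg hy
  · obtain ⟨s, hs0, hs1, hs2, hs⟩ := exists_Phi' h.le (hxy.trans_lt hy)
    obtain ⟨t, ht0, ht1, ht2, ht⟩ := exists_Phi' (h.le.trans hxy) hy
    rw [hs, ht]
    refine wf_monotoneOn ⟨hs0, hs1⟩ ⟨ht0, ht1⟩ ?_
    rw [← hs2, ← ht2] at hxy
    exact (Phi_strictMonoOn.le_iff_le ⟨hs0, hs1.le⟩ ⟨ht0, ht1.le⟩).1 hxy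

/-- supporting line of `Psi` at `Phi r` -/
theorem Psi_ge_tangent {r : ℝ} (hr0 : 0 < r) (hr1 : r < 1) {y : ℝ} (h0 : 0 ≤ y)
    (h1 : y < log 2) : wf r + lam r * (y - Phi r) ≤ Psi y := by
  obtain ⟨s, hs0, hs1, hs2, hs⟩ := exists_Phi' h0 h1
  rw [hs, ← hs2]
  exact wf_ge_tangent hr0 hr1 hs0 hs1

theorem lam_pos {r : ℝ} (hr0 : 0 < r) (hr1 : r < 1) : 4 < lam r := by
  unfold lam
  have h2 := LL_pos hr0 hr1
  have h3 := one_sub_sq_pos (by linarith : -1 < r) hr1
  have : 0 < r / ((1 - r ^ 2) * LL r) := by positivity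
  linarith

theorem Psi_ge_tangent' {r : ℝ} (hr0 : 0 < r) (hr1 : r < 1) {y : ℝ} (h1 : y < log 2) :
    wf r + lam r * (y - Phi r) ≤ Psi y := by
  rcases le_or_gt 0 y with h | h
  · exact Psi_ge_tangent hr0 hr1 h h1
  · have h2 := Psi_ge_tangent hr0 hr1 le_rfl (log_pos one_lt_two)
    rw [Psi_zero] at h2
    rw [Psi_of_nonpos h.le]
    nlinarith [lam_pos hr0 hr1]

/-- `Psi` is convex on `(-∞, log 2)` -/
theorem Psi_convexOn : ConvexOn ℝ (Iio (log 2)) Psi := by
  refine ⟨convex_Iio _, fun x hx y hy a b ha hb hab => ?_⟩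
  simp only [smul_eq_mul]
  have hx' : x < log 2 := hx
  have hy' : y < log 2 := hy
  have hz : a * x + b * y < log 2 := by
    rcases eq_or_lt_of_le ha with h | h
    · rw [← h] at hab ⊢
      have : b = 1 := by linarith
      rw [this]; linarith
    · have : a * x < a * log 2 := mul_lt_mul_of_pos_left hx' h
      have h2 : b * y ≤ b * log 2 := mul_le_mul_of_nonneg_left hy'.le hb
      calc a * x + b * y < a * log 2 + b * log 2 := by linarith
        _ = log 2 := by rw [← add_mul, hab, one_mul]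
  rcases le_or_gt (a * x + b * y) 0 with h | h
  · rw [Psi_of_nonpos h]
    have h1 := Psi_nonneg hx'
    have h2 := Psi_nonneg hy'
    positivity
  · set z := a * x + b * y with hzdef
    have hK := Kinv_mem h hz
    have h1 := Psi_ge_tangent' hK.1 hK.2 hx'
    have h2 := Psi_ge_tangent' hK.1 hK.2 hy'
    have h3 : Psi z = wf (Kinv z) := by rw [Psi, if_pos h]
    rw [Phi_Kinv h hz] at h1 h2
    rw [h3]
    calc wf (Kinv z) = a * (wf (Kinv z) + lam (Kinv z) * (x - z)) +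
          b * (wf (Kinv z) + lam (Kinv z) * (y - z)) := by
          have e : a * (wf (Kinv z) + lam (Kinv z) * (x - z)) +
            b * (wf (Kinv z) + lam (Kinv z) * (y - z)) =
            (a + b) * wf (Kinv z) + lam (Kinv z) * ((a * x + b * y) - (a + b) * z) := by ring
          rw [e, hab, ← hzdef]
          ring
      _ ≤ a * Psi x + b * Psi y :=
          add_le_add (mul_le_mul_of_nonneg_left h1 ha) (mul_le_mul_of_nonneg_left h2 hb)

/-- (D) follows from `P(u) ≥ Psi(I(u))`. -/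
theorem DD_of_Psi (h : ∀ (n : ℕ) (u : Cube n → ℝ), (∀ x, 0 < u x ∧ u x < 1) → Psi (II u) ≤ PP u) :
    DD := by
  intro n u hu r hr0 hr1 hr
  refine le_trans ?_ (h n u hu)
  have h1 : II u < log 2 := by
    unfold II
    have h2 : 0 < av (fun x => binEntropy (u x)) :=
      av_pos fun x => binEntropy_pos (hu x).1 (hu x).2
    have h3 : binEntropy (av u) ≤ log 2 := binEntropy_le_log_two
    linarith
  have h2 := Psi_mono hr h1
  rw [Psi_Phi hr0.le hr1] at h2
  exact h2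

end Vale.Agent.CK
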