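import Vale.Agent.CK.Flow

/-!
# P322: (D) implies the Courtade-Kumar inequality
-/

namespace Vale.Agent.CK

open Finset Real

variable {n : ℕ}

theorem WW_symm (a b : ℝ) : WW a b = WW b a := by
  unfold WW
  ring

theorem lgt_strictMono {a b : ℝ} (ha : 0 < a) (hb : b < 1) (h : a < b) : lgt a < lgt b := by
  unfold lgt
  have h1 := log_lt_log ha h
  have h2 := log_lt_log (by linarith : (0 : ℝ) < 1 - b) (by linarith : 1 - b < 1 - a)
  linarith

theorem WW_nonneg {a b : ℝ} (ha : 0 < a ∧ a < 1) (hb : 0 < b ∧ b < 1) : 0 ≤ WW a b := by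
  unfold WW
  rcases lt_trichotomy a b with h | h | h
  · have := lgt_strictMono ha.1 hb.2 h
    nlinarith
  · rw [h]; simp
  · have := lgt_strictMono hb.1 ha.2 h
    nlinarith

theorem PP_nonneg {u : Cube n → ℝ} (hu : ∀ x, 0 < u x ∧ u x < 1) : 0 ≤ PP u :=
  Finset.sum_nonneg fun i _ => av_nonneg fun x => WW_nonneg (hu x) (hu _)

theorem PP_eq (u : Cube n → ℝ) :
    PP u = 4 * av (fun y => lgt (u y) * ∑ i, (u y - u (flip i y)) / 2) := by
  have h1 : (fun y => lgt (u y) * ∑ i, (u y - u (flip i y)) / 2) =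
      fun y => ∑ i, lgt (u y) * ((u y - u (flip i y)) / 2) := by
    funext y
    rw [Finset.mul_sum]
  rw [h1, av_sum, Finset.mul_sum]
  unfold PP
  refine Finset.sum_congr rfl fun i _ => ?_
  have h2 : (fun x => WW (u x) (u (flip i x))) = fun x =>
      (2 * (lgt (u x) * ((u x - u (flip i x)) / 2))) +
        (2 * (lgt (u (flip i x)) * ((u (flip i x) - u x) / 2))) := by
    funext x
    unfold WW
    ring
  rw [h2, av_add]
  have h3 : av (fun x => 2 * (lgt (u (flip i x)) * ((u (flip i x) - u x) / 2))) =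
      av (fun x => 2 * (lgt (u x) * ((u x - u (flip i x)) / 2))) := by
    rw [← av_flip i (fun x => 2 * (lgt (u x) * ((u x - u (flip i x)) / 2)))]
    simp only [flip_flip]
  rw [h3, av_mul_left]
  ring

/-- derivative of `r ↦ I(T_r f)` -/
noncomputable def dJ (f : Cube n → ℝ) (r : ℝ) : ℝ :=
  av (fun y => lgt (TT r f y) * ∑ x, dker r x y * f x)

theorem mul_dJ (f : Cube n → ℝ) (r : ℝ) : r * dJ f r = PP (TT r f) / 4 := by
  unfold dJ
  rw [PP_eq, ← av_mul_left]
  have : (fun y => r * (lgt (TT r f y) * ∑ x, dker r x y * f x)) =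
      fun y => lgt (TT r f y) * ∑ i, (TT r f y - TT r f (flip i y)) / 2 := by
    funext y
    rw [← mul_dTT]
    ring
  rw [this]
  ring

theorem hasDerivAt_J (f : Cube n → ℝ) {r : ℝ} (hu : ∀ y, 0 < TT r f y ∧ TT r f y < 1) :
    HasDerivAt (fun r => II (TT r f)) (dJ f r) r := by
  have h1 : (fun r => II (TT r f)) =
      fun r => binEntropy (av f) - (∑ y, binEntropy (TT r f y)) / 2 ^ n := by
    funext r
    unfold II
    rw [av_TT]
    rfl
  rw [h1]
  have h2 : HasDerivAt (fun r => (∑ y, binEntropy (TT r f y)) / 2 ^ n)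
      ((∑ y, (log (1 - TT r f y) - log (TT r f y)) * ∑ x, dker r x y * f x) / 2 ^ n) r := by
    refine HasDerivAt.div_const (HasDerivAt.fun_sum fun y _ => ?_) _
    exact (hasDerivAt_binEntropy (hu y).1.ne' (hu y).2.ne).comp r (hasDerivAt_TT r f y)
  convert! h2.const_sub (binEntropy (av f)) using 1
  unfold dJ av lgt
  rw [← neg_div, ← Finset.sum_neg_distrib]
  congr 1
  refine Finset.sum_congr rfl fun y _ => ?_
  ring

theorem TT_nonneg {f : Cube n → ℝ} (hf : ∀ x, 0 ≤ f x) {r : ℝ} (h0 : -1 ≤ r) (h1 : r ≤ 1)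
    (y : Cube n) : 0 ≤ TT r f y :=
  Finset.sum_nonneg fun x _ => mul_nonneg (Finset.prod_nonneg fun i _ => kf_nonneg h0 h1 _ _) (hf x)

theorem TT_one_sub (f : Cube n → ℝ) (r : ℝ) (y : Cube n) :
    TT r (fun x => 1 - f x) y = 1 - TT r f y := by
  unfold TT
  simp only [mul_sub, mul_one]
  rw [Finset.sum_sub_distrib, sum_ker]

theorem ker_pos {r : ℝ} (h0 : -1 < r) (h1 : r < 1) (x y : Cube n) : 0 < ker r x y :=
  Finset.prod_pos fun i _ => kf_pos h0 h1 _ _

theorem TT_pos {f : Cube n → ℝ} (hf : ∀ x, 0 ≤ f x) {r : ℝ} (h0 : -1 < r) (h1 : r < 1)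
    (hx : ∃ x, 0 < f x) (y : Cube n) : 0 < TT r f y := by
  obtain ⟨x, hx⟩ := hx
  refine Finset.sum_pos' (fun x _ => mul_nonneg (ker_pos h0 h1 x y).le (hf x))
    ⟨x, Finset.mem_univ x, mul_pos (ker_pos h0 h1 x y) hx⟩

theorem TT_const (c r : ℝ) (y : Cube n) : TT r (fun _ => c) y = c := by
  unfold TT
  rw [← Finset.sum_mul, sum_ker, one_mul]

theorem II_const (c : ℝ) : II (fun _ : Cube n => c) = 0 := by
  unfold II
  rw [av_const, av_const, sub_self]

theorem TT_zero (f : Cube n → ℝ) : TT 0 f = fun _ => av f := by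
  funext y
  unfold TT av
  rw [Finset.sum_div]
  refine Finset.sum_congr rfl fun x _ => ?_
  have : ker 0 x y = 1 / 2 ^ n := by
    unfold ker
    simp
  rw [this]
  ring

/-- Main reduction: (D) implies the inequality of Courtade and Kumar (in nats). -/
theorem II_le_of_DD (hD : DD) (f : Cube n → ℝ) (hf : ∀ x, f x = 0 ∨ f x = 1) (r : ℝ)
    (h0 : 0 ≤ r) (h1 : r ≤ 1) : II (TT r f) ≤ Phi r := by
  have hf0 : ∀ x, 0 ≤ f x := fun x => by rcases hf x with h | h <;> rw [h]; norm_num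
  have hf1 : ∀ x, 0 ≤ 1 - f x := fun x => by rcases hf x with h | h <;> rw [h] <;> norm_num
  have hPhi : ∀ r : ℝ, 0 ≤ r → r ≤ 1 → 0 ≤ Phi r := by
    intro r h0 h1
    rw [← Phi_zero]
    exact Phi_strictMonoOn.monotoneOn ⟨le_rfl, zero_le_one⟩ ⟨h0, h1⟩ h0
  rcases eq_or_lt_of_le h0 with h | h0'
  · rw [← h, TT_zero, II_const, Phi_zero]
  rcases eq_or_lt_of_le h1 with h | h1'
  · rw [h, Phi_one]
    unfold II
    have h2 : 0 ≤ av (fun x => binEntropy (TT 1 f x)) := av_nonneg fun x => by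
      refine binEntropy_nonneg (TT_nonneg hf0 (by norm_num) le_rfl x) ?_
      have := TT_nonneg hf1 (by norm_num : (-1 : ℝ) ≤ 1) le_rfl x
      rw [TT_one_sub] at this
      linarith
    have h3 : binEntropy (av (TT 1 f)) ≤ log 2 := binEntropy_le_log_two
    linarith
  by_cases hc0 : ∃ x, 0 < f x
  swap
  · have : f = fun _ => 0 := by
      funext x
      push Not at hc0
      exact le_antisymm (hc0 x) (hf0 x)
    rw [this]
    have h2 : TT r (fun _ : Cube n => (0 : ℝ)) = fun _ => 0 := funext fun y => TT_const 0 r y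
    rw [h2, II_const]
    exact hPhi r h0 h1
  by_cases hc1 : ∃ x, 0 < 1 - f x
  swap
  · have : f = fun _ => 1 := by
      funext x
      push Not at hc1
      linarith [hc1 x, hf1 x]
    rw [this]
    have h2 : TT r (fun _ : Cube n => (1 : ℝ)) = fun _ => 1 := funext fun y => TT_const 1 r y
    rw [h2, II_const]
    exact hPhi r h0 h1
  have hu : ∀ s, 0 < s → s < 1 → ∀ y, 0 < TT s f y ∧ TT s f y < 1 := by
    intro s hs0 hs1 y
    refine ⟨TT_pos hf0 (by linarith) hs1 hc0 y, ?_⟩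
    have := TT_pos hf1 (by linarith : -1 < s) hs1 hc1 y
    rw [TT_one_sub] at this
    linarith
  refine compare (fun r => II (TT r f)) (dJ f) (fun s hs0 hs1 => hasDerivAt_J f (hu s hs0 hs1))
    ?_ ?_ ?_ r h0' h1'
  · intro s hs0 hs1
    have h2 := mul_dJ f s
    have h3 := PP_nonneg (hu s hs0 hs1)
    by_contra hneg
    push Not at hneg
    nlinarith
  · intro s hs0 hs1
    unfold II
    have h2 : 0 < av (fun x => binEntropy (TT s f x)) :=
      av_pos fun x => binEntropy_pos (hu s hs0 hs1 x).1 (hu s hs0 hs1 x).2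
    have h3 : binEntropy (av (TT s f)) ≤ log 2 := binEntropy_le_log_two
    linarith
  · intro s t hs0 hs1 ht0 ht1 heq
    have h2 := hD n (TT s f) (hu s hs0 hs1) t ht0 ht1 heq.ge
    have h3 := mul_dJ f s
    linarith

end Vale.Agent.CK
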