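import Vale.Agent.CK.Reduce

/-!
# P322: tensorisation
-/

namespace Vale.Agent.CK

open Finset Real

variable {n : ℕ}

/-- The two-point inequality for `G`. -/
def TP (G : ℝ → ℝ → ℝ) : Prop := ∀ (n : ℕ) (U V : Cube n → ℝ),
  (∀ x, 0 < U x ∧ U x < 1) → (∀ x, 0 < V x ∧ V x < 1) →
  G ((av U + av V) / 2) ((av (fun x => binEntropy (U x)) + av (fun x => binEntropy (V x))) / 2) ≤
    (G (av U) (av (fun x => binEntropy (U x))) + G (av V) (av (fun x => binEntropy (V x)))) / 2 +
      av (fun x => WW (U x) (V x))

theorem av_succ (f : Cube (n + 1) → ℝ) :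
    av f = (av (fun x : Cube n => f (Fin.cons false x)) +
      av (fun x : Cube n => f (Fin.cons true x))) / 2 := by
  unfold av
  have h : ∑ x : Cube (n + 1), f x =
      ∑ x : Cube n, f (Fin.cons false x) + ∑ x : Cube n, f (Fin.cons true x) := by
    rw [← (Fin.consEquiv (fun _ : Fin (n + 1) => Bool)).sum_comp f, Fintype.sum_prod_type,
      Fintype.sum_bool, add_comm]
    rfl
  rw [h, pow_succ]
  field_simp

theorem flip_zero (b : Bool) (x : Cube n) :
    flip 0 (Fin.cons b x : Cube (n + 1)) = (Fin.cons (!b) x : Cube (n + 1)) := by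
  unfold flip
  rw [Fin.update_cons_zero, Fin.cons_zero]

theorem flip_succ (b : Bool) (x : Cube n) (i : Fin n) :
    flip i.succ (Fin.cons b x : Cube (n + 1)) = (Fin.cons b (flip i x) : Cube (n + 1)) := by
  unfold flip
  rw [Fin.cons_succ, Fin.cons_update]

theorem PP_succ (u : Cube (n + 1) → ℝ) :
    PP u = (PP (fun x : Cube n => u (Fin.cons false x)) +
      PP (fun x : Cube n => u (Fin.cons true x))) / 2 +
        av (fun x : Cube n => WW (u (Fin.cons false x)) (u (Fin.cons true x))) := by
  unfold PP
  rw [Fin.sum_univ_succ]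
  have h0 : av (fun x => WW (u x) (u (flip 0 x))) =
      av (fun x : Cube n => WW (u (Fin.cons false x)) (u (Fin.cons true x))) := by
    rw [av_succ]
    simp only [flip_zero, Bool.not_false, Bool.not_true]
    have : (fun x : Cube n => WW (u (Fin.cons true x)) (u (Fin.cons false x))) =
        fun x : Cube n => WW (u (Fin.cons false x)) (u (Fin.cons true x)) := by
      funext x; exact WW_symm _ _
    rw [this]
    ring
  have h1 : ∀ i : Fin n, av (fun x => WW (u x) (u (flip i.succ x))) =
      (av (fun x : Cube n => WW (u (Fin.cons false x)) (u (Fin.cons false (flip i x)))) +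
        av (fun x : Cube n => WW (u (Fin.cons true x)) (u (Fin.cons true (flip i x))))) / 2 := by
    intro i
    rw [av_succ]
    simp only [flip_succ]
  rw [h0]
  simp only [h1]
  rw [← Finset.sum_div, Finset.sum_add_distrib]
  ring

theorem av_zero (f : Cube 0 → ℝ) (x : Cube 0) : av f = f x := by
  unfold av
  rw [Fintype.sum_subsingleton f x, pow_zero, div_one]

/-- Tensorisation of the two-point inequality. -/
theorem tensor (G : ℝ → ℝ → ℝ) (h0 : ∀ a, 0 < a → a < 1 → G a (binEntropy a) ≤ 0) (hTP : TP G) :
    ∀ (n : ℕ) (u : Cube n → ℝ), (∀ x, 0 < u x ∧ u x < 1) →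
      G (av u) (av (fun x => binEntropy (u x))) ≤ PP u := by
  intro n
  induction n with
  | zero =>
    intro u hu
    rw [av_zero u default, av_zero (fun x => binEntropy (u x)) default]
    have : PP u = 0 := by unfold PP; simp
    rw [this]
    exact h0 _ (hu _).1 (hu _).2
  | succ n ih =>
    intro u hu
    have h1 := ih (fun x => u (Fin.cons false x)) fun x => hu _
    have h2 := ih (fun x => u (Fin.cons true x)) fun x => hu _
    have h3 := hTP n (fun x => u (Fin.cons false x)) (fun x => u (Fin.cons true x))
      (fun x => hu _) fun x => hu _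
    rw [av_succ, av_succ (fun x => binEntropy (u x)), PP_succ]
    linarith

end Vale.Agent.CK
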